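import Mathlib.AlgebraicGeometry.EllipticCurve.Affine.Point
import Mathlib.Tactic.LinearCombination
import Mathlib.Tactic.FieldSimp

set_option autoImplicit false

namespace Vale.Agent.P017.H390

open WeierstrassCurve WeierstrassCurve.Affine

variable {F : Type*} [Field F]

/-- The curve `y ^ 2 = x (x + A) (x + B)`. -/
def EC (A B : F) : WeierstrassCurve F := ⟨0, A + B, 0, A * B, 0⟩

@[simp] lemma EC_a₁ (A B : F) : (EC A B).a₁ = 0 := rfl
@[simp] lemma EC_a₂ (A B : F) : (EC A B).a₂ = A + B := rfl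
@[simp] lemma EC_a₃ (A B : F) : (EC A B).a₃ = 0 := rfl
@[simp] lemma EC_a₄ (A B : F) : (EC A B).a₄ = A * B := rfl
@[simp] lemma EC_a₆ (A B : F) : (EC A B).a₆ = 0 := rfl

lemma EC_eq (A B x y : F) :
    (EC A B).toAffine.Equation x y ↔ y ^ 2 = x * (x + A) * (x + B) := by
  rw [equation_iff]
  simp only [EC_a₁, EC_a₂, EC_a₃, EC_a₄, EC_a₆]
  constructor <;> intro h <;> linear_combination h

lemma EC_Δ (A B : F) : (EC A B).Δ = 16 * (A * B * (A - B)) ^ 2 := by
  simp only [WeierstrassCurve.Δ, WeierstrassCurve.b₂, WeierstrassCurve.b₄, WeierstrassCurve.b₆,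
    WeierstrassCurve.b₈, EC_a₁, EC_a₂, EC_a₃, EC_a₄, EC_a₆]
  ring

lemma EC_ell {A B : F} (h2 : (2 : F) ≠ 0) (hA : A ≠ 0) (hB : B ≠ 0) (hAB : A - B ≠ 0) :
    (EC A B).IsElliptic := by
  refine ⟨?_⟩
  rw [EC_Δ, isUnit_iff_ne_zero]
  have : (16 : F) = 2 ^ 4 := by norm_num
  rw [this]
  exact mul_ne_zero (pow_ne_zero _ h2) (pow_ne_zero _ (mul_ne_zero (mul_ne_zero hA hB) hAB))

section

variable {A B : F} [DecidableEq F] [hE : (EC A B).IsElliptic]

omit [DecidableEq F] in
lemma ns {x y : F} (h : y ^ 2 = x * (x + A) * (x + B)) : (EC A B).toAffine.Nonsingular x y :=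
  (equation_iff_nonsingular (W := (EC A B))).mp ((EC_eq A B x y).mpr h)

/-- the affine point with given coordinates -/
def pt {x y : F} (h : y ^ 2 = x * (x + A) * (x + B)) : (EC A B).toAffine.Point :=
  Point.some x y (ns h)

omit [DecidableEq F] in
lemma exists_pt (P : (EC A B).toAffine.Point) (hP : P ≠ 0) :
    ∃ (x y : F) (h : y ^ 2 = x * (x + A) * (x + B)), P = pt h := by
  rcases P with _ | ⟨x, y, h⟩
  · exact absurd rfl hP
  · exact ⟨x, y, (EC_eq A B x y).mp h.1, rfl⟩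

/-- The three points of order two. -/
def T0 : (EC A B).toAffine.Point := pt (x := 0) (y := 0) (by ring)
def TA : (EC A B).toAffine.Point := pt (x := -A) (y := 0) (by ring)
def TB : (EC A B).toAffine.Point := pt (x := -B) (y := 0) (by ring)

omit [DecidableEq F] in
lemma negY_EC (x y : F) : (EC A B).toAffine.negY x y = -y := by
  simp [negY]

lemma two_nsmul_of_y_zero {x : F} (h : (0 : F) ^ 2 = x * (x + A) * (x + B)) :
    (pt h : (EC A B).toAffine.Point) + pt h = 0 := by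
  apply Point.add_self_of_Y_eq
  rw [negY_EC]; ring

lemma T0_add : (T0 : (EC A B).toAffine.Point) + T0 = 0 := two_nsmul_of_y_zero _
lemma TA_add : (TA : (EC A B).toAffine.Point) + TA = 0 := two_nsmul_of_y_zero _
lemma TB_add : (TB : (EC A B).toAffine.Point) + TB = 0 := two_nsmul_of_y_zero _

/-- adding `(0, 0)` -/
lemma add_T0 {x y : F} (h : y ^ 2 = x * (x + A) * (x + B)) (hx : x ≠ 0) :
    ∃ (y' : F) (h' : y' ^ 2 = (A * B / x) * ((A * B / x) + A) * ((A * B / x) + B)),
      (pt h : (EC A B).toAffine.Point) + T0 = pt h' := by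
  have hx' : x ≠ 0 := hx
  have hs : (EC A B).toAffine.slope x 0 y 0 = y / x := by
    rw [slope_of_X_ne hx]; simp
  have hX : (EC A B).toAffine.addX x 0 (y / x) = A * B / x := by
    simp only [addX, EC_a₁, EC_a₂]
    field_simp
    linear_combination h
  obtain ⟨x', y', h', e⟩ : ∃ (x' y' : F) (h' : (EC A B).toAffine.Nonsingular x' y'),
      x' = A * B / x ∧ (pt h : (EC A B).toAffine.Point) + T0 = Point.some x' y' h' := by
    refine ⟨_, _, _, ?_, Point.add_of_X_ne (h₁ := ns h) (h₂ := ns (by ring)) hx⟩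
    rw [hs, hX]
  obtain ⟨rfl, e⟩ := e
  exact ⟨y', (EC_eq A B _ _).mp h'.1, e⟩

/-- adding `(-A, 0)` -/
lemma add_TA {x y : F} (h : y ^ 2 = x * (x + A) * (x + B)) (hx : x + A ≠ 0) :
    ∃ (y' : F) (h' : y' ^ 2 = (-A * (x + B) / (x + A)) * ((-A * (x + B) / (x + A)) + A) *
        ((-A * (x + B) / (x + A)) + B)),
      (pt h : (EC A B).toAffine.Point) + TA = pt h' := by
  have hx' : x ≠ -A := fun h => hx (by rw [h]; ring)
  have hs : (EC A B).toAffine.slope x (-A) y 0 = y / (x + A) := by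
    rw [slope_of_X_ne hx']; simp
  have hX : (EC A B).toAffine.addX x (-A) (y / (x + A)) = -A * (x + B) / (x + A) := by
    simp only [addX, EC_a₁, EC_a₂]
    field_simp
    linear_combination h
  obtain ⟨x', y', h', e⟩ : ∃ (x' y' : F) (h' : (EC A B).toAffine.Nonsingular x' y'),
      x' = -A * (x + B) / (x + A) ∧
        (pt h : (EC A B).toAffine.Point) + TA = Point.some x' y' h' := by
    refine ⟨_, _, _, ?_, Point.add_of_X_ne (h₁ := ns h) (h₂ := ns (by ring)) hx'⟩
    rw [hs, hX]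
  obtain ⟨rfl, e⟩ := e
  exact ⟨y', (EC_eq A B _ _).mp h'.1, e⟩

/-- adding `(-B, 0)` -/
lemma add_TB {x y : F} (h : y ^ 2 = x * (x + A) * (x + B)) (hx : x + B ≠ 0) :
    ∃ (y' : F) (h' : y' ^ 2 = (-B * (x + A) / (x + B)) * ((-B * (x + A) / (x + B)) + A) *
        ((-B * (x + A) / (x + B)) + B)),
      (pt h : (EC A B).toAffine.Point) + TB = pt h' := by
  have hx' : x ≠ -B := fun h => hx (by rw [h]; ring)
  have hs : (EC A B).toAffine.slope x (-B) y 0 = y / (x + B) := by
    rw [slope_of_X_ne hx']; simp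
  have hX : (EC A B).toAffine.addX x (-B) (y / (x + B)) = -B * (x + A) / (x + B) := by
    simp only [addX, EC_a₁, EC_a₂]
    field_simp
    linear_combination h
  obtain ⟨x', y', h', e⟩ : ∃ (x' y' : F) (h' : (EC A B).toAffine.Nonsingular x' y'),
      x' = -B * (x + A) / (x + B) ∧
        (pt h : (EC A B).toAffine.Point) + TB = Point.some x' y' h' := by
    refine ⟨_, _, _, ?_, Point.add_of_X_ne (h₁ := ns h) (h₂ := ns (by ring)) hx'⟩
    rw [hs, hX]
  obtain ⟨rfl, e⟩ := e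
  exact ⟨y', (EC_eq A B _ _).mp h'.1, e⟩

/-- doubling -/
lemma add_self (h2 : (2 : F) ≠ 0) {x y : F} (h : y ^ 2 = x * (x + A) * (x + B)) (hy : y ≠ 0) :
    ∃ (y' : F) (h' : y' ^ 2 = ((x ^ 2 - A * B) ^ 2 / (4 * (x * (x + A) * (x + B)))) *
        (((x ^ 2 - A * B) ^ 2 / (4 * (x * (x + A) * (x + B)))) + A) *
        (((x ^ 2 - A * B) ^ 2 / (4 * (x * (x + A) * (x + B)))) + B)),
      (pt h : (EC A B).toAffine.Point) + pt h = pt h' := by
  have hy' : y ≠ (EC A B).toAffine.negY x y := by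
    rw [negY_EC]
    intro h0
    have : 2 * y = 0 := by linear_combination h0
    exact (mul_ne_zero h2 hy) this
  have hs : (EC A B).toAffine.slope x x y y = (3 * x ^ 2 + 2 * (A + B) * x + A * B) / (2 * y) := by
    rw [slope_of_Y_ne rfl hy', negY_EC]
    simp only [EC_a₁, EC_a₂, EC_a₄]
    congr 1 <;> ring
  have h4 : (4 : F) ≠ 0 := by
    have : (4 : F) = 2 ^ 2 := by norm_num
    rw [this]; exact pow_ne_zero _ h2
  have hX : (EC A B).toAffine.addX x x ((3 * x ^ 2 + 2 * (A + B) * x + A * B) / (2 * y)) =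
      (x ^ 2 - A * B) ^ 2 / (4 * (x * (x + A) * (x + B))) := by
    rw [← h]
    simp only [addX, EC_a₁, EC_a₂]
    field_simp
    linear_combination (-(16 * (A + B)) - 32 * x) * h
  obtain ⟨x', y', h', e⟩ : ∃ (x' y' : F) (h' : (EC A B).toAffine.Nonsingular x' y'),
      x' = (x ^ 2 - A * B) ^ 2 / (4 * (x * (x + A) * (x + B))) ∧
        (pt h : (EC A B).toAffine.Point) + pt h = Point.some x' y' h' := by
    refine ⟨_, _, _, ?_, Point.add_self_of_Y_ne (h₁ := ns h) hy'⟩
    rw [hs, hX]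
  obtain ⟨rfl, e⟩ := e
  exact ⟨y', (EC_eq A B _ _).mp h'.1, e⟩

/-- halving -/
lemma half (h2 : (2 : F) ≠ 0) {x y r s t : F} (h : y ^ 2 = x * (x + A) * (x + B))
    (hr : x = r ^ 2) (hs : x + A = s ^ 2) (ht : x + B = t ^ 2)
    (hA : A ≠ 0) (hB : B ≠ 0) (hAB : A - B ≠ 0) :
    ∃ Q : (EC A B).toAffine.Point, Q + Q = pt h := by
  -- choose the sign
  obtain ⟨r, hr, hy⟩ : ∃ r' : F, x = r' ^ 2 ∧ y = r' * s * t := by
    have : y ^ 2 = (r * s * t) ^ 2 := by rw [h, hs, ht, hr]; ring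
    rcases sq_eq_sq_iff_eq_or_eq_neg.mp this with h0 | h0
    · exact ⟨r, hr, h0⟩
    · exact ⟨-r, by rw [hr]; ring, by rw [h0]; ring⟩
  subst hy
  have hA' : A = s ^ 2 - r ^ 2 := by rw [← hs, hr]; ring
  have hB' : B = t ^ 2 - r ^ 2 := by rw [← ht, hr]; ring
  have n1 : r + s ≠ 0 := fun h0 => hA (by rw [hA']; linear_combination (s - r) * h0)
  have n2 : r + t ≠ 0 := fun h0 => hB (by rw [hB']; linear_combination (t - r) * h0)
  have n3 : s + t ≠ 0 := fun h0 => hAB (by rw [hA', hB']; linear_combination (s - t) * h0)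
  have hQ : ((r + s) * (r + t) * (s + t)) ^ 2 =
      (x + r * s + r * t + s * t) * ((x + r * s + r * t + s * t) + A) *
        ((x + r * s + r * t + s * t) + B) := by
    rw [hA', hB', hr]; ring
  refine ⟨pt hQ, ?_⟩
  have hY0 : (r + s) * (r + t) * (s + t) ≠ 0 := mul_ne_zero (mul_ne_zero n1 n2) n3
  have hy' : (r + s) * (r + t) * (s + t) ≠
      (EC A B).toAffine.negY (x + r * s + r * t + s * t) ((r + s) * (r + t) * (s + t)) := by
    rw [negY_EC]
    intro h0
    have : 2 * ((r + s) * (r + t) * (s + t)) = 0 := by linear_combination h0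
    exact (mul_ne_zero h2 hY0) this
  have hsl : (EC A B).toAffine.slope (x + r * s + r * t + s * t) (x + r * s + r * t + s * t)
      ((r + s) * (r + t) * (s + t)) ((r + s) * (r + t) * (s + t)) = r + s + t := by
    rw [slope_of_Y_ne rfl hy', negY_EC]
    simp only [EC_a₁, EC_a₂, EC_a₄]
    rw [div_eq_iff]
    · rw [hA', hB', hr]; ring
    · intro h0
      have : 2 * ((r + s) * (r + t) * (s + t)) = 0 := by linear_combination h0
      exact (mul_ne_zero h2 hY0) this
  unfold pt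
  rw [Point.add_self_of_Y_ne hy', Point.some.injEq, hsl]
  constructor
  · simp only [addX, EC_a₁, EC_a₂]
    rw [hA', hB', hr]; ring
  · rw [addY, negAddY, negY_EC]
    simp only [addX, EC_a₁, EC_a₂]
    rw [hA', hB', hr]; ring

end

end Vale.Agent.P017.H390
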