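import Mathlib

set_option autoImplicit false

namespace Vale.Agent.P017.H390

/-- height of a rational number -/
def ht (x : ℚ) : ℤ := max |x.num| (x.den : ℤ)

lemma one_le_ht (x : ℚ) : 1 ≤ ht x := le_trans (by exact_mod_cast x.pos) (le_max_right _ _)

lemma exists_c {x : ℚ} {f g : ℤ} (hg : g ≠ 0) (h : x = f / g) :
    ∃ c : ℤ, c ≠ 0 ∧ f = c * x.num ∧ g = c * x.den := by
  obtain ⟨c, h1, h2⟩ := Rat.num_den_mk (q := x) hg (by rw [h, Rat.divInt_eq_div])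
  exact ⟨c, fun h0 => hg (by rw [h2, h0, zero_mul]), h1, h2⟩

lemma ht_le {x : ℚ} {f g : ℤ} (hg : g ≠ 0) (h : x = f / g) : ht x ≤ max |f| |g| := by
  obtain ⟨c, hc, h1, h2⟩ := exists_c hg h
  have hc1 : 1 ≤ |c| := Int.one_le_abs hc
  have e1 : |x.num| ≤ |f| := by
    rw [h1, abs_mul]; nlinarith [abs_nonneg x.num]
  have e2 : (x.den : ℤ) ≤ |g| := by
    rw [h2, abs_mul, Nat.abs_cast]; nlinarith [Int.natCast_nonneg x.den]
  exact max_le_max e1 e2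

lemma le_ht {x : ℚ} {f g : ℤ} (hg : g ≠ 0) (h : x = f / g) {K : ℤ}
    (hK : ∀ c : ℤ, c ∣ f → c ∣ g → |c| ≤ K) : max |f| |g| ≤ K * ht x := by
  obtain ⟨c, hc, h1, h2⟩ := exists_c hg h
  have hcK : |c| ≤ K := hK c ⟨_, h1⟩ ⟨_, h2⟩
  have e0 : 0 ≤ ht x := le_trans zero_le_one (one_le_ht x)
  refine max_le ?_ ?_
  · rw [h1, abs_mul]
    exact mul_le_mul hcK (le_max_left _ _) (abs_nonneg _) (le_trans (abs_nonneg c) hcK)
  · rw [h2, abs_mul, Nat.abs_cast]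
    exact mul_le_mul hcK (le_max_right _ _) (Int.natCast_nonneg _) (le_trans (abs_nonneg c) hcK)

lemma finite_ht (N : ℤ) : {x : ℚ | ht x ≤ N}.Finite := by
  have : {x : ℚ | ht x ≤ N} ⊆
      (fun z : ℤ × ℤ => (z.1 : ℚ) / z.2) '' ((Set.Icc (-N) N) ×ˢ (Set.Icc 0 N)) := by
    intro x hx
    have h1 : |x.num| ≤ N := le_trans (le_max_left _ _) hx
    have h2 : (x.den : ℤ) ≤ N := le_trans (le_max_right _ _) hx
    refine ⟨(x.num, x.den), ⟨?_, ?_⟩, ?_⟩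
    · exact ⟨(abs_le.mp h1).1, (abs_le.mp h1).2⟩
    · exact ⟨Int.natCast_nonneg _, h2⟩
    · simp [Rat.num_div_den]
  exact Set.Finite.subset (((Set.finite_Icc _ _).prod (Set.finite_Icc _ _)).image _) this

def cs (c0 c1 c2 c3 : ℤ) : ℤ := |c0| + |c1| + |c2| + |c3|

lemma cs_nonneg (c0 c1 c2 c3 : ℤ) : 0 ≤ cs c0 c1 c2 c3 := by unfold cs; positivity

lemma cubic_le (c0 c1 c2 c3 p q N : ℤ) (hp : |p| ≤ N) (hq : |q| ≤ N) :
    |c0 * p ^ 3 + c1 * p ^ 2 * q + c2 * p * q ^ 2 + c3 * q ^ 3| ≤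
      cs c0 c1 c2 c3 * N ^ 3 := by
  have hN : 0 ≤ N := le_trans (abs_nonneg p) hp
  have t0 : |c0 * p ^ 3| ≤ |c0| * N ^ 3 := by
    rw [abs_mul, abs_pow]; gcongr
  have t1 : |c1 * p ^ 2 * q| ≤ |c1| * N ^ 3 := by
    rw [abs_mul, abs_mul, abs_pow]
    calc |c1| * |p| ^ 2 * |q| ≤ |c1| * N ^ 2 * N := by gcongr
      _ = |c1| * N ^ 3 := by ring
  have t2 : |c2 * p * q ^ 2| ≤ |c2| * N ^ 3 := by
    rw [abs_mul, abs_mul, abs_pow]
    calc |c2| * |p| * |q| ^ 2 ≤ |c2| * N * N ^ 2 := by gcongr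
      _ = |c2| * N ^ 3 := by ring
  have t3 : |c3 * q ^ 3| ≤ |c3| * N ^ 3 := by
    rw [abs_mul, abs_pow]; gcongr
  unfold cs
  calc _ ≤ |c0 * p ^ 3| + |c1 * p ^ 2 * q| + |c2 * p * q ^ 2| + |c3 * q ^ 3| := by
        refine le_trans (abs_add_le _ _) ?_
        gcongr
        refine le_trans (abs_add_le _ _) ?_
        gcongr
        exact abs_add_le _ _
    _ ≤ _ := by linarith

lemma two_terms {u v f g R s1 s2 S M : ℤ} (hM : 0 ≤ M) (hu : |u| ≤ s1 * M) (hv : |v| ≤ s2 * M)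
    (h1 : s1 ≤ S) (h2 : s2 ≤ S) (h : u * f + v * g = R) : |R| ≤ S * M * (|f| + |g|) := by
  rw [← h]
  refine le_trans (abs_add_le _ _) ?_
  rw [abs_mul, abs_mul]
  have w1 : |u| * |f| ≤ (S * M) * |f| :=
    mul_le_mul_of_nonneg_right (le_trans hu (by gcongr)) (abs_nonneg f)
  have w2 : |v| * |g| ≤ (S * M) * |g| :=
    mul_le_mul_of_nonneg_right (le_trans hv (by gcongr)) (abs_nonneg g)
  linarith

lemma key_ineq {D b p q f g N S : ℤ} (hq : 0 < q) (hD : 1 ≤ D) (hb : 1 ≤ b ^ 2)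
    (hN : N = max |p| q) (hS0 : 0 ≤ S)
    (J1 : |D * p ^ 7| ≤ S * N ^ 3 * (|f| + |g|))
    (J2 : |b ^ 2 * D * q ^ 7| ≤ S * N ^ 3 * (|f| + |g|)) : N ^ 4 ≤ S * (|f| + |g|) := by
  have hN1 : 0 < N := by rw [hN]; exact lt_of_lt_of_le hq (le_max_right _ _)
  have key : N ^ 7 ≤ S * N ^ 3 * (|f| + |g|) := by
    rcases le_total |p| q with h | h
    · have hNq : N = q := by rw [hN]; exact max_eq_right h
      refine le_trans ?_ J2
      have h7 : 0 ≤ q ^ 7 := by positivity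
      have hbD : 1 ≤ b ^ 2 * D := by nlinarith
      have : 0 ≤ b ^ 2 * D * q ^ 7 := by positivity
      rw [abs_of_nonneg this, hNq]
      nlinarith
    · have hNp : N = |p| := by rw [hN]; exact max_eq_left h
      refine le_trans ?_ J1
      have hD0 : 0 < D := by linarith
      rw [abs_mul, abs_of_pos hD0, abs_pow, ← hNp]
      have : 0 < N ^ 7 := by positivity
      nlinarith
  have h3 : 0 < N ^ 3 := by positivity
  refine le_of_mul_le_mul_left ?_ h3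
  calc N ^ 3 * N ^ 4 = N ^ 7 := by ring
    _ ≤ _ := key
    _ = _ := by ring

lemma common_dvd {a b D p q f g c : ℤ} (hcop : IsCoprime p q)
    (I1 : (D * p ^ 3 + (-2 * a * b) * p ^ 2 * q + (-3 * b ^ 2) * p * q ^ 2 + 0 * q ^ 3) * f +
      ((2 * a * b) * p ^ 3 + (-5 * b ^ 2) * p ^ 2 * q + (-a * b ^ 2) * p * q ^ 2 +
        (3 * b ^ 3) * q ^ 3) * g = D * p ^ 7)
    (I2 : (0 * p ^ 3 + (-3) * p ^ 2 * q + (-2 * a) * p * q ^ 2 + D * q ^ 3) * f +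
      (3 * p ^ 3 + (-a) * p ^ 2 * q + (-5 * b) * p * q ^ 2 + (2 * a * b) * q ^ 3) * g =
        b ^ 2 * D * q ^ 7) (hcf : c ∣ f) (hcg : c ∣ 4 * g) : c ∣ 4 * b ^ 2 * D := by
  have d1 : c ∣ 4 * b ^ 2 * D * p ^ 7 := by
    have : 4 * b ^ 2 * D * p ^ 7 = (4 * b ^ 2 * (D * p ^ 3 + (-2 * a * b) * p ^ 2 * q + (-3 * b ^ 2) * p * q ^ 2 + 0 * q ^ 3)) * f +
    (b ^ 2 * ((2 * a * b) * p ^ 3 + (-5 * b ^ 2) * p ^ 2 * q + (-a * b ^ 2) * p * q ^ 2 +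
      (3 * b ^ 3) * q ^ 3)) * (4 * g) := by linear_combination (-4 * b ^ 2) * I1
    rw [this]
    exact dvd_add (Dvd.dvd.mul_left hcf _) (Dvd.dvd.mul_left hcg _)
  have d2 : c ∣ 4 * b ^ 2 * D * q ^ 7 := by
    have : 4 * b ^ 2 * D * q ^ 7 = (4 * (0 * p ^ 3 + (-3) * p ^ 2 * q + (-2 * a) * p * q ^ 2 + D * q ^ 3)) * f +
    (3 * p ^ 3 + (-a) * p ^ 2 * q + (-5 * b) * p * q ^ 2 + (2 * a * b) * q ^ 3) * (4 * g) := by
      linear_combination (-4) * I2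
    rw [this]
    exact dvd_add (Dvd.dvd.mul_left hcf _) (Dvd.dvd.mul_left hcg _)
  have hc7 : IsCoprime (p ^ 7) (q ^ 7) := IsCoprime.pow hcop
  obtain ⟨u, v, huv⟩ := hc7
  have : 4 * b ^ 2 * D = u * (4 * b ^ 2 * D * p ^ 7) + v * (4 * b ^ 2 * D * q ^ 7) := by
    linear_combination (-(4 * b ^ 2 * D)) * huv
  rw [this]
  exact dvd_add (Dvd.dvd.mul_left d1 _) (Dvd.dvd.mul_left d2 _)

/-- the doubling estimate, integer form -/
lemma double_int (a b D p q f g : ℤ) (hD : D = a ^ 2 - 4 * b)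
    (hf : f = (p ^ 2 - b * q ^ 2) ^ 2) (hg : g = p * q * (p ^ 2 + a * p * q + b * q ^ 2)) :
    (D * p ^ 3 + (-2 * a * b) * p ^ 2 * q + (-3 * b ^ 2) * p * q ^ 2 + 0 * q ^ 3) * f +
      ((2 * a * b) * p ^ 3 + (-5 * b ^ 2) * p ^ 2 * q + (-a * b ^ 2) * p * q ^ 2 +
        (3 * b ^ 3) * q ^ 3) * g = D * p ^ 7 ∧
    (0 * p ^ 3 + (-3) * p ^ 2 * q + (-2 * a) * p * q ^ 2 + D * q ^ 3) * f +
      (3 * p ^ 3 + (-a) * p ^ 2 * q + (-5 * b) * p * q ^ 2 + (2 * a * b) * q ^ 3) * g =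
        b ^ 2 * D * q ^ 7 := by
  subst hD; subst hf; subst hg
  constructor <;> ring

/-- the doubling estimate -/
lemma double_le (A B : ℤ) (hA : A ≠ 0) (hB : B ≠ 0) (hAB : A - B ≠ 0) :
    ∃ K : ℤ, 0 < K ∧ ∀ x : ℚ, x ≠ 0 → x + A ≠ 0 → x + B ≠ 0 →
      ht x ^ 4 ≤ K * ht ((x ^ 2 - A * B) ^ 2 / (4 * (x * (x + A) * (x + B)))) := by
  obtain ⟨a, ha⟩ : ∃ a : ℤ, a = A + B := ⟨_, rfl⟩
  obtain ⟨b, hb⟩ : ∃ b : ℤ, b = A * B := ⟨_, rfl⟩
  obtain ⟨D, hD⟩ : ∃ D : ℤ, D = (A - B) ^ 2 := ⟨_, rfl⟩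
  have hD' : D = a ^ 2 - 4 * b := by rw [hD, ha, hb]; ring
  have hb0 : b ≠ 0 := by rw [hb]; exact mul_ne_zero hA hB
  have hD1 : 1 ≤ D := by
    have : 0 < D := by rw [hD]; positivity
    omega
  have hb1 : 1 ≤ b ^ 2 := by
    have : 0 < b ^ 2 := by positivity
    omega
  obtain ⟨S, hS⟩ : ∃ S : ℤ, S = cs D (-2 * a * b) (-3 * b ^ 2) 0 +
    cs (2 * a * b) (-5 * b ^ 2) (-a * b ^ 2) (3 * b ^ 3) + cs 0 (-3) (-2 * a) D +
    cs 3 (-a) (-5 * b) (2 * a * b) := ⟨_, rfl⟩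
  have n1 := cs_nonneg D (-2 * a * b) (-3 * b ^ 2) 0
  have n2 := cs_nonneg (2 * a * b) (-5 * b ^ 2) (-a * b ^ 2) (3 * b ^ 3)
  have n3 := cs_nonneg 0 (-3) (-2 * a) D
  have n4 := cs_nonneg 3 (-a) (-5 * b) (2 * a * b)
  have hS0 : 0 ≤ S := by linarith
  refine ⟨2 * S * (4 * b ^ 2 * D) + 1, by positivity, ?_⟩
  intro x hx hxA hxB
  obtain ⟨p, hp⟩ : ∃ p : ℤ, p = x.num := ⟨_, rfl⟩
  obtain ⟨q, hq⟩ : ∃ q : ℤ, q = (x.den : ℤ) := ⟨_, rfl⟩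
  have hq0 : 0 < q := by rw [hq]; exact_mod_cast x.pos
  have hp0 : p ≠ 0 := by rw [hp]; exact Rat.num_ne_zero.mpr hx
  have hcop : IsCoprime p q := by
    rw [hp, hq, Int.isCoprime_iff_gcd_eq_one]; exact x.reduced
  have hxpq : x = (p : ℚ) / q := by rw [hp, hq]; exact_mod_cast (Rat.num_div_den x).symm
  have hqQ : (q : ℚ) ≠ 0 := by exact_mod_cast hq0.ne'
  have hpQ : (p : ℚ) ≠ 0 := by exact_mod_cast hp0
  have hpA : (p : ℚ) + A * q ≠ 0 := by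
    intro h0
    apply hxA
    rw [hxpq, div_add' _ _ _ hqQ, h0, zero_div]
  have hpB : (p : ℚ) + B * q ≠ 0 := by
    intro h0
    apply hxB
    rw [hxpq, div_add' _ _ _ hqQ, h0, zero_div]
  obtain ⟨f, hf⟩ : ∃ f : ℤ, f = (p ^ 2 - b * q ^ 2) ^ 2 := ⟨_, rfl⟩
  obtain ⟨g, hg⟩ : ∃ g : ℤ, g = p * q * (p ^ 2 + a * p * q + b * q ^ 2) := ⟨_, rfl⟩
  have hgQ : (g : ℚ) = p * q * ((p + A * q) * (p + B * q)) := by
    rw [hg, ha, hb]; push_cast; ring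
  have hg0 : g ≠ 0 := by
    intro h0
    have : (g : ℚ) = 0 := by rw [h0]; simp
    rw [hgQ] at this
    exact (mul_ne_zero (mul_ne_zero hpQ hqQ) (mul_ne_zero hpA hpB)) this
  have h4g : 4 * g ≠ 0 := mul_ne_zero (by norm_num) hg0
  obtain ⟨X, hXd⟩ : ∃ X : ℚ, X = ((x ^ 2 - A * B) ^ 2 / (4 * (x * (x + A) * (x + B)))) := ⟨_, rfl⟩
  rw [← hXd]
  have hX : X = (f : ℚ) / ((4 * g : ℤ) : ℚ) := by
    push_cast
    rw [hXd, hgQ, hf, hb, hxpq]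
    push_cast
    field_simp
  obtain ⟨I1, I2⟩ := double_int a b D p q f g hD' hf hg
  obtain ⟨N, hN⟩ : ∃ N : ℤ, N = ht x := ⟨_, rfl⟩
  have hN' : N = max |p| q := by rw [hN, hp, hq]; rfl
  have hpN : |p| ≤ N := by rw [hN']; exact le_max_left _ _
  have hqN : |q| ≤ N := by rw [abs_of_pos hq0, hN']; exact le_max_right _ _
  have hN1 : 1 ≤ N := by rw [hN]; exact one_le_ht x
  have hN3 : 0 ≤ N ^ 3 := by positivity
  have J1 := two_terms hN3 (cubic_le D (-2 * a * b) (-3 * b ^ 2) 0 p q N hpN hqN)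
    (cubic_le (2 * a * b) (-5 * b ^ 2) (-a * b ^ 2) (3 * b ^ 3) p q N hpN hqN)
    (by rw [hS]; linarith : _ ≤ S) (by rw [hS]; linarith : _ ≤ S) I1
  have J2 := two_terms hN3 (cubic_le 0 (-3) (-2 * a) D p q N hpN hqN)
    (cubic_le 3 (-a) (-5 * b) (2 * a * b) p q N hpN hqN)
    (by rw [hS]; linarith : _ ≤ S) (by rw [hS]; linarith : _ ≤ S) I2
  have key2 : N ^ 4 ≤ S * (|f| + |g|) := key_ineq hq0 hD1 hb1 hN' hS0 J1 J2
  have hle : max |f| |4 * g| ≤ (4 * b ^ 2 * D) * ht X := by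
    refine le_ht h4g hX ?_
    intro c hcf hcg
    have := common_dvd hcop I1 I2 hcf hcg
    exact Int.le_of_dvd (by positivity : 0 < 4 * b ^ 2 * D) ((abs_dvd c _).mpr this)
  have hg4 : |g| ≤ |4 * g| := by
    rw [abs_mul]; have := abs_nonneg g; norm_num; linarith
  have m1 : |f| ≤ max |f| |4 * g| := le_max_left _ _
  have m2 : |g| ≤ max |f| |4 * g| := le_trans hg4 (le_max_right _ _)
  have e0 : 1 ≤ ht X := one_le_ht _
  rw [← hN]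
  calc N ^ 4 ≤ S * (|f| + |g|) := key2
    _ ≤ S * (2 * max |f| |4 * g|) := by gcongr; linarith
    _ ≤ S * (2 * ((4 * b ^ 2 * D) * ht X)) := by gcongr
    _ ≤ _ := by linarith

/-- translation by `(0, 0)` -/
lemma trans0_le (A B : ℤ) (hA : A ≠ 0) (hB : B ≠ 0) (x : ℚ) (hx : x ≠ 0) :
    ht (A * B / x) ≤ |A * B| * ht x := by
  have hp0 : x.num ≠ 0 := Rat.num_ne_zero.mpr hx
  have h1 : ((A : ℚ) * B / x) = ((A * B * x.den : ℤ) : ℚ) / (x.num : ℤ) := by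
    have : (x : ℚ) = (x.num : ℚ) / (x.den : ℚ) := (Rat.num_div_den x).symm
    have hd : (x.den : ℚ) ≠ 0 := by exact_mod_cast x.pos.ne'
    have hn : (x.num : ℚ) ≠ 0 := by exact_mod_cast hp0
    conv_lhs => rw [this]
    push_cast
    field_simp
  have hAB : 1 ≤ |A * B| := Int.one_le_abs (mul_ne_zero hA hB)
  refine le_trans (ht_le hp0 h1) (max_le ?_ ?_)
  · rw [abs_mul, Nat.abs_cast]
    gcongr
    exact le_max_right _ _
  · have : |x.num| ≤ ht x := le_max_left _ _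
    have h0 : 0 ≤ ht x := le_trans zero_le_one (one_le_ht x)
    nlinarith

/-- translation by `(-A, 0)` -/
lemma transA_le (A B : ℤ) (x : ℚ) (hx : x + A ≠ 0) :
    ht (-A * (x + B) / (x + A)) ≤ ((1 + |A|) * (1 + |B|)) * ht x := by
  obtain ⟨p, hp⟩ : ∃ p : ℤ, p = x.num := ⟨_, rfl⟩
  obtain ⟨q, hq⟩ : ∃ q : ℤ, q = (x.den : ℤ) := ⟨_, rfl⟩
  have hq0 : 0 < q := by rw [hq]; exact_mod_cast x.pos
  have hxpq : x = (p : ℚ) / q := by rw [hp, hq]; exact_mod_cast (Rat.num_div_den x).symm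
  have hqQ : (q : ℚ) ≠ 0 := by exact_mod_cast hq0.ne'
  have hpA : (p : ℚ) + A * q ≠ 0 := by
    intro h0
    apply hx
    rw [hxpq, div_add' _ _ _ hqQ, h0, zero_div]
  have hpA' : p + A * q ≠ 0 := by exact_mod_cast hpA
  have h1 : (-A * (x + B) / (x + A) : ℚ) = ((-A * (p + B * q) : ℤ) : ℚ) / ((p + A * q : ℤ) : ℚ) := by
    rw [hxpq]
    push_cast
    have : (p : ℚ) / q + A = (p + A * q) / q := div_add' _ _ _ hqQ
    rw [this]
    field_simp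
  have hN : ht x = max |p| q := by rw [hp, hq]; rfl
  have hpN : |p| ≤ ht x := by rw [hN]; exact le_max_left _ _
  have hqN : |q| ≤ ht x := by rw [abs_of_pos hq0, hN]; exact le_max_right _ _
  have h0 : 0 ≤ ht x := le_trans zero_le_one (one_le_ht x)
  have hA := abs_nonneg A
  have hB := abs_nonneg B
  refine le_trans (ht_le hpA' h1) (max_le ?_ ?_)
  · rw [abs_mul, abs_neg]
    have : |p + B * q| ≤ (1 + |B|) * ht x := by
      refine le_trans (abs_add_le _ _) ?_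
      rw [abs_mul]
      nlinarith [mul_le_mul_of_nonneg_left hqN hB]
    calc |A| * |p + B * q| ≤ |A| * ((1 + |B|) * ht x) := by gcongr
      _ ≤ _ := by nlinarith [mul_nonneg (by linarith : 0 ≤ 1 + |B|) h0]
  · refine le_trans (abs_add_le _ _) ?_
    rw [abs_mul]
    nlinarith [mul_le_mul_of_nonneg_left hqN hA, mul_nonneg hB (mul_nonneg (by linarith : 0 ≤ 1 + |A|) h0)]

end Vale.Agent.P017.H390
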