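import Mathlib
import Vale.Agent.P017.H390.Grp
import Vale.Agent.P017.H390.Ht

set_option autoImplicit false

namespace Vale.Agent.P017.H390

open WeierstrassCurve WeierstrassCurve.Affine
open scoped Pointwise

/-- A finitely generated commutative group which is two-divisible modulo elements of order two
is finite. -/
lemma finite_of_two_div {G : Type*} [AddCommGroup G] (hfg : AddGroup.FG G)
    (h : ∀ P : G, ∃ t Q : G, t + t = 0 ∧ P + t = Q + Q) : Finite G := by
  have : Module.Finite ℤ G := Module.Finite.iff_addGroup_fg.mpr hfg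
  let φ : G →ₗ[ℤ] G := LinearMap.lsmul ℤ G 2
  let N : Submodule ℤ G := LinearMap.range φ
  have hN : N.FG := by
    have := Module.Finite.fg_top (R := ℤ) (M := G)
    have h2 := this.map φ
    rwa [Submodule.map_top] at h2
  have hle : N ≤ (Ideal.span {(2 : ℤ)}) • N := by
    rintro _ ⟨P, rfl⟩
    obtain ⟨t, Q, ht, hQ⟩ := h P
    have : φ P = (2 : ℤ) • (φ Q) := by
      simp only [φ, LinearMap.lsmul_apply]
      have e : P = Q + Q - t := by rw [← hQ]; abel
      rw [e, smul_sub, two_smul ℤ t, ht, sub_zero, two_smul ℤ Q]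
    rw [this]
    exact Submodule.smul_mem_smul (Ideal.mem_span_singleton_self _) ⟨Q, rfl⟩
  obtain ⟨r, hr, hr2⟩ := Submodule.exists_sub_one_mem_and_smul_eq_zero_of_fg_of_le_smul _ N hN hle
  rw [Ideal.mem_span_singleton] at hr
  have hr0 : r ≠ 0 := by
    rintro rfl
    omega
  have htor : Module.IsTorsion ℤ G := by
    intro P
    refine ⟨⟨r * 2, mem_nonZeroDivisors_of_ne_zero (mul_ne_zero hr0 two_ne_zero)⟩, ?_⟩
    have := hr2 (φ P) ⟨P, rfl⟩
    simpa [φ, mul_smul] using this
  exact Module.finite_of_fg_torsion G htor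

section

variable (A B : ℤ)

abbrev CQ : WeierstrassCurve ℚ := EC (A : ℚ) (B : ℚ)

/-- height of a point -/
def hZ : (CQ A B).toAffine.Point → ℤ
  | .zero => 1
  | .some x _ _ => ht x

lemma hZ_pos (P : (CQ A B).toAffine.Point) : 1 ≤ hZ A B P := by
  rcases P with _ | ⟨x, y, h⟩
  · exact le_refl _
  · exact one_le_ht x

lemma finite_hZ (N : ℤ) : {P : (CQ A B).toAffine.Point | hZ A B P ≤ N}.Finite := by
  let φ : (CQ A B).toAffine.Point → Option (ℚ × ℚ) := fun P => match P with
    | .zero => none
    | .some x y _ => some (x, y)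
  have hinj : Function.Injective φ := by
    rintro (_ | ⟨x, y, h⟩) (_ | ⟨x', y', h'⟩) e
    · rfl
    · simp [φ] at e
    · simp [φ] at e
    · simp only [φ, Option.some.injEq, Prod.mk.injEq] at e
      obtain ⟨rfl, rfl⟩ := e
      rfl
  have hfin : ({none} ∪ some '' {z : ℚ × ℚ | ht z.1 ≤ N ∧
      z.2 ^ 2 = z.1 * (z.1 + A) * (z.1 + B)} : Set (Option (ℚ × ℚ))).Finite := by
    refine (Set.finite_singleton _).union (Set.Finite.image _ ?_)
    have : {z : ℚ × ℚ | ht z.1 ≤ N ∧ z.2 ^ 2 = z.1 * (z.1 + A) * (z.1 + B)} ⊆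
        ⋃ x ∈ {x : ℚ | ht x ≤ N}, (fun y => (x, y)) '' {y : ℚ | y ^ 2 = x * (x + A) * (x + B)} := by
      rintro ⟨x, y⟩ ⟨h1, h2⟩
      exact Set.mem_biUnion h1 ⟨y, h2, rfl⟩
    refine Set.Finite.subset (Set.Finite.biUnion (finite_ht N) fun x _ => Set.Finite.image _ ?_) this
    by_cases he : ∃ y0 : ℚ, y0 ^ 2 = x * (x + A) * (x + B)
    · obtain ⟨y0, hy0⟩ := he
      refine Set.Finite.subset (Set.toFinite {y0, -y0}) ?_
      intro y hy
      have : y ^ 2 = y0 ^ 2 := by rw [hy0]; exact hy
      rcases sq_eq_sq_iff_eq_or_eq_neg.mp this with h | h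
      · exact Or.inl h
      · exact Or.inr h
    · refine Set.Finite.subset Set.finite_empty ?_
      intro y hy
      exact he ⟨y, hy⟩
  refine Set.Finite.subset (hfin.preimage hinj.injOn) ?_
  rintro (_ | ⟨x, y, h⟩) hP
  · exact Or.inl rfl
  · exact Or.inr ⟨(x, y), ⟨hP, (EC_eq _ _ x y).mp h.1⟩, rfl⟩

variable {A B}

lemma neg_add_of_double_zero {G : Type*} [AddCommGroup G] {t : G} (h : t + t = 0) (P : G) :
    (t + P) + t = P := by
  have : t + P + t = P + (t + t) := by abel
  rw [this, h, add_zero]

/-- the four rational points of order at most two -/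
def Tors [(CQ A B).IsElliptic] : Set ((CQ A B).toAffine.Point) := {0, T0, TA, TB}

lemma tors_double [(CQ A B).IsElliptic] {t : (CQ A B).toAffine.Point} (ht : t ∈ Tors) :
    t + t = 0 := by
  rcases ht with rfl | rfl | rfl | rfl
  · exact add_zero 0
  · exact T0_add
  · exact TA_add
  · exact TB_add

theorem finite_of_descent (hA : A ≠ 0) (hB : B ≠ 0) (hAB : A - B ≠ 0)
    [(CQ A B).IsElliptic]
    (h : ∀ P : (CQ A B).toAffine.Point, ∃ t ∈ Tors (A := A) (B := B), ∃ Q, P + t = Q + Q) :
    Finite (CQ A B).toAffine.Point := by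
  refine finite_of_two_div ?_ fun P => ?_
  swap
  · obtain ⟨t, ht, Q, hQ⟩ := h P
    exact ⟨t, Q, tors_double ht, hQ⟩
  -- the constants
  obtain ⟨K, hK0, hK⟩ := double_le A B hA hB hAB
  set L : ℤ := K + |A * B| + (1 + |A|) * (1 + |B|) +
    (hZ A B T0 + hZ A B TA + hZ A B TB) ^ 4 + 1 with hL
  have p0 := hZ_pos A B T0
  have pA := hZ_pos A B TA
  have pB := hZ_pos A B TB
  have q4 : (hZ A B T0 + hZ A B TA + hZ A B TB) ≤ (hZ A B T0 + hZ A B TA + hZ A B TB) ^ 4 := by
    have : 1 ≤ (hZ A B T0 + hZ A B TA + hZ A B TB) := by linarith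
    nlinarith [pow_le_pow_right₀ this (by norm_num : 1 ≤ 4)]
  have nA := abs_nonneg A
  have nB := abs_nonneg B
  have nAB := abs_nonneg (A * B)
  have nP : 0 ≤ (1 + |A|) * (1 + |B|) := by positivity
  have hL1 : 1 ≤ L := by
    have : 0 ≤ (hZ A B T0 + hZ A B TA + hZ A B TB) ^ 4 := by positivity
    linarith
  have hLR : (0 : ℝ) < L := by exact_mod_cast (by linarith : 0 < L)
  -- translation
  have htr : ∀ t ∈ Tors (A := A) (B := B), ∀ P : (CQ A B).toAffine.Point,
      hZ A B (P + t) ≤ L * hZ A B P := by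
    intro t hmem P
    have hP1 := hZ_pos A B P
    by_cases hP0 : P = 0
    · subst hP0
      rw [zero_add]
      have : hZ A B (0 : (CQ A B).toAffine.Point) = 1 := rfl
      rw [this, mul_one]
      rcases hmem with rfl | rfl | rfl | rfl
      · exact hL1
      · linarith
      · linarith
      · linarith
    obtain ⟨x, y, hxy, rfl⟩ := exists_pt P hP0
    have hx : hZ A B (pt hxy) = ht x := rfl
    rw [hx] at hP1 ⊢
    rcases hmem with rfl | rfl | rfl | rfl
    · rw [add_zero, hx]; nlinarith
    · by_cases hx0 : x = 0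
      · subst hx0
        have hy : y = 0 := by
          have : y ^ 2 = 0 := by rw [hxy]; ring
          exact pow_eq_zero_iff (two_ne_zero) |>.mp this
        subst hy
        have : (pt hxy : (CQ A B).toAffine.Point) + T0 = 0 := T0_add
        rw [this]
        have : hZ A B (0 : (CQ A B).toAffine.Point) = 1 := rfl
        rw [this]; nlinarith
      · obtain ⟨y', h', e⟩ := add_T0 hxy hx0
        rw [e]
        have : hZ A B (pt h') = ht ((A : ℚ) * B / x) := rfl
        rw [this]
        refine le_trans (trans0_le A B hA hB x hx0) ?_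
        have : |A * B| ≤ L := by linarith [p0]
        nlinarith
    · by_cases hx0 : x + A = 0
      · have hxA : x = -A := by linarith
        subst hxA
        have hy : y = 0 := by
          have : y ^ 2 = 0 := by rw [hxy]; ring
          exact pow_eq_zero_iff (two_ne_zero) |>.mp this
        subst hy
        have : (pt hxy : (CQ A B).toAffine.Point) + TA = 0 := TA_add
        rw [this]
        have : hZ A B (0 : (CQ A B).toAffine.Point) = 1 := rfl
        rw [this]; nlinarith
      · obtain ⟨y', h', e⟩ := add_TA hxy hx0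
        rw [e]
        have : hZ A B (pt h') = ht (-(A : ℚ) * (x + B) / (x + A)) := rfl
        rw [this]
        refine le_trans (transA_le A B x hx0) ?_
        have : (1 + |A|) * (1 + |B|) ≤ L := by linarith [p0]
        nlinarith
    · by_cases hx0 : x + B = 0
      · have hxA : x = -B := by linarith
        subst hxA
        have hy : y = 0 := by
          have : y ^ 2 = 0 := by rw [hxy]; ring
          exact pow_eq_zero_iff (two_ne_zero) |>.mp this
        subst hy
        have : (pt hxy : (CQ A B).toAffine.Point) + TB = 0 := TB_add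
        rw [this]
        have : hZ A B (0 : (CQ A B).toAffine.Point) = 1 := rfl
        rw [this]; nlinarith
      · obtain ⟨y', h', e⟩ := add_TB hxy hx0
        rw [e]
        have : hZ A B (pt h') = ht (-(B : ℚ) * (x + A) / (x + B)) := rfl
        rw [this]
        refine le_trans (transA_le B A x hx0) ?_
        have : (1 + |B|) * (1 + |A|) ≤ L := by linarith [p0]
        nlinarith
  -- doubling
  have hdb : ∀ Q : (CQ A B).toAffine.Point, hZ A B Q ^ 4 ≤ L * hZ A B (Q + Q) := by
    intro Q
    have h1 := hZ_pos A B (Q + Q)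
    by_cases hQ0 : Q = 0
    · subst hQ0
      have : hZ A B (0 : (CQ A B).toAffine.Point) = 1 := rfl
      rw [add_zero, this]; linarith
    obtain ⟨x, y, hxy, rfl⟩ := exists_pt Q hQ0
    have hx : hZ A B (pt hxy) = ht x := rfl
    have hht := one_le_ht x
    by_cases hy0 : y = 0
    · subst hy0
      have h0 : x * (x + A) * (x + B) = 0 := by rw [← hxy]; ring
      have hmain : hZ A B (pt hxy) ≤ (hZ A B T0 + hZ A B TA + hZ A B TB) := by
        rcases mul_eq_zero.mp h0 with h0 | h0
        · rcases mul_eq_zero.mp h0 with h0 | h0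
          · subst h0
            have : hZ A B (pt hxy) = hZ A B T0 := rfl
            linarith
          · have hxA : x = -A := by linarith
            subst hxA
            have : hZ A B (pt hxy) = hZ A B TA := rfl
            linarith
        · have hxA : x = -B := by linarith
          subst hxA
          have : hZ A B (pt hxy) = hZ A B TB := rfl
          linarith
      have hp := hZ_pos A B (pt hxy)
      have : hZ A B (pt hxy) ^ 4 ≤ (hZ A B T0 + hZ A B TA + hZ A B TB) ^ 4 := by gcongr
      have h4 : hZ A B (pt hxy) ^ 4 ≤ L := by linarith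
      nlinarith
    · obtain ⟨y', h', e⟩ := add_self (by norm_num) hxy hy0
      rw [e, hx] 
      have : hZ A B (pt h') = ht (((x ^ 2 - A * B) ^ 2 / (4 * (x * (x + A) * (x + B))))) := rfl
      rw [this]
      have hx0 : x * (x + A) * (x + B) ≠ 0 := by
        rw [← hxy]; exact pow_ne_zero _ hy0
      have hne1 := left_ne_zero_of_mul (left_ne_zero_of_mul hx0)
      have hne2 := right_ne_zero_of_mul (left_ne_zero_of_mul hx0)
      have hne3 := right_ne_zero_of_mul hx0
      refine le_trans (hK x hne1 hne2 hne3) ?_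
      have h3 := one_le_ht (((x ^ 2 - A * B) ^ 2 / (4 * (x * (x + A) * (x + B)))))
      have : K ≤ L := by linarith [p0]
      nlinarith
  -- the height
  let hh : (CQ A B).toAffine.Point → ℝ := fun P => Real.log (hZ A B P)
  have hpos : ∀ P, (0 : ℝ) < hZ A B P := fun P => by
    exact_mod_cast (lt_of_lt_of_le zero_lt_one (hZ_pos A B P))
  have : Northcott hh := by
    refine ⟨fun b => ?_⟩
    refine Set.Finite.subset (finite_hZ A B ⌈Real.exp b⌉) ?_
    intro P hP
    have h1 : Real.log (hZ A B P) ≤ b := hP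
    have h2 : (hZ A B P : ℝ) ≤ Real.exp b := by
      rwa [Real.log_le_iff_le_exp (hpos P)] at h1
    have h3 : (hZ A B P : ℝ) ≤ (⌈Real.exp b⌉ : ℝ) := le_trans h2 (Int.le_ceil _)
    exact_mod_cast h3
  refine AddGroup.fg_of_descent (f := nsmulAddMonoidHom 2) (s := Tors (A := A) (B := B))
    (h := hh) (a := 1) (b := 4) (c := Real.log L) ?_ zero_le_one (by norm_num) ?_ ?_ ?_ ?_
  · intro U u hu
    obtain ⟨v, hv, rfl⟩ := AddSubgroup.mem_map.mp hu
    exact U.nsmul_mem hv 2
  · unfold Tors
    exact ((Set.finite_singleton _).insert _ |>.insert _).insert _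
  · rw [Set.eq_univ_iff_forall]
    intro P
    obtain ⟨t, ht, Q, hQ⟩ := h P
    refine Set.mem_add.mpr ⟨t, ht, Q + Q, ⟨Q, ?_⟩, ?_⟩
    · simp [two_nsmul]
    · rw [← hQ, ← add_assoc]
      exact neg_add_of_double_zero (tors_double ht) P
  · intro t ht P
    have h1 := htr t ht (t + P)
    rw [neg_add_of_double_zero (tors_double ht) P] at h1
    have h2 : (hZ A B P : ℝ) ≤ L * hZ A B (t + P) := by exact_mod_cast h1
    have h3 := Real.log_le_log (hpos P) h2
    rw [Real.log_mul hLR.ne' (hpos _).ne'] at h3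
    simp only [hh]
    linarith
  · intro Q
    have h1 := hdb Q
    have h2 : (hZ A B Q : ℝ) ^ 4 ≤ L * hZ A B (Q + Q) := by exact_mod_cast h1
    have h3 := Real.log_le_log (pow_pos (hpos Q) 4) h2
    rw [Real.log_mul hLR.ne' (hpos _).ne', Real.log_pow] at h3
    have h4 : (nsmulAddMonoidHom (α := (CQ A B).toAffine.Point) 2) Q = Q + Q := by
      simp [two_nsmul]
    simp only [hh, h4]
    push_cast at h3
    linarith

end

end Vale.Agent.P017.H390
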