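import Mathlib

set_option autoImplicit false

namespace Vale.Agent.P017.H390

/-- squarefree part of a nonzero integer, with sign -/
lemma exists_sf (m : ℤ) (hm : m ≠ 0) :
    ∃ b r : ℤ, m = b * r ^ 2 ∧ r ≠ 0 ∧ Squarefree b ∧ (0 < m → 0 < b) := by
  obtain ⟨a, b, ha, hb, hab, hsf⟩ := Nat.sq_mul_squarefree_of_pos (Int.natAbs_pos.mpr hm)
  have hb' : (b : ℤ) ≠ 0 := by exact_mod_cast hb.ne'
  have hsf' : Squarefree (a : ℤ) := Int.squarefree_natCast.mpr hsf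
  rcases Int.natAbs_eq m with h | h
  · refine ⟨a, b, ?_, hb', hsf', fun _ => by exact_mod_cast ha⟩
    rw [h, ← hab]; push_cast; ring
  · refine ⟨-a, b, ?_, hb', ?_, fun h0 => ?_⟩
    · rw [h, ← hab]; push_cast; ring
    · exact Int.squarefree_natAbs.mp (by simpa using hsf)
    · exfalso
      have := Int.natAbs_pos.mpr hm
      omega

lemma not_dvd_of_sqf {b q β : ℤ} (hb : Squarefree b) (hq : Prime q) (h : b = q * β) : ¬ q ∣ β := by
  rintro ⟨c, rfl⟩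
  have : q * q ∣ b := ⟨c, by rw [h]; ring⟩
  exact hq.not_isUnit (hb q this)

lemma dvd_of_sq_dvd {r n : ℤ} (h : r ^ 2 ∣ n ^ 2) : r ∣ n := (Int.pow_dvd_pow_iff two_ne_zero).mp h

lemma zsq {p : ℕ} [Fact p.Prime] {u s w : ZMod p} (hs : s ≠ 0) (h : u * s ^ 2 = w ^ 2) :
    IsSquare u := by
  refine ⟨w / s, ?_⟩
  field_simp
  exact h

lemma cast_ne {p : ℕ} {x : ℤ} (h : ¬ (p : ℤ) ∣ x) : (x : ZMod p) ≠ 0 := fun h0 =>
  h ((ZMod.intCast_zmod_eq_zero_iff_dvd x p).mp h0)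

lemma cast_eq {p : ℕ} {x y : ℤ} (h : (p : ℤ) ∣ x - y) : (x : ZMod p) = (y : ZMod p) := by
  have := (ZMod.intCast_zmod_eq_zero_iff_dvd (x - y) p).mpr h
  push_cast at this
  exact sub_eq_zero.mp this

/-- from `q * z = n ^ 2`, `q` prime: `q ∣ z`. -/
lemma dvd_of_mul_eq_sq {q z n : ℤ} (hq : Prime q) (h : q * z = n ^ 2) :
    q ∣ z ∧ ∃ n', n = q * n' ∧ z = q * n' ^ 2 := by
  have h1 : q ∣ n ^ 2 := ⟨z, h.symm⟩
  obtain ⟨n', rfl⟩ := hq.dvd_of_dvd_pow h1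
  have h2 : z = q * n' ^ 2 := by
    have : q * z = q * (q * n' ^ 2) := by rw [h]; ring
    exact mul_left_cancel₀ hq.ne_zero this
  exact ⟨⟨_, h2⟩, n', rfl, h2⟩

lemma mod5 : ∀ n u d : ZMod 5, (d = 2 ∨ d = 3) → u ≠ 0 → n ^ 2 ≠ -d * u ^ 2 := by decide

lemma p2 : Prime (2 : ℤ) := Int.prime_two
lemma p3 : Prime (3 : ℤ) := Int.prime_three
lemma p5 : Prime (5 : ℤ) := by
  have := (Nat.prime_iff_prime_int (p := 5)).mp (by norm_num)
  exact_mod_cast this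

/-- Setting for the curve `y² = x (x - 16 d) (x - 25 d)`. -/
structure Sol (d m e n : ℤ) : Prop where
  cop : IsCoprime m e
  e0 : e ≠ 0
  n0 : n ≠ 0
  eq : m * (m - 16 * d * e ^ 2) * (m - 25 * d * e ^ 2) = n ^ 2

lemma Sol.pos {d m e n : ℤ} (h : Sol d m e n) (hd : 0 < d) : 0 < m := by
  have he : 0 < e ^ 2 := by have := h.e0; positivity
  have hn : 0 < n ^ 2 := by have := h.n0; positivity
  have hde : 0 < d * e ^ 2 := mul_pos hd he
  by_contra hm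
  have hm' : m ≤ 0 := not_lt.mp hm
  have h1 : m - 16 * d * e ^ 2 < 0 := by nlinarith
  have h2 : m - 25 * d * e ^ 2 < 0 := by nlinarith
  have h3 : 0 < (m - 16 * d * e ^ 2) * (m - 25 * d * e ^ 2) := mul_pos_of_neg_of_neg h1 h2
  have h4 := h.eq
  have : m * (m - 16 * d * e ^ 2) * (m - 25 * d * e ^ 2) ≤ 0 := by
    rw [mul_assoc]; exact mul_nonpos_of_nonpos_of_nonneg hm' h3.le
  linarith

lemma cop_prime {m e q : ℤ} (h : IsCoprime m e) (hq : Prime q) (h1 : q ∣ m) : ¬ q ∣ e := by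
  intro h2
  exact hq.not_isUnit (h.isUnit_of_dvd' h1 h2)

/-- Step A: the squarefree part of `m`. -/
theorem stepA {d m e n : ℤ} (h : Sol d m e n) (hd : 0 < d) (hsf : Squarefree d)
    (hd5 : (d : ZMod 5) = 2 ∨ (d : ZMod 5) = 3) :
    ∃ b r : ℤ, m = b * r ^ 2 ∧ 0 < b ∧ Squarefree b ∧
      (∀ q : ℤ, Prime q → q ∣ b → q ∣ 2 * d) ∧
      (∀ p : ℕ, p.Prime → p ≠ 2 → p ≠ 5 → (p : ℤ) ∣ d → ¬ (p : ℤ) ∣ b →
        IsSquare ((b : ℤ) : ZMod p)) ∧
      (∀ p : ℕ, p.Prime → p ≠ 2 → p ≠ 5 → ∀ β d' : ℤ, b = p * β → d = p * d' →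
        IsSquare ((β * d' : ℤ) : ZMod p)) := by
  have hm := h.pos hd
  obtain ⟨b, r, hbr, hr0, hbsf, hb⟩ := exists_sf m hm.ne'
  have hb := hb hm
  have h5d : ¬ (5 : ℤ) ∣ d := by
    intro h0
    have := (ZMod.intCast_zmod_eq_zero_iff_dvd d 5).mpr h0
    rcases hd5 with h5 | h5 <;> rw [this] at h5 <;> exact absurd h5 (by decide)
  -- `(*)`
  obtain ⟨n1, hn1, hstar⟩ : ∃ n1, n = r * n1 ∧
      b * (m - 16 * d * e ^ 2) * (m - 25 * d * e ^ 2) = n1 ^ 2 := by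
    have h1 : r ^ 2 ∣ n ^ 2 := ⟨b * (m - 16 * d * e ^ 2) * (m - 25 * d * e ^ 2), by
      rw [← h.eq]
      nth_rewrite 1 [hbr]
      ring⟩
    obtain ⟨n1, rfl⟩ := dvd_of_sq_dvd h1
    refine ⟨n1, rfl, ?_⟩
    have h2 : r ^ 2 * (b * (m - 16 * d * e ^ 2) * (m - 25 * d * e ^ 2)) = r ^ 2 * n1 ^ 2 := by
      rw [← mul_pow, ← h.eq]
      nth_rewrite 3 [hbr]
      ring
    exact mul_left_cancel₀ (pow_ne_zero 2 hr0) h2
  refine ⟨b, r, hbr, hb, hbsf, ?_, ?_, ?_⟩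
  · intro q hq hqb
    by_contra hq2d
    obtain ⟨β, hβ⟩ := hqb
    have hqβ := not_dvd_of_sqf hbsf hq hβ
    have hqm : q ∣ m := ⟨β * r ^ 2, by rw [hbr, hβ]; ring⟩
    have hqe := cop_prime h.cop hq hqm
    have hq2 : ¬ q ∣ 2 := fun h0 => hq2d (Dvd.dvd.mul_right h0 _)
    have hqd : ¬ q ∣ d := fun h0 => hq2d (Dvd.dvd.mul_left h0 _)
    have hqU : ¬ q ∣ m - 16 * d * e ^ 2 := by
      intro h0
      have h1 : q ∣ 2 ^ 4 * d * e ^ 2 := by
        have := dvd_sub hqm h0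
        have e1 : m - (m - 16 * d * e ^ 2) = 2 ^ 4 * d * e ^ 2 := by ring
        rwa [e1] at this
      rcases hq.dvd_or_dvd h1 with h1 | h1
      · rcases hq.dvd_or_dvd h1 with h1 | h1
        · exact hq2 (hq.dvd_of_dvd_pow h1)
        · exact hqd h1
      · exact hqe (hq.dvd_of_dvd_pow h1)
    have hqV : q ∣ m - 25 * d * e ^ 2 := by
      have h1 : q * (β * (m - 16 * d * e ^ 2) * (m - 25 * d * e ^ 2)) = n1 ^ 2 := by
        rw [← hstar, hβ]; ring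
      rcases hq.dvd_or_dvd (dvd_of_mul_eq_sq hq h1).1 with h2 | h2
      · rcases hq.dvd_or_dvd h2 with h2 | h2
        · exact absurd h2 hqβ
        · exact absurd h2 hqU
      · exact h2
    have hq5 : q ∣ 5 := by
      have h1 : q ∣ 5 ^ 2 * d * e ^ 2 := by
        have := dvd_sub hqm hqV
        have e1 : m - (m - 25 * d * e ^ 2) = 5 ^ 2 * d * e ^ 2 := by ring
        rwa [e1] at this
      rcases hq.dvd_or_dvd h1 with h1 | h1
      · rcases hq.dvd_or_dvd h1 with h1 | h1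
        · exact hq.dvd_of_dvd_pow h1
        · exact absurd h1 hqd
      · exact absurd (hq.dvd_of_dvd_pow h1) hqe
    -- transfer to 5
    have hass : Associated q 5 := hq.associated_of_dvd p5 hq5
    have h5b : (5 : ℤ) ∣ b := hass.symm.dvd.trans ⟨β, hβ⟩
    have h5U : ¬ (5 : ℤ) ∣ m - 16 * d * e ^ 2 := fun h0 => hqU (hass.dvd.trans h0)
    have h5e : ¬ (5 : ℤ) ∣ e := fun h0 => hqe (hass.dvd.trans h0)
    obtain ⟨β, hβ⟩ := h5b
    have h5β := not_dvd_of_sqf hbsf p5 hβ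
    have h25 : 25 * (β * (m - 16 * d * e ^ 2) * (β * r ^ 2 - 5 * d * e ^ 2)) = n1 ^ 2 := by
      rw [← hstar, hbr, hβ]; ring
    obtain ⟨n2, rfl⟩ : (5 : ℤ) ∣ n1 := p5.dvd_of_dvd_pow
      ⟨5 * (β * (m - 16 * d * e ^ 2) * (β * r ^ 2 - 5 * d * e ^ 2)), by rw [← h25]; ring⟩
    have hE : β * (m - 16 * d * e ^ 2) * (β * r ^ 2 - 5 * d * e ^ 2) = n2 ^ 2 := by
      have : (25 : ℤ) * (β * (m - 16 * d * e ^ 2) * (β * r ^ 2 - 5 * d * e ^ 2)) =
        25 * n2 ^ 2 := by rw [h25]; ring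
      exact mul_left_cancel₀ (by norm_num) this
    by_cases h5r : (5 : ℤ) ∣ r
    · obtain ⟨r1, rfl⟩ := h5r
      have h1 : 5 * (β * (m - 16 * d * e ^ 2) * (5 * β * r1 ^ 2 - d * e ^ 2)) = n2 ^ 2 := by
        rw [← hE]; ring
      rcases p5.dvd_or_dvd (dvd_of_mul_eq_sq p5 h1).1 with h2 | h2
      · rcases p5.dvd_or_dvd h2 with h2 | h2
        · exact h5β h2
        · exact h5U h2
      · have : (5 : ℤ) ∣ d * e ^ 2 := by
          have h3 : (5 : ℤ) ∣ 5 * β * r1 ^ 2 := ⟨β * r1 ^ 2, by ring⟩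
          have := dvd_sub h3 h2
          have e1 : 5 * β * r1 ^ 2 - (5 * β * r1 ^ 2 - d * e ^ 2) = d * e ^ 2 := by ring
          rwa [e1] at this
        rcases p5.dvd_or_dvd this with h3 | h3
        · exact h5d h3
        · exact h5e (p5.dvd_of_dvd_pow h3)
    · have hz : ((n2 : ℤ) : ZMod 5) ^ 2 = -(d : ZMod 5) * ((4 * e * β * r : ℤ) : ZMod 5) ^ 2 := by
        have h1 : (5 : ℤ) ∣ n2 ^ 2 - (-d * (4 * e * β * r) ^ 2) := by
          rw [← hE, hbr, hβ]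
          refine ⟨β * (β * r ^ 2 * (β * r ^ 2 - 5 * d * e ^ 2)) + 16 * d ^ 2 * e ^ 4 * β, ?_⟩
          ring
        have h2 := cast_eq (p := 5) h1
        push_cast at h2 ⊢
        exact h2
      refine mod5 _ _ _ hd5 ?_ hz
      apply cast_ne
      intro h0
      have h0' : (5 : ℤ) ∣ 4 * e * β * r := by exact_mod_cast h0
      rcases p5.dvd_or_dvd h0' with h1 | h1
      · rcases p5.dvd_or_dvd h1 with h1 | h1
        · rcases p5.dvd_or_dvd h1 with h1 | h1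
          · omega
          · exact h5e h1
        · exact h5β h1
      · exact h5r h1
  · intro p hp hp2 hp5 hpd hpb
    have hpp : Prime (p : ℤ) := Nat.prime_iff_prime_int.mp hp
    have := Fact.mk hp
    obtain ⟨d', rfl⟩ := hpd
    by_cases hpr : (p : ℤ) ∣ r
    · obtain ⟨r1, rfl⟩ := hpr
      have hpm : (p : ℤ) ∣ m := ⟨b * p * r1 ^ 2, by rw [hbr]; ring⟩
      have hpe := cop_prime h.cop hpp hpm
      have hpd' : ¬ (p : ℤ) ∣ d' := not_dvd_of_sqf hsf hpp rfl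
      have h1 : (p : ℤ) ^ 2 * (b * (p * b * r1 ^ 2 - 16 * d' * e ^ 2) *
          (p * b * r1 ^ 2 - 25 * d' * e ^ 2)) = n1 ^ 2 := by
        rw [← hstar, hbr]; ring
      obtain ⟨n2, rfl⟩ : (p : ℤ) ∣ n1 := hpp.dvd_of_dvd_pow
        ⟨p * (b * (p * b * r1 ^ 2 - 16 * d' * e ^ 2) *
          (p * b * r1 ^ 2 - 25 * d' * e ^ 2)), by rw [← h1]; ring⟩
      have h2 : b * (p * b * r1 ^ 2 - 16 * d' * e ^ 2) *
          (p * b * r1 ^ 2 - 25 * d' * e ^ 2) = n2 ^ 2 := by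
        have : (p : ℤ) ^ 2 * (b * (p * b * r1 ^ 2 - 16 * d' * e ^ 2) *
          (p * b * r1 ^ 2 - 25 * d' * e ^ 2)) = p ^ 2 * n2 ^ 2 := by rw [h1]; ring
        exact mul_left_cancel₀ (pow_ne_zero 2 hpp.ne_zero) this
      refine zsq (s := ((20 * d' * e ^ 2 : ℤ) : ZMod p)) (w := ((n2 : ℤ) : ZMod p)) ?_ ?_
      · apply cast_ne
        intro h0
        rcases hpp.dvd_or_dvd h0 with h3 | h3
        · rcases hpp.dvd_or_dvd h3 with h3 | h3
          · have h4 : p ∣ 20 := by exact_mod_cast h3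
            have h5 : p ∣ 2 ^ 2 * 5 := by norm_num; exact h4
            rcases (Nat.Prime.dvd_mul hp).mp h5 with h6 | h6
            · exact hp2 ((Nat.prime_dvd_prime_iff_eq hp Nat.prime_two).mp (hp.dvd_of_dvd_pow h6))
            · exact hp5 ((Nat.prime_dvd_prime_iff_eq hp Nat.prime_five).mp h6)
          · exact hpd' h3
        · exact hpe (hpp.dvd_of_dvd_pow h3)
      · have h3 : (p : ℤ) ∣ b * (20 * d' * e ^ 2) ^ 2 - n2 ^ 2 := by
          rw [← h2]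
          exact ⟨-(b * (p * b ^ 2 * r1 ^ 4 - 41 * b * r1 ^ 2 * d' * e ^ 2)), by ring⟩
        have h4 := cast_eq h3
        push_cast at h4 ⊢
        exact h4
    · refine zsq (s := ((b * r ^ 2 : ℤ) : ZMod p)) (w := ((n1 : ℤ) : ZMod p)) ?_ ?_
      · apply cast_ne
        intro h0
        rcases hpp.dvd_or_dvd h0 with h3 | h3
        · exact hpb h3
        · exact hpr (hpp.dvd_of_dvd_pow h3)
      · have h3 : (p : ℤ) ∣ b * (b * r ^ 2) ^ 2 - n1 ^ 2 := by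
          rw [← hstar, hbr]
          exact ⟨b * (41 * (b * r ^ 2) * d' * e ^ 2 - 400 * p * d' ^ 2 * e ^ 4), by ring⟩
        have h4 := cast_eq h3
        push_cast at h4 ⊢
        exact h4
  · intro p hp hp2 hp5 β d' hβ hdd
    have hpp : Prime (p : ℤ) := Nat.prime_iff_prime_int.mp hp
    have := Fact.mk hp
    have hpβ := not_dvd_of_sqf hbsf hpp hβ
    have hpd' : ¬ (p : ℤ) ∣ d' := not_dvd_of_sqf hsf hpp hdd
    have hpm : (p : ℤ) ∣ m := ⟨β * r ^ 2, by rw [hbr, hβ]; ring⟩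
    have hpe := cop_prime h.cop hpp hpm
    have h1 : (p : ℤ) * (p ^ 2 * (β * (β * r ^ 2 - 16 * d' * e ^ 2) *
        (β * r ^ 2 - 25 * d' * e ^ 2))) = n1 ^ 2 := by
      rw [← hstar, hbr, hβ, hdd]; ring
    obtain ⟨_, n2, hn2, h2⟩ := dvd_of_mul_eq_sq hpp h1
    have h3 : (p : ℤ) * (β * (β * r ^ 2 - 16 * d' * e ^ 2) *
        (β * r ^ 2 - 25 * d' * e ^ 2)) = n2 ^ 2 := by
      have : (p : ℤ) * ((p : ℤ) * (β * (β * r ^ 2 - 16 * d' * e ^ 2) *
        (β * r ^ 2 - 25 * d' * e ^ 2))) = p * n2 ^ 2 := by rw [← h2]; ring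
      exact mul_left_cancel₀ hpp.ne_zero this
    have hkey : ∀ c : ℤ, ¬ (p : ℤ) ∣ c → (p : ℤ) ∣ β * r ^ 2 - c ^ 2 * d' * e ^ 2 →
        IsSquare ((β * d' : ℤ) : ZMod p) := by
      intro c hc hdv
      have hr : ¬ (p : ℤ) ∣ r := by
        intro h0
        have h4 : (p : ℤ) ∣ c ^ 2 * d' * e ^ 2 := by
          have h5 : (p : ℤ) ∣ β * r ^ 2 := Dvd.dvd.mul_left (dvd_pow h0 two_ne_zero) _
          have := dvd_sub h5 hdv
          have e1 : β * r ^ 2 - (β * r ^ 2 - c ^ 2 * d' * e ^ 2) = c ^ 2 * d' * e ^ 2 := by ring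
          rwa [e1] at this
        rcases hpp.dvd_or_dvd h4 with h4 | h4
        · rcases hpp.dvd_or_dvd h4 with h4 | h4
          · exact hc (hpp.dvd_of_dvd_pow h4)
          · exact hpd' h4
        · exact hpe (hpp.dvd_of_dvd_pow h4)
      refine zsq (s := ((r : ℤ) : ZMod p)) (w := ((c * d' * e : ℤ) : ZMod p)) (cast_ne hr) ?_
      have h3 : (p : ℤ) ∣ (β * d') * r ^ 2 - (c * d' * e) ^ 2 := by
        have := Dvd.dvd.mul_left hdv d'
        have e1 : d' * (β * r ^ 2 - c ^ 2 * d' * e ^ 2) =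
          (β * d') * r ^ 2 - (c * d' * e) ^ 2 := by ring
        rwa [e1] at this
      have h4 := cast_eq h3
      push_cast at h4 ⊢
      exact h4
    have hp2' : ¬ (p : ℤ) ∣ 4 := by
      intro h0
      have h4 : p ∣ 2 ^ 2 := by exact_mod_cast h0
      exact hp2 ((Nat.prime_dvd_prime_iff_eq hp Nat.prime_two).mp (hp.dvd_of_dvd_pow h4))
    have hp5' : ¬ (p : ℤ) ∣ 5 := by
      intro h0
      have h4 : p ∣ 5 := by exact_mod_cast h0
      exact hp5 ((Nat.prime_dvd_prime_iff_eq hp Nat.prime_five).mp h4)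
    rcases hpp.dvd_or_dvd (dvd_of_mul_eq_sq hpp h3).1 with h4 | h4
    · rcases hpp.dvd_or_dvd h4 with h4 | h4
      · exact absurd h4 hpβ
      · exact hkey 4 hp2' (by norm_num; exact h4)
    · exact hkey 5 hp5' (by norm_num; exact h4)

end Vale.Agent.P017.H390
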