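import Mathlib
import Vale.Agent.P017.H390.NT

set_option autoImplicit false

namespace Vale.Agent.P017.H390

lemma mod3 : ∀ r e : ZMod 3, e ≠ 0 → r ^ 2 ≠ 16 * 2 * e ^ 2 := by decide

/-- Step B: if `m` is a square, the squarefree part of `m - 16 d e²`. -/
theorem stepB {d r e n : ℤ} (h : Sol d (r ^ 2) e n) (hd : 0 < d) (hsf : Squarefree d)
    (hd3 : (d : ZMod 3) = 2) :
    ∃ b s : ℤ, r ^ 2 - 16 * d * e ^ 2 = b * s ^ 2 ∧ Squarefree b ∧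
      (∀ q : ℤ, Prime q → q ∣ b → q ∣ d) ∧
      (∀ p : ℕ, p.Prime → p ≠ 2 → (p : ℤ) ∣ d → ¬ (p : ℤ) ∣ b →
        IsSquare ((b : ℤ) : ZMod p)) ∧
      (∀ p : ℕ, p.Prime → p ≠ 2 → ∀ β d' : ℤ, b = p * β → d = p * d' →
        IsSquare ((-(β * d') : ℤ) : ZMod p)) := by
  have hn := h.eq
  have hU0 : r ^ 2 - 16 * d * e ^ 2 ≠ 0 := by
    intro h0
    rw [h0, mul_zero, zero_mul] at hn
    exact h.n0 (pow_eq_zero_iff two_ne_zero |>.mp hn.symm)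
  have hr0 : r ≠ 0 := by
    rintro rfl
    have : (0 : ℤ) = n ^ 2 := by rw [← hn]; ring
    exact h.n0 (pow_eq_zero_iff two_ne_zero |>.mp this.symm)
  obtain ⟨b, s, hbs, hs0, hbsf, -⟩ := exists_sf _ hU0
  have h3e : ∀ q : ℤ, Prime q → q ∣ r ^ 2 - 16 * d * e ^ 2 → q ∣ e → False := by
    intro q hq h1 h2
    have h3 : q ∣ r ^ 2 := by
      have h4 : q ∣ 16 * d * e ^ 2 := Dvd.dvd.mul_left (dvd_pow h2 two_ne_zero) _
      have := dvd_add h1 h4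
      have e1 : r ^ 2 - 16 * d * e ^ 2 + 16 * d * e ^ 2 = r ^ 2 := by ring
      rwa [e1] at this
    exact cop_prime h.cop hq h3 h2
  -- the third factor
  obtain ⟨n1, hn1⟩ : ∃ n1, (r ^ 2 - 16 * d * e ^ 2) * (r ^ 2 - 25 * d * e ^ 2) = n1 ^ 2 := by
    have h1 : r ^ 2 ∣ n ^ 2 := ⟨_, by rw [← hn, mul_assoc]⟩
    obtain ⟨n1, rfl⟩ := dvd_of_sq_dvd h1
    refine ⟨n1, ?_⟩
    have h2 : r ^ 2 * ((r ^ 2 - 16 * d * e ^ 2) * (r ^ 2 - 25 * d * e ^ 2)) = r ^ 2 * n1 ^ 2 := by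
      rw [← mul_pow, ← hn]; ring
    exact mul_left_cancel₀ (pow_ne_zero 2 hr0) h2
  have h3U : ¬ (3 : ℤ) ∣ r ^ 2 - 16 * d * e ^ 2 := by
    intro h0
    have h1 := cast_eq (p := 3) h0
    push_cast at h1
    rw [hd3] at h1
    refine mod3 _ _ ?_ h1
    exact cast_ne (fun h2 => h3e 3 p3 h0 (by exact_mod_cast h2))
  refine ⟨b, s, hbs, hbsf, ?_, ?_, ?_⟩
  · intro q hq hqb
    obtain ⟨β, hβ⟩ := hqb
    have hqβ := not_dvd_of_sqf hbsf hq hβ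
    have hqU : q ∣ r ^ 2 - 16 * d * e ^ 2 := ⟨β * s ^ 2, by rw [hbs, hβ]; ring⟩
    -- `q ∣ V`
    obtain ⟨n2, hn2⟩ : ∃ n2, b * (r ^ 2 - 25 * d * e ^ 2) = n2 ^ 2 := by
      have h1 : s ^ 2 ∣ n1 ^ 2 := ⟨b * (r ^ 2 - 25 * d * e ^ 2), by rw [← hn1, hbs]; ring⟩
      obtain ⟨n2, rfl⟩ := dvd_of_sq_dvd h1
      refine ⟨n2, ?_⟩
      have h2 : s ^ 2 * (b * (r ^ 2 - 25 * d * e ^ 2)) = s ^ 2 * n2 ^ 2 := by
        rw [← mul_pow, ← hn1, hbs]; ring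
      exact mul_left_cancel₀ (pow_ne_zero 2 hs0) h2
    have hqV : q ∣ r ^ 2 - 25 * d * e ^ 2 := by
      have h1 : q * (β * (r ^ 2 - 25 * d * e ^ 2)) = n2 ^ 2 := by rw [← hn2, hβ]; ring
      rcases hq.dvd_or_dvd (dvd_of_mul_eq_sq hq h1).1 with h2 | h2
      · exact absurd h2 hqβ
      · exact h2
    have h1 : q ∣ 3 ^ 2 * d * e ^ 2 := by
      have := dvd_sub hqU hqV
      have e1 : r ^ 2 - 16 * d * e ^ 2 - (r ^ 2 - 25 * d * e ^ 2) = 3 ^ 2 * d * e ^ 2 := by ring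
      rwa [e1] at this
    rcases hq.dvd_or_dvd h1 with h1 | h1
    · rcases hq.dvd_or_dvd h1 with h1 | h1
      · exfalso
        have hass : Associated q 3 := hq.associated_of_dvd p3 (hq.dvd_of_dvd_pow h1)
        exact h3U (hass.symm.dvd.trans hqU)
      · exact h1
    · exact (h3e q hq hqU (hq.dvd_of_dvd_pow h1)).elim
  · intro p hp hp2 hpd hpb
    have hpp : Prime (p : ℤ) := Nat.prime_iff_prime_int.mp hp
    have := Fact.mk hp
    have hp16 : ¬ (p : ℤ) ∣ 16 := by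
      intro h0
      have h4 : p ∣ 2 ^ 4 := by exact_mod_cast h0
      exact hp2 ((Nat.prime_dvd_prime_iff_eq hp Nat.prime_two).mp (hp.dvd_of_dvd_pow h4))
    obtain ⟨d', rfl⟩ := hpd
    have hpd' : ¬ (p : ℤ) ∣ d' := not_dvd_of_sqf hsf hpp rfl
    have hpr : ¬ (p : ℤ) ∣ r := by
      intro h0
      have hpe := cop_prime h.cop hpp (dvd_pow h0 two_ne_zero)
      obtain ⟨r1, rfl⟩ := h0
      have h1 : (p : ℤ) * (p * r1 ^ 2 - 16 * d' * e ^ 2) = b * s ^ 2 := by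
        rw [← hbs]; ring
      have h2 : (p : ℤ) ∣ b * s ^ 2 := ⟨_, h1.symm⟩
      rcases hpp.dvd_or_dvd h2 with h2 | h2
      · exact hpb h2
      · obtain ⟨s1, rfl⟩ := hpp.dvd_of_dvd_pow h2
        have h3 : (p : ℤ) * (p * r1 ^ 2 - 16 * d' * e ^ 2) = p * (p * (b * s1 ^ 2)) := by
          rw [h1]; ring
        have h4 := mul_left_cancel₀ hpp.ne_zero h3
        have h5 : (p : ℤ) ∣ 16 * d' * e ^ 2 := ⟨r1 ^ 2 - b * s1 ^ 2, by linarith⟩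
        rcases hpp.dvd_or_dvd h5 with h5 | h5
        · rcases hpp.dvd_or_dvd h5 with h5 | h5
          · exact hp16 h5
          · exact hpd' h5
        · exact hpe (hpp.dvd_of_dvd_pow h5)
    have hps : ¬ (p : ℤ) ∣ s := by
      intro h0
      have h1 : (p : ℤ) ∣ r ^ 2 := by
        have h2 : (p : ℤ) ∣ b * s ^ 2 := Dvd.dvd.mul_left (dvd_pow h0 two_ne_zero) _
        rw [← hbs] at h2
        have h3 : (p : ℤ) ∣ 16 * (p * d') * e ^ 2 := ⟨16 * d' * e ^ 2, by ring⟩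
        have := dvd_add h2 h3
        have e1 : r ^ 2 - 16 * (p * d') * e ^ 2 + 16 * (p * d') * e ^ 2 = r ^ 2 := by ring
        rwa [e1] at this
      exact hpr (hpp.dvd_of_dvd_pow h1)
    refine zsq (s := ((s : ℤ) : ZMod p)) (w := ((r : ℤ) : ZMod p)) (cast_ne hps) ?_
    have h3 : (p : ℤ) ∣ b * s ^ 2 - r ^ 2 := by
      rw [← hbs]
      exact ⟨-(16 * d' * e ^ 2), by ring⟩
    have h4 := cast_eq h3
    push_cast at h4 ⊢
    exact h4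
  · intro p hp hp2 β d' hβ hdd
    have hpp : Prime (p : ℤ) := Nat.prime_iff_prime_int.mp hp
    have := Fact.mk hp
    have hp16 : ¬ (p : ℤ) ∣ 16 := by
      intro h0
      have h4 : p ∣ 2 ^ 4 := by exact_mod_cast h0
      exact hp2 ((Nat.prime_dvd_prime_iff_eq hp Nat.prime_two).mp (hp.dvd_of_dvd_pow h4))
    have hpβ := not_dvd_of_sqf hbsf hpp hβ
    have hpd' : ¬ (p : ℤ) ∣ d' := not_dvd_of_sqf hsf hpp hdd
    have hpU : (p : ℤ) ∣ r ^ 2 - 16 * d * e ^ 2 := ⟨β * s ^ 2, by rw [hbs, hβ]; ring⟩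
    have hpe : ¬ (p : ℤ) ∣ e := fun h0 => h3e p hpp hpU h0
    have hpr : (p : ℤ) ∣ r := by
      have h3 : (p : ℤ) ∣ 16 * d * e ^ 2 := ⟨16 * d' * e ^ 2, by rw [hdd]; ring⟩
      have := dvd_add hpU h3
      have e1 : r ^ 2 - 16 * d * e ^ 2 + 16 * d * e ^ 2 = r ^ 2 := by ring
      rw [e1] at this
      exact hpp.dvd_of_dvd_pow this
    obtain ⟨r1, rfl⟩ := hpr
    have h1 : β * s ^ 2 = p * r1 ^ 2 - 16 * d' * e ^ 2 := by
      have : (p : ℤ) * (β * s ^ 2) = p * (p * r1 ^ 2 - 16 * d' * e ^ 2) := by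
        have := hbs
        rw [hβ, hdd] at this
        linear_combination -this
      exact mul_left_cancel₀ hpp.ne_zero this
    have hps : ¬ (p : ℤ) ∣ s := by
      intro h0
      have h2 : (p : ℤ) ∣ 16 * d' * e ^ 2 := by
        have h3 : (p : ℤ) ∣ β * s ^ 2 := Dvd.dvd.mul_left (dvd_pow h0 two_ne_zero) _
        have h4 : (p : ℤ) ∣ p * r1 ^ 2 := ⟨_, rfl⟩
        have := dvd_sub h4 h3
        have e1 : p * r1 ^ 2 - β * s ^ 2 = 16 * d' * e ^ 2 := by rw [h1]; ring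
        rwa [e1] at this
      rcases hpp.dvd_or_dvd h2 with h5 | h5
      · rcases hpp.dvd_or_dvd h5 with h5 | h5
        · exact hp16 h5
        · exact hpd' h5
      · exact hpe (hpp.dvd_of_dvd_pow h5)
    refine zsq (s := ((s : ℤ) : ZMod p)) (w := ((4 * d' * e : ℤ) : ZMod p)) (cast_ne hps) ?_
    have h3 : (p : ℤ) ∣ (-(β * d')) * s ^ 2 - (4 * d' * e) ^ 2 := by
      refine ⟨-(d' * r1 ^ 2), ?_⟩
      linear_combination (-d') * h1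
    have h4 := cast_eq h3
    push_cast at h4 ⊢
    exact h4

/-- Setting for the curve `y² = x (x - 1) (x - 81)`. -/
structure Sol1 (m e n : ℤ) : Prop where
  cop : IsCoprime m e
  e0 : e ≠ 0
  n0 : n ≠ 0
  eq : m * (m - e ^ 2) * (m - 81 * e ^ 2) = n ^ 2

lemma Sol1.pos {m e n : ℤ} (h : Sol1 m e n) : 0 < m := by
  have he : 0 < e ^ 2 := by have := h.e0; positivity
  have hn : 0 < n ^ 2 := by have := h.n0; positivity
  by_contra hm
  have hm' : m ≤ 0 := not_lt.mp hm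
  have h1 : m - e ^ 2 < 0 := by nlinarith
  have h2 : m - 81 * e ^ 2 < 0 := by nlinarith
  have h3 : 0 < (m - e ^ 2) * (m - 81 * e ^ 2) := mul_pos_of_neg_of_neg h1 h2
  have h4 := h.eq
  have : m * (m - e ^ 2) * (m - 81 * e ^ 2) ≤ 0 := by
    rw [mul_assoc]; exact mul_nonpos_of_nonpos_of_nonneg hm' h3.le
  linarith

lemma mod3' : ∀ n u : ZMod 3, u ≠ 0 → n ^ 2 ≠ - u ^ 2 := by decide

theorem step1A {m e n : ℤ} (h : Sol1 m e n) : ∃ r : ℤ, m = r ^ 2 := by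
  have hm := h.pos
  obtain ⟨b, r, hbr, hr0, hbsf, hb⟩ := exists_sf m hm.ne'
  have hb := hb hm
  obtain ⟨n1, hn1, hstar⟩ : ∃ n1, n = r * n1 ∧
      b * (m - e ^ 2) * (m - 81 * e ^ 2) = n1 ^ 2 := by
    have h1 : r ^ 2 ∣ n ^ 2 := ⟨b * (m - e ^ 2) * (m - 81 * e ^ 2), by
      rw [← h.eq]
      nth_rewrite 1 [hbr]
      ring⟩
    obtain ⟨n1, rfl⟩ := dvd_of_sq_dvd h1
    refine ⟨n1, rfl, ?_⟩
    have h2 : r ^ 2 * (b * (m - e ^ 2) * (m - 81 * e ^ 2)) = r ^ 2 * n1 ^ 2 := by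
      rw [← mul_pow, ← h.eq]
      nth_rewrite 3 [hbr]
      ring
    exact mul_left_cancel₀ (pow_ne_zero 2 hr0) h2
  suffices hu : IsUnit b by
    rcases Int.isUnit_iff.mp hu with h1 | h1
    · exact ⟨r, by rw [hbr, h1, one_mul]⟩
    · rw [h1] at hb; omega
  by_contra hu
  obtain ⟨q, hq, hqb⟩ := WfDvdMonoid.exists_irreducible_factor hu hb.ne'
  have hq : Prime q := hq.prime
  obtain ⟨β, hβ⟩ := hqb
  have hqβ := not_dvd_of_sqf hbsf hq hβ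
  have hqm : q ∣ m := ⟨β * r ^ 2, by rw [hbr, hβ]; ring⟩
  have hqe := cop_prime h.cop hq hqm
  have hqU : ¬ q ∣ m - e ^ 2 := by
    intro h0
    have := dvd_sub hqm h0
    have e1 : m - (m - e ^ 2) = e ^ 2 := by ring
    rw [e1] at this
    exact hqe (hq.dvd_of_dvd_pow this)
  have hqV : q ∣ m - 81 * e ^ 2 := by
    have h1 : q * (β * (m - e ^ 2) * (m - 81 * e ^ 2)) = n1 ^ 2 := by
      rw [← hstar, hβ]; ring
    rcases hq.dvd_or_dvd (dvd_of_mul_eq_sq hq h1).1 with h2 | h2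
    · rcases hq.dvd_or_dvd h2 with h2 | h2
      · exact absurd h2 hqβ
      · exact absurd h2 hqU
    · exact h2
  have hq3 : q ∣ 3 := by
    have h1 : q ∣ 3 ^ 4 * e ^ 2 := by
      have := dvd_sub hqm hqV
      have e1 : m - (m - 81 * e ^ 2) = 3 ^ 4 * e ^ 2 := by ring
      rwa [e1] at this
    rcases hq.dvd_or_dvd h1 with h1 | h1
    · exact hq.dvd_of_dvd_pow h1
    · exact absurd (hq.dvd_of_dvd_pow h1) hqe
  have hass : Associated q 3 := hq.associated_of_dvd p3 hq3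
  have h3b : (3 : ℤ) ∣ b := hass.symm.dvd.trans ⟨β, hβ⟩
  have h3e : ¬ (3 : ℤ) ∣ e := fun h0 => hqe (hass.dvd.trans h0)
  obtain ⟨β, hβ⟩ := h3b
  have h3β := not_dvd_of_sqf hbsf p3 hβ
  have h9 : 9 * (β * (m - e ^ 2) * (β * r ^ 2 - 27 * e ^ 2)) = n1 ^ 2 := by
    rw [← hstar, hbr, hβ]; ring
  obtain ⟨n2, rfl⟩ : (3 : ℤ) ∣ n1 := p3.dvd_of_dvd_pow
    ⟨3 * (β * (m - e ^ 2) * (β * r ^ 2 - 27 * e ^ 2)), by rw [← h9]; ring⟩
  have hE : β * (m - e ^ 2) * (β * r ^ 2 - 27 * e ^ 2) = n2 ^ 2 := by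
    have : (9 : ℤ) * (β * (m - e ^ 2) * (β * r ^ 2 - 27 * e ^ 2)) = 9 * n2 ^ 2 := by
      rw [h9]; ring
    exact mul_left_cancel₀ (by norm_num) this
  -- a general contradiction
  have hfin : ∀ r1 n3 : ℤ, ¬ (3 : ℤ) ∣ r1 → (3 : ℤ) ∣ n3 ^ 2 - (-(e * β * r1) ^ 2) → False := by
    intro r1 n3 hr1 h1
    have h2 := cast_eq (p := 3) h1
    push_cast at h2
    refine mod3' (n3 : ZMod 3) ((e * β * r1 : ℤ) : ZMod 3) ?_ (by push_cast; exact h2)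
    apply cast_ne
    intro h0
    have h0' : (3 : ℤ) ∣ e * β * r1 := by exact_mod_cast h0
    rcases p3.dvd_or_dvd h0' with h3 | h3
    · rcases p3.dvd_or_dvd h3 with h3 | h3
      · exact h3e h3
      · exact h3β h3
    · exact hr1 h3
  by_cases h3r : (3 : ℤ) ∣ r
  · obtain ⟨r1, rfl⟩ := h3r
    have h1 : 9 * (β * (m - e ^ 2) * (β * r1 ^ 2 - 3 * e ^ 2)) = n2 ^ 2 := by
      rw [← hE]; ring
    obtain ⟨n3, rfl⟩ : (3 : ℤ) ∣ n2 := p3.dvd_of_dvd_pow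
      ⟨3 * (β * (m - e ^ 2) * (β * r1 ^ 2 - 3 * e ^ 2)), by rw [← h1]; ring⟩
    have hE2 : β * (m - e ^ 2) * (β * r1 ^ 2 - 3 * e ^ 2) = n3 ^ 2 := by
      have : (9 : ℤ) * (β * (m - e ^ 2) * (β * r1 ^ 2 - 3 * e ^ 2)) = 9 * n3 ^ 2 := by
        rw [h1]; ring
      exact mul_left_cancel₀ (by norm_num) this
    by_cases h3r1 : (3 : ℤ) ∣ r1
    · obtain ⟨r2, rfl⟩ := h3r1
      have h2 : 3 * (β * (m - e ^ 2) * (3 * β * r2 ^ 2 - e ^ 2)) = n3 ^ 2 := by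
        rw [← hE2]; ring
      rcases p3.dvd_or_dvd (dvd_of_mul_eq_sq p3 h2).1 with h4 | h4
      · rcases p3.dvd_or_dvd h4 with h4 | h4
        · exact h3β h4
        · exact hqU (hass.dvd.trans h4)
      · have : (3 : ℤ) ∣ e ^ 2 := by
          have h5 : (3 : ℤ) ∣ 3 * β * r2 ^ 2 := ⟨β * r2 ^ 2, by ring⟩
          have := dvd_sub h5 h4
          have e1 : 3 * β * r2 ^ 2 - (3 * β * r2 ^ 2 - e ^ 2) = e ^ 2 := by ring
          rwa [e1] at this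
        exact h3e (p3.dvd_of_dvd_pow this)
    · refine hfin r1 n3 h3r1 ?_
      rw [← hE2, hbr, hβ]
      refine ⟨9 * β ^ 3 * r1 ^ 4 - β * (27 * β * r1 ^ 2) * e ^ 2 + β * e ^ 4, ?_⟩
      ring
  · refine hfin r n2 h3r ?_
    rw [← hE, hbr, hβ]
    refine ⟨β ^ 3 * r ^ 4 - 27 * β ^ 2 * r ^ 2 * e ^ 2 + 9 * β * e ^ 4, ?_⟩
    ring

end Vale.Agent.P017.H390
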