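import Mathlib
import Vale.Agent.P017.H390.NTB

set_option autoImplicit false

namespace Vale.Agent.P017.H390

/-- a squarefree integer all of whose prime factors divide the prime `p` is `±1` or `±p` -/
lemma sf_of_prime {b p : ℤ} (hp : Prime p) (hb : Squarefree b)
    (h : ∀ q : ℤ, Prime q → q ∣ b → q ∣ p) : b = 1 ∨ b = -1 ∨ b = p ∨ b = -p := by
  by_cases hu : IsUnit b
  · rcases Int.isUnit_iff.mp hu with h1 | h1
    · exact Or.inl h1
    · exact Or.inr (Or.inl h1)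
  · have hb0 : b ≠ 0 := hb.ne_zero
    obtain ⟨q, hq, hqb⟩ := WfDvdMonoid.exists_irreducible_factor hu hb0
    have hq : Prime q := hq.prime
    have hass : Associated q p := hq.associated_of_dvd hp (h q hq hqb)
    obtain ⟨β, hβ⟩ : p ∣ b := hass.symm.dvd.trans hqb
    have hpβ := not_dvd_of_sqf hb hp hβ
    have huβ : IsUnit β := by
      by_contra hu'
      have hβ0 : β ≠ 0 := by
        rintro rfl
        exact hb0 (by rw [hβ]; ring)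
      obtain ⟨q', hq', hqb'⟩ := WfDvdMonoid.exists_irreducible_factor hu' hβ0
      have hq' : Prime q' := hq'.prime
      have h1 : q' ∣ p := h q' hq' (by rw [hβ]; exact Dvd.dvd.mul_left hqb' _)
      exact hpβ ((hq'.associated_of_dvd hp h1).symm.dvd.trans hqb')
    rcases Int.isUnit_iff.mp huβ with h1 | h1
    · right; right; left; rw [hβ, h1, mul_one]
    · right; right; right; rw [hβ, h1]; ring

theorem step1B {r e n : ℤ} (h : Sol1 (r ^ 2) e n) :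
    ∃ s : ℤ, r ^ 2 - e ^ 2 = s ^ 2 ∨ r ^ 2 - e ^ 2 = - s ^ 2 ∨ r ^ 2 - e ^ 2 = 5 * s ^ 2 ∨
      r ^ 2 - e ^ 2 = -5 * s ^ 2 := by
  have hn := h.eq
  have hU0 : r ^ 2 - e ^ 2 ≠ 0 := by
    intro h0
    rw [h0, mul_zero, zero_mul] at hn
    exact h.n0 (pow_eq_zero_iff two_ne_zero |>.mp hn.symm)
  have hr0 : r ≠ 0 := by
    rintro rfl
    have : (0 : ℤ) = n ^ 2 := by rw [← hn]; ring
    exact h.n0 (pow_eq_zero_iff two_ne_zero |>.mp this.symm)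
  obtain ⟨b, s, hbs, hs0, hbsf, -⟩ := exists_sf _ hU0
  have hqe : ∀ q : ℤ, Prime q → q ∣ r ^ 2 - e ^ 2 → q ∣ e → False := by
    intro q hq h1 h2
    have h3 : q ∣ r ^ 2 := by
      have h4 : q ∣ e ^ 2 := dvd_pow h2 two_ne_zero
      have := dvd_add h1 h4
      have e1 : r ^ 2 - e ^ 2 + e ^ 2 = r ^ 2 := by ring
      rwa [e1] at this
    exact cop_prime h.cop hq h3 h2
  obtain ⟨n1, hn1⟩ : ∃ n1, (r ^ 2 - e ^ 2) * (r ^ 2 - 81 * e ^ 2) = n1 ^ 2 := by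
    have h1 : r ^ 2 ∣ n ^ 2 := ⟨_, by rw [← hn, mul_assoc]⟩
    obtain ⟨n1, rfl⟩ := dvd_of_sq_dvd h1
    refine ⟨n1, ?_⟩
    have h2 : r ^ 2 * ((r ^ 2 - e ^ 2) * (r ^ 2 - 81 * e ^ 2)) = r ^ 2 * n1 ^ 2 := by
      rw [← mul_pow, ← hn]; ring
    exact mul_left_cancel₀ (pow_ne_zero 2 hr0) h2
  obtain ⟨n2, hn2⟩ : ∃ n2, b * (r ^ 2 - 81 * e ^ 2) = n2 ^ 2 := by
    have h1 : s ^ 2 ∣ n1 ^ 2 := ⟨b * (r ^ 2 - 81 * e ^ 2), by rw [← hn1, hbs]; ring⟩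
    obtain ⟨n2, rfl⟩ := dvd_of_sq_dvd h1
    refine ⟨n2, ?_⟩
    have h2 : s ^ 2 * (b * (r ^ 2 - 81 * e ^ 2)) = s ^ 2 * n2 ^ 2 := by
      rw [← mul_pow, ← hn1, hbs]; ring
    exact mul_left_cancel₀ (pow_ne_zero 2 hs0) h2
  -- `2` does not divide `b`
  have h2b : ¬ (2 : ℤ) ∣ b := by
    rintro ⟨β, hβ⟩
    have h2β := not_dvd_of_sqf hbsf p2 hβ
    have h2U : (2 : ℤ) ∣ r ^ 2 - e ^ 2 := ⟨β * s ^ 2, by rw [hbs, hβ]; ring⟩
    have h2e : ¬ (2 : ℤ) ∣ e := fun h0 => hqe 2 p2 h2U h0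
    have h2r : ¬ (2 : ℤ) ∣ r := by
      intro h0
      have : (2 : ℤ) ∣ e ^ 2 := by
        have h4 : (2 : ℤ) ∣ r ^ 2 := dvd_pow h0 two_ne_zero
        have := dvd_sub h4 h2U
        have e1 : r ^ 2 - (r ^ 2 - e ^ 2) = e ^ 2 := by ring
        rwa [e1] at this
      exact h2e (p2.dvd_of_dvd_pow this)
    have he : Odd e := Int.not_even_iff_odd.mp (fun h0 => h2e h0.two_dvd)
    have hr : Odd r := Int.not_even_iff_odd.mp (fun h0 => h2r h0.two_dvd)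
    have hβo : Odd β := Int.not_even_iff_odd.mp (fun h0 => h2β h0.two_dvd)
    have he8 : e ^ 2 % 8 = 1 := Int.sq_mod_four_eq_one_of_odd he |> fun _ => by
      obtain ⟨k, rfl⟩ := he
      have : (2 * k + 1) ^ 2 = 4 * (k * (k + 1)) + 1 := by ring
      rw [this]
      have h2 : (2 : ℤ) ∣ k * (k + 1) := (Int.even_mul_succ_self k).two_dvd
      omega
    have hr8 : r ^ 2 % 8 = 1 := by
      obtain ⟨k, rfl⟩ := hr
      have : (2 * k + 1) ^ 2 = 4 * (k * (k + 1)) + 1 := by ring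
      rw [this]
      have h2 : (2 : ℤ) ∣ k * (k + 1) := (Int.even_mul_succ_self k).two_dvd
      omega
    obtain ⟨u, hu⟩ : ∃ u, r ^ 2 - e ^ 2 = 8 * u := ⟨(r ^ 2 - e ^ 2) / 8, by omega⟩
    have h1 : β * s ^ 2 = 4 * u := by
      have : 2 * (β * s ^ 2) = 2 * (4 * u) := by linear_combination hu - hbs - s ^ 2 * hβ
      linarith
    have hse : (2 : ℤ) ∣ s := by
      have : (2 : ℤ) ∣ β * s ^ 2 := ⟨2 * u, by rw [h1]; ring⟩
      rcases p2.dvd_or_dvd this with h3 | h3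
      · exact absurd h3 h2β
      · exact p2.dvd_of_dvd_pow h3
    obtain ⟨s1, rfl⟩ := hse
    have h3 : β * s1 ^ 2 = u := by linarith
    -- the third factor
    have h4 : 2 * β * (8 * (u - 10 * e ^ 2)) = n2 ^ 2 := by
      rw [← hn2, hβ]; linear_combination (-2 * β) * hu
    obtain ⟨n3, rfl⟩ : (2 : ℤ) ∣ n2 := p2.dvd_of_dvd_pow ⟨8 * β * (u - 10 * e ^ 2), by rw [← h4]; ring⟩
    have h5 : 4 * (β * (u - 10 * e ^ 2)) = n3 ^ 2 := by linarith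
    obtain ⟨n4, rfl⟩ : (2 : ℤ) ∣ n3 := p2.dvd_of_dvd_pow ⟨2 * (β * (u - 10 * e ^ 2)), by rw [← h5]; ring⟩
    have h6 : β * (u - 10 * e ^ 2) = n4 ^ 2 := by linarith
    have h7 : (β * s1) ^ 2 - n4 ^ 2 = 10 * β * e ^ 2 := by
      rw [← h6, ← h3]; ring
    have h8 : (10 * β * e ^ 2) % 4 = 2 := by
      obtain ⟨k, hk⟩ := hβo
      have he4 : ∃ v, e ^ 2 = 8 * v + 1 := ⟨e ^ 2 / 8, by omega⟩
      obtain ⟨v, hv⟩ := he4
      rw [hk, hv]
      have : 10 * (2 * k + 1) * (8 * v + 1) = 4 * (40 * k * v + 5 * k + 20 * v + 2) + 2 := by ring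
      rw [this]; omega
    have hsq : ∀ z : ℤ, z ^ 2 % 4 = 0 ∨ z ^ 2 % 4 = 1 := by
      intro z
      rcases Int.even_or_odd z with ⟨k, hk⟩ | ⟨k, hk⟩
      · left; rw [hk]; have : (k + k) ^ 2 = 4 * k ^ 2 := by ring
        rw [this]; omega
      · right; rw [hk]; have : (2 * k + 1) ^ 2 = 4 * (k ^ 2 + k) + 1 := by ring
        rw [this]; omega
    have ha := hsq (β * s1)
    have hb' := hsq n4
    omega
  have hq5 : ∀ q : ℤ, Prime q → q ∣ b → q ∣ 5 := by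
    intro q hq hqb
    obtain ⟨β, hβ⟩ := hqb
    have hqβ := not_dvd_of_sqf hbsf hq hβ
    have hqU : q ∣ r ^ 2 - e ^ 2 := ⟨β * s ^ 2, by rw [hbs, hβ]; ring⟩
    have hqV : q ∣ r ^ 2 - 81 * e ^ 2 := by
      have h1 : q * (β * (r ^ 2 - 81 * e ^ 2)) = n2 ^ 2 := by rw [← hn2, hβ]; ring
      rcases hq.dvd_or_dvd (dvd_of_mul_eq_sq hq h1).1 with h2 | h2
      · exact absurd h2 hqβ
      · exact h2
    have h1 : q ∣ 2 ^ 4 * 5 * e ^ 2 := by
      have := dvd_sub hqU hqV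
      have e1 : r ^ 2 - e ^ 2 - (r ^ 2 - 81 * e ^ 2) = 2 ^ 4 * 5 * e ^ 2 := by ring
      rwa [e1] at this
    rcases hq.dvd_or_dvd h1 with h1 | h1
    · rcases hq.dvd_or_dvd h1 with h1 | h1
      · exfalso
        have hass : Associated q 2 := hq.associated_of_dvd p2 (hq.dvd_of_dvd_pow h1)
        exact h2b (hass.symm.dvd.trans ⟨β, hβ⟩)
      · exact h1
    · exact (hqe q hq hqU (hq.dvd_of_dvd_pow h1)).elim
  rcases sf_of_prime p5 hbsf hq5 with h1 | h1 | h1 | h1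
  · exact ⟨s, Or.inl (by rw [hbs, h1, one_mul])⟩
  · exact ⟨s, Or.inr (Or.inl (by rw [hbs, h1]; ring))⟩
  · exact ⟨s, Or.inr (Or.inr (Or.inl (by rw [hbs, h1])))⟩
  · exact ⟨s, Or.inr (Or.inr (Or.inr (by rw [hbs, h1])))⟩

end Vale.Agent.P017.H390
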