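import Mathlib
import Vale.Agent.P017.H390.Fin
import Vale.Agent.P017.H390.NTC

set_option autoImplicit false

namespace Vale.Agent.P017.H390

open WeierstrassCurve WeierstrassCurve.Affine

/-- integral form of a rational point -/
lemma int_form (A B : ℤ) {x y : ℚ} (hy : y ≠ 0) (h : y ^ 2 = x * (x + A) * (x + B)) :
    ∃ m e n : ℤ, IsCoprime m e ∧ e ≠ 0 ∧ n ≠ 0 ∧ x = m / e ^ 2 ∧
      m * (m + A * e ^ 2) * (m + B * e ^ 2) = n ^ 2 := by
  obtain ⟨p, hp⟩ : ∃ p : ℤ, p = x.num := ⟨_, rfl⟩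
  obtain ⟨q, hq⟩ : ∃ q : ℤ, q = (x.den : ℤ) := ⟨_, rfl⟩
  have hq0 : 0 < q := by rw [hq]; exact_mod_cast x.pos
  have hcop : IsCoprime p q := by
    rw [hp, hq, Int.isCoprime_iff_gcd_eq_one]; exact x.reduced
  have hxpq : x = (p : ℚ) / q := by rw [hp, hq]; exact_mod_cast (Rat.num_div_den x).symm
  have hqQ : (q : ℚ) ≠ 0 := by exact_mod_cast hq0.ne'
  obtain ⟨N, hN⟩ : ∃ N : ℤ, N = p * (p + A * q) * (p + B * q) := ⟨_, rfl⟩
  have h1 : (y * q ^ 2) ^ 2 = ((N * q : ℤ) : ℚ) := by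
    rw [hN, mul_pow, h, hxpq]
    push_cast
    field_simp
  have h2 : IsSquare (N * q : ℤ) := by
    rw [← Rat.isSquare_intCast_iff, ← h1]
    exact ⟨y * q ^ 2, sq _⟩
  obtain ⟨c, hc⟩ := h2
  have hcopA : IsCoprime (p + A * q) q := by
    simpa using hcop.add_mul_right_left A
  have hcopB : IsCoprime (p + B * q) q := by
    simpa using hcop.add_mul_right_left B
  have hNq : IsCoprime N q := by
    rw [hN]; exact (hcop.mul_left hcopA).mul_left hcopB
  have hNq0 : (N * q : ℤ) ≠ 0 := by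
    intro h0
    rw [h0] at h1
    have : y * q ^ 2 = 0 := pow_eq_zero_iff two_ne_zero |>.mp (by rw [h1]; simp)
    exact (mul_ne_zero hy (pow_ne_zero 2 hqQ)) this
  have hcc : N * q = c ^ 2 := by rw [hc, sq]
  have hpos : 0 < N * q := by
    rw [hcc]
    have : c ≠ 0 := by
      rintro rfl
      exact hNq0 (by rw [hcc]; ring)
    positivity
  have hN0 : 0 < N := by
    by_contra h0
    have := mul_nonpos_of_nonpos_of_nonneg (not_lt.mp h0) hq0.le
    linarith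
  obtain ⟨n, hn⟩ := Int.sq_of_isCoprime hNq hcc
  obtain ⟨e, he⟩ := Int.sq_of_isCoprime hNq.symm (by rw [mul_comm]; exact hcc)
  have hn' : N = n ^ 2 := by
    rcases hn with h0 | h0
    · exact h0
    · exfalso; nlinarith [sq_nonneg n]
  have he' : q = e ^ 2 := by
    rcases he with h0 | h0
    · exact h0
    · exfalso; nlinarith [sq_nonneg e]
  have he0 : e ≠ 0 := by
    rintro rfl
    rw [he'] at hq0
    simp at hq0
  refine ⟨p, e, n, ?_, he0, ?_, ?_, ?_⟩
  · rw [he'] at hcop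
    exact (IsCoprime.pow_right_iff (by norm_num)).mp hcop
  · rintro rfl
    rw [hn'] at hN0
    simp at hN0
  · rw [hxpq, he']; push_cast; ring
  · rw [← hn', hN, he']

section

variable {A B : ℤ} [(CQ A B).IsElliptic]

lemma T0_add_TA (hA : A ≠ 0) : (TA : (CQ A B).toAffine.Point) + T0 = TB := by
  have hA' : (-(A : ℚ)) ≠ 0 := by
    rw [neg_ne_zero]; exact_mod_cast hA
  have h0 : (0 : ℚ) ^ 2 = (-(A : ℚ)) * (-(A : ℚ) + A) * (-(A : ℚ) + B) := by ring
  obtain ⟨y', h', e⟩ := add_T0 h0 hA'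
  have e1 : (TA : (CQ A B).toAffine.Point) = pt h0 := rfl
  have hx : (A : ℚ) * B / -A = -B := by
    rw [div_neg]
    rw [neg_ne_zero] at hA'
    field_simp
  rw [e1, e]
  have hy : y' = 0 := by
    have : y' ^ 2 = 0 := by rw [h', hx]; ring
    exact pow_eq_zero_iff two_ne_zero |>.mp this
  unfold TB pt
  rw [Point.some.injEq]
  exact ⟨hx, hy⟩

/-- a point is twice a point if two of the three factors are squares -/
lemma good (hA : A ≠ 0) (hB : B ≠ 0) (hAB : A - B ≠ 0) {x y : ℚ}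
    (h : y ^ 2 = x * (x + A) * (x + B)) (hx : x ≠ 0) (hxA : x + A ≠ 0)
    (h1 : IsSquare x) (h2 : IsSquare (x + A)) :
    ∃ Q : (CQ A B).toAffine.Point, pt h = Q + Q := by
  obtain ⟨r, hr⟩ := h1
  obtain ⟨s, hs⟩ := h2
  have hr0 : r ≠ 0 := by rintro rfl; exact hx (by rw [hr]; ring)
  have hs0 : s ≠ 0 := by rintro rfl; exact hxA (by rw [hs]; ring)
  have ht : x + B = (y / (r * s)) ^ 2 := by
    have h3 : y ^ 2 = (r * s) ^ 2 * (x + B) := by
      rw [h]; nth_rewrite 1 [hr]; rw [hs]; ring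
    rw [div_pow, h3]
    field_simp
  obtain ⟨Q, hQ⟩ := half (by norm_num) h (by rw [hr, sq]) (by rw [hs, sq]) ht
    (by exact_mod_cast hA) (by exact_mod_cast hB) (by exact_mod_cast hAB)
  exact ⟨Q, hQ.symm⟩

lemma isSquare_of_eq {u v w : ℚ} (hu : IsSquare u) (h : v = u * w ^ 2) : IsSquare v := by
  obtain ⟨c, hc⟩ := hu
  exact ⟨c * w, by rw [h, hc]; ring⟩

/-- the criterion: four classes -/
lemma crit (hA : A ≠ 0) (hB : B ≠ 0) (hAB : A - B ≠ 0) {x y : ℚ}
    (h : y ^ 2 = x * (x + A) * (x + B)) (hy : y ≠ 0)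
    (hc : (IsSquare x ∧ IsSquare (x + A)) ∨ (IsSquare (A * B * x) ∧ IsSquare (A * (x + A))) ∨
      (IsSquare (-A * x) ∧ IsSquare (A * (A - B) * (x + A))) ∨
      (IsSquare (-B * x) ∧ IsSquare ((A - B) * (x + A)))) :
    ∃ t ∈ Tors (A := A) (B := B), ∃ Q, (pt h : (CQ A B).toAffine.Point) + t = Q + Q := by
  have h0 : x * (x + A) * (x + B) ≠ 0 := by rw [← h]; exact pow_ne_zero _ hy
  have hx := left_ne_zero_of_mul (left_ne_zero_of_mul h0)
  have hxA := right_ne_zero_of_mul (left_ne_zero_of_mul h0)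
  have hxB := right_ne_zero_of_mul h0
  have hA' : (A : ℚ) ≠ 0 := by exact_mod_cast hA
  have hB' : (B : ℚ) ≠ 0 := by exact_mod_cast hB
  have hAB' : (A : ℚ) - B ≠ 0 := by exact_mod_cast hAB
  have e1 : x + B = y ^ 2 / (x * (x + A)) := by
    rw [h]; field_simp
  rcases hc with ⟨c1, c2⟩ | ⟨c1, c2⟩ | ⟨c1, c2⟩ | ⟨c1, c2⟩
  · obtain ⟨Q, hQ⟩ := good hA hB hAB h hx hxA c1 c2
    exact ⟨0, Or.inl rfl, Q, by rw [add_zero, hQ]⟩
  · obtain ⟨y', h', e⟩ := add_T0 h hx
    have f1 : (A : ℚ) * B / x = A * B * x * (1 / x) ^ 2 := by field_simp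
    have f2 : (A : ℚ) * B / x + A = A * (x + A) * (y / (x * (x + A))) ^ 2 := by
      have : (A : ℚ) * B / x + A = A * (x + B) / x := by field_simp; ring
      rw [this, e1]; field_simp
    obtain ⟨Q, hQ⟩ := good hA hB hAB h' (div_ne_zero (mul_ne_zero hA' hB') hx)
      (by rw [f2]; exact mul_ne_zero (mul_ne_zero hA' hxA)
            (pow_ne_zero _ (div_ne_zero hy (mul_ne_zero hx hxA))))
      (isSquare_of_eq c1 f1) (isSquare_of_eq c2 f2)
    exact ⟨T0, Or.inr (Or.inl rfl), Q, by rw [e, hQ]⟩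
  · obtain ⟨y', h', e⟩ := add_TA h hxA
    have f1 : -(A : ℚ) * (x + B) / (x + A) = -A * x * (y / (x * (x + A))) ^ 2 := by
      rw [e1]; field_simp
    have f2 : -(A : ℚ) * (x + B) / (x + A) + A = A * (A - B) * (x + A) * (1 / (x + A)) ^ 2 := by
      field_simp; ring
    obtain ⟨Q, hQ⟩ := good hA hB hAB h'
      (div_ne_zero (mul_ne_zero (neg_ne_zero.mpr hA') hxB) hxA)
      (by rw [f2]; exact mul_ne_zero (mul_ne_zero (mul_ne_zero hA' hAB') hxA)
            (pow_ne_zero _ (div_ne_zero one_ne_zero hxA)))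
      (isSquare_of_eq c1 f1) (isSquare_of_eq c2 f2)
    exact ⟨TA, Or.inr (Or.inr (Or.inl rfl)), Q, by rw [e, hQ]⟩
  · obtain ⟨y', h', e⟩ := add_TB h hxB
    have f1 : -(B : ℚ) * (x + A) / (x + B) = -B * x * ((x + A) / y) ^ 2 := by
      rw [e1]; field_simp
    have f2 : -(B : ℚ) * (x + A) / (x + B) + A = (A - B) * (x + A) * (x / y) ^ 2 := by
      have : -(B : ℚ) * (x + A) / (x + B) + A = (A - B) * x / (x + B) := by field_simp; ring
      rw [this, e1]; field_simp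
    obtain ⟨Q, hQ⟩ := good hA hB hAB h'
      (div_ne_zero (mul_ne_zero (neg_ne_zero.mpr hB') hxA) hxB)
      (by rw [f2]; exact mul_ne_zero (mul_ne_zero hAB' hxA)
            (pow_ne_zero _ (div_ne_zero hx hy)))
      (isSquare_of_eq c1 f1) (isSquare_of_eq c2 f2)
    exact ⟨TB, Or.inr (Or.inr (Or.inr rfl)), Q, by rw [e, hQ]⟩

end

/-- The curve `y² = x (x - 1) (x - 81)` has finitely many rational points. -/
theorem finite_one [(CQ (-1) (-81)).IsElliptic] : Finite (CQ (-1) (-81)).toAffine.Point := by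
  refine finite_of_descent (by norm_num) (by norm_num) (by norm_num) fun P => ?_
  by_cases hP0 : P = 0
  · subst hP0
    exact ⟨0, Or.inl rfl, 0, by simp⟩
  obtain ⟨x, y, hxy, rfl⟩ := exists_pt P hP0
  by_cases hy : y = 0
  · subst hy
    have h0 : x * (x + (-1 : ℤ)) * (x + (-81 : ℤ)) = 0 := by rw [← hxy]; ring
    have hPP : (pt hxy : (CQ (-1) (-81)).toAffine.Point) + pt hxy = 0 := two_nsmul_of_y_zero _
    refine ⟨pt hxy, ?_, 0, by rw [hPP, add_zero]⟩
    rcases mul_eq_zero.mp h0 with h0 | h0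
    · rcases mul_eq_zero.mp h0 with h0 | h0
      · subst h0; exact Or.inr (Or.inl rfl)
      · have hxA : x = -((-1 : ℤ) : ℚ) := by linarith
        subst hxA; exact Or.inr (Or.inr (Or.inl rfl))
    · have hxA : x = -((-81 : ℤ) : ℚ) := by linarith
      subst hxA; exact Or.inr (Or.inr (Or.inr rfl))
  obtain ⟨m, e, n, hcop, he0, hn0, hx, heq⟩ := int_form (-1) (-81) hy hxy
  have hS : Sol1 m e n := ⟨hcop, he0, hn0, by rw [← heq]; ring⟩
  obtain ⟨r, rfl⟩ := step1A hS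
  obtain ⟨s, hs⟩ := step1B hS
  have heQ : (e : ℚ) ≠ 0 := by exact_mod_cast he0
  have hx' : x = ((r : ℚ) / e) ^ 2 := by rw [hx]; push_cast; rw [div_pow]
  have hxA : x + (-1 : ℤ) = ((r ^ 2 - e ^ 2 : ℤ) : ℚ) / e ^ 2 := by
    rw [hx]; push_cast; field_simp; ring
  refine crit (by norm_num) (by norm_num) (by norm_num) hxy hy ?_
  have sqx : IsSquare x := ⟨r / e, by rw [hx', sq]⟩
  rcases hs with h1 | h1 | h1 | h1
  · refine Or.inl ⟨sqx, ?_⟩
    rw [hxA, h1]
    exact ⟨s / e, by push_cast; field_simp⟩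
  · refine Or.inr (Or.inl ⟨?_, ?_⟩)
    · exact ⟨9 * (r / e), by rw [hx']; push_cast; ring⟩
    · rw [hxA, h1]
      exact ⟨s / e, by push_cast; field_simp⟩
  · refine Or.inr (Or.inr (Or.inr ⟨?_, ?_⟩))
    · exact ⟨9 * (r / e), by rw [hx']; push_cast; ring⟩
    · rw [hxA, h1]
      exact ⟨20 * s / e, by push_cast; field_simp; ring⟩
  · refine Or.inr (Or.inr (Or.inl ⟨?_, ?_⟩))
    · exact ⟨r / e, by rw [hx']; push_cast; ring⟩
    · rw [hxA, h1]
      exact ⟨20 * s / e, by push_cast; field_simp; ring⟩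

end Vale.Agent.P017.H390
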