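import Mathlib
import Vale.Agent.P017.H390.Desc

set_option autoImplicit false

namespace Vale.Agent.P017.H390

open WeierstrassCurve WeierstrassCurve.Affine

/-- The conditions on `d` which make the 2-Selmer group as small as possible. -/
structure Cond (d : ℤ) : Prop where
  pos : 0 < d
  sf : Squarefree d
  m3 : (d : ZMod 3) = 2
  m5 : (d : ZMod 5) = 2 ∨ (d : ZMod 5) = 3
  hA : ∀ b : ℤ, 0 < b → Squarefree b → (∀ q : ℤ, Prime q → q ∣ b → q ∣ 2 * d) →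
    (∀ p : ℕ, p.Prime → p ≠ 2 → p ≠ 5 → (p : ℤ) ∣ d → ¬ (p : ℤ) ∣ b →
        IsSquare ((b : ℤ) : ZMod p)) →
    (∀ p : ℕ, p.Prime → p ≠ 2 → p ≠ 5 → ∀ β d' : ℤ, b = p * β → d = p * d' →
        IsSquare ((β * d' : ℤ) : ZMod p)) → b = 1 ∨ b = d
  hB : ∀ b : ℤ, Squarefree b → (∀ q : ℤ, Prime q → q ∣ b → q ∣ d) →
    (∀ p : ℕ, p.Prime → p ≠ 2 → (p : ℤ) ∣ d → ¬ (p : ℤ) ∣ b →
        IsSquare ((b : ℤ) : ZMod p)) →
    (∀ p : ℕ, p.Prime → p ≠ 2 → ∀ β d' : ℤ, b = p * β → d = p * d' →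
        IsSquare ((-(β * d') : ℤ) : ZMod p)) → b = 1 ∨ b = -d

lemma sol_of_int {d m e n : ℤ} (hcop : IsCoprime m e) (he0 : e ≠ 0) (hn0 : n ≠ 0)
    (heq : m * (m + (-16 * d : ℤ) * e ^ 2) * (m + (-25 * d : ℤ) * e ^ 2) = n ^ 2) :
    Sol d m e n := ⟨hcop, he0, hn0, by rw [← heq]; ring⟩

/-- points whose first coordinate is a square -/
lemma caseSq {d : ℤ} (hd : Cond d) [(CQ (-16 * d) (-25 * d)).IsElliptic] {x y : ℚ}
    (hxy : y ^ 2 = x * (x + (-16 * d : ℤ)) * (x + (-25 * d : ℤ))) (hy : y ≠ 0)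
    (hx : IsSquare x) :
    (IsSquare x ∧ IsSquare (x + (-16 * d : ℤ))) ∨
      (IsSquare (((-16 * d : ℤ) : ℚ) * ((-25 * d : ℤ) : ℚ) * x) ∧
        IsSquare (((-16 * d : ℤ) : ℚ) * (x + (-16 * d : ℤ)))) := by
  obtain ⟨m, e, n, hcop, he0, hn0, hxm, heq⟩ := int_form (-16 * d) (-25 * d) hy hxy
  have heQ : (e : ℚ) ≠ 0 := by exact_mod_cast he0
  have hdQ : (d : ℚ) ≠ 0 := by exact_mod_cast hd.pos.ne'
  -- `m` is a square
  have hm : IsSquare m := by
    rw [← Rat.isSquare_intCast_iff]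
    have : (m : ℚ) = x * e ^ 2 := by rw [hxm]; field_simp
    exact isSquare_of_eq hx this
  obtain ⟨r, hr⟩ := hm
  rw [← sq] at hr
  subst hr
  have hS := sol_of_int hcop he0 hn0 heq
  obtain ⟨b, s, hbs, hbsf, h1, h2, h3⟩ := stepB hS hd.pos hd.sf hd.m3
  have hxA : x + (-16 * d : ℤ) = ((r ^ 2 - 16 * d * e ^ 2 : ℤ) : ℚ) / e ^ 2 := by
    rw [hxm]; push_cast; field_simp; ring
  rcases hd.hB b hbsf h1 h2 h3 with h | h
  · refine Or.inl ⟨hx, ?_⟩
    rw [hxA, hbs, h]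
    exact ⟨s / e, by push_cast; field_simp⟩
  · refine Or.inr ⟨?_, ?_⟩
    · refine isSquare_of_eq (w := 20 * d) hx ?_
      push_cast; ring
    · rw [hxA, hbs, h]
      exact ⟨4 * d * s / e, by push_cast; field_simp; ring⟩

theorem finite_d {d : ℤ} (hd : Cond d) [(CQ (-16 * d) (-25 * d)).IsElliptic] :
    Finite (CQ (-16 * d) (-25 * d)).toAffine.Point := by
  have hd0 := hd.pos
  have hA : (-16 * d : ℤ) ≠ 0 := by omega
  have hB : (-25 * d : ℤ) ≠ 0 := by omega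
  have hAB : (-16 * d : ℤ) - (-25 * d) ≠ 0 := by omega
  have hdQ : (d : ℚ) ≠ 0 := by exact_mod_cast hd.pos.ne'
  refine finite_of_descent hA hB hAB fun P => ?_
  by_cases hP0 : P = 0
  · subst hP0
    exact ⟨0, Or.inl rfl, 0, by simp⟩
  obtain ⟨x, y, hxy, rfl⟩ := exists_pt P hP0
  by_cases hy : y = 0
  · subst hy
    have h0 : x * (x + (-16 * d : ℤ)) * (x + (-25 * d : ℤ)) = 0 := by rw [← hxy]; ring
    have hPP : (pt hxy : (CQ (-16 * d) (-25 * d)).toAffine.Point) + pt hxy = 0 :=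
      two_nsmul_of_y_zero _
    refine ⟨pt hxy, ?_, 0, by rw [hPP, add_zero]⟩
    rcases mul_eq_zero.mp h0 with h0 | h0
    · rcases mul_eq_zero.mp h0 with h0 | h0
      · subst h0; exact Or.inr (Or.inl rfl)
      · have hxA : x = -((-16 * d : ℤ) : ℚ) := by linarith
        subst hxA; exact Or.inr (Or.inr (Or.inl rfl))
    · have hxA : x = -((-25 * d : ℤ) : ℚ) := by linarith
      subst hxA; exact Or.inr (Or.inr (Or.inr rfl))
  have hf0 : x * (x + (-16 * d : ℤ)) * (x + (-25 * d : ℤ)) ≠ 0 := by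
    rw [← hxy]; exact pow_ne_zero _ hy
  have hx0 := left_ne_zero_of_mul (left_ne_zero_of_mul hf0)
  have hxA0 := right_ne_zero_of_mul (left_ne_zero_of_mul hf0)
  have hxB0 := right_ne_zero_of_mul hf0
  obtain ⟨m, e, n, hcop, he0, hn0, hxm, heq⟩ := int_form (-16 * d) (-25 * d) hy hxy
  have heQ : (e : ℚ) ≠ 0 := by exact_mod_cast he0
  have hS := sol_of_int hcop he0 hn0 heq
  obtain ⟨b, r, hbr, hb0, hbsf, h1, h2, h3⟩ := stepA hS hd.pos hd.sf hd.m5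
  rcases hd.hA b hb0 hbsf h1 h2 h3 with h | h
  · have hsq : IsSquare x := by
      rw [hxm, hbr, h]
      exact ⟨r / e, by push_cast; field_simp⟩
    refine crit hA hB hAB hxy hy ?_
    rcases caseSq hd hxy hy hsq with h4 | h4
    · exact Or.inl h4
    · exact Or.inr (Or.inl h4)
  · -- translate by `TA`
    obtain ⟨y', h', e'⟩ := add_TA hxy hxA0
    obtain ⟨x', hx'⟩ : ∃ x' : ℚ, x' = -((-16 * d : ℤ) : ℚ) * (x + (-25 * d : ℤ)) /
      (x + (-16 * d : ℤ)) := ⟨_, rfl⟩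
    have hxB1 : x + (-25 * d : ℤ) = y ^ 2 / (x * (x + (-16 * d : ℤ))) := by
      rw [hxy]; field_simp
    have hsqx : x = d * (r / e) ^ 2 := by
      rw [hxm, hbr, h]; push_cast; field_simp
    have hsq' : IsSquare x' := by
      have hre : (r : ℚ) / e ≠ 0 := by
        intro h0
        rw [h0] at hsqx
        exact hx0 (by rw [hsqx]; ring)
      refine ⟨4 * y / ((r / e) * (x + (-16 * d : ℤ))), ?_⟩
      rw [hx', hxB1]
      nth_rewrite 1 [hsqx]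
      push_cast
      push_cast at hxA0
      field_simp
      ring
    have hx'0 : x' ≠ 0 := by
      rw [hx']
      refine div_ne_zero (mul_ne_zero ?_ hxB0) hxA0
      rw [neg_ne_zero]; exact_mod_cast hA
    have hx'A : x' + (-16 * d : ℤ) = ((-16 * d : ℤ) : ℚ) * (((-16 * d : ℤ) : ℚ) - (-25 * d : ℤ)) /
        (x + (-16 * d : ℤ)) := by
      rw [hx', eq_div_iff hxA0, add_mul, div_mul_cancel₀ _ hxA0]
      ring
    have hx'B : x' + (-25 * d : ℤ) = (((-25 * d : ℤ) : ℚ) - (-16 * d : ℤ)) * x /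
        (x + (-16 * d : ℤ)) := by
      rw [hx', eq_div_iff hxA0, add_mul, div_mul_cancel₀ _ hxA0]
      ring
    have hAQ : ((-16 * d : ℤ) : ℚ) ≠ 0 := by exact_mod_cast hA
    have hABQ : ((-16 * d : ℤ) : ℚ) - (-25 * d : ℤ) ≠ 0 := by exact_mod_cast hAB
    have hx'A0 : x' + (-16 * d : ℤ) ≠ 0 := by
      rw [hx'A]; exact div_ne_zero (mul_ne_zero hAQ hABQ) hxA0
    have hx'B0 : x' + (-25 * d : ℤ) ≠ 0 := by
      rw [hx'B]
      refine div_ne_zero (mul_ne_zero ?_ hx0) hxA0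
      intro h0; apply hABQ; linarith
    rw [← hx'] at h'
    have hy' : y' ≠ 0 := by
      rintro rfl
      have : x' * (x' + (-16 * d : ℤ)) * (x' + (-25 * d : ℤ)) = 0 := by rw [← h']; ring
      exact (mul_ne_zero (mul_ne_zero hx'0 hx'A0) hx'B0) this
    have e2 : (pt hxy : (CQ (-16 * d) (-25 * d)).toAffine.Point) + TA = pt h' := by
      rw [e']
      unfold pt
      rw [Point.some.injEq]
      exact ⟨hx'.symm, rfl⟩
    rcases caseSq hd h' hy' hsq' with h4 | h4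
    · obtain ⟨Q, hQ⟩ := good hA hB hAB h' hx'0 hx'A0 h4.1 h4.2
      exact ⟨TA, Or.inr (Or.inr (Or.inl rfl)), Q, by rw [e2, hQ]⟩
    · obtain ⟨y'', h'', e''⟩ := add_T0 h' hx'0
      have f1 : ((-16 * d : ℤ) : ℚ) * ((-25 * d : ℤ) : ℚ) / x' =
          ((-16 * d : ℤ) : ℚ) * ((-25 * d : ℤ) : ℚ) * x' * (1 / x') ^ 2 := by field_simp
      have hx'B1 : x' + (-25 * d : ℤ) = y' ^ 2 / (x' * (x' + (-16 * d : ℤ))) := by
        rw [h']; field_simp
      have f2 : ((-16 * d : ℤ) : ℚ) * ((-25 * d : ℤ) : ℚ) / x' + (-16 * d : ℤ) =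
          ((-16 * d : ℤ) : ℚ) * (x' + (-16 * d : ℤ)) * (y' / (x' * (x' + (-16 * d : ℤ)))) ^ 2 := by
        have : ((-16 * d : ℤ) : ℚ) * ((-25 * d : ℤ) : ℚ) / x' + (-16 * d : ℤ) =
          ((-16 * d : ℤ) : ℚ) * (x' + (-25 * d : ℤ)) / x' := by field_simp; ring
        rw [this, hx'B1]; field_simp
      obtain ⟨Q, hQ⟩ := good hA hB hAB h''
        (div_ne_zero (mul_ne_zero hAQ (by exact_mod_cast hB)) hx'0)
        (by rw [f2]; exact mul_ne_zero (mul_ne_zero hAQ hx'A0)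
              (pow_ne_zero _ (div_ne_zero hy' (mul_ne_zero hx'0 hx'A0))))
        (isSquare_of_eq h4.1 f1) (isSquare_of_eq h4.2 f2)
      refine ⟨TB, Or.inr (Or.inr (Or.inr rfl)), Q, ?_⟩
      rw [← T0_add_TA hA, ← add_assoc, e2, e'', hQ]

end Vale.Agent.P017.H390
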