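import Mathlib
import Vale.Agent.P017.H390.NTC

set_option autoImplicit false

namespace Vale.Agent.P017.H390

/-- Step A, without a condition modulo `5`: the squarefree part of `m`. -/
theorem stepA0 {d m e n : ℤ} (h : Sol d m e n) (hd : 0 < d) (hsf : Squarefree d) :
    ∃ b r n1 : ℤ, m = b * r ^ 2 ∧ r ≠ 0 ∧
      b * (m - 16 * d * e ^ 2) * (m - 25 * d * e ^ 2) = n1 ^ 2 ∧ 0 < b ∧ Squarefree b ∧
      (∀ q : ℤ, Prime q → q ∣ b → q ∣ 2 * 5 * d) ∧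
      (∀ p : ℕ, p.Prime → p ≠ 2 → p ≠ 5 → (p : ℤ) ∣ d → ¬ (p : ℤ) ∣ b →
        IsSquare ((b : ℤ) : ZMod p)) ∧
      (∀ p : ℕ, p.Prime → p ≠ 2 → p ≠ 5 → ∀ β d' : ℤ, b = p * β → d = p * d' →
        IsSquare ((β * d' : ℤ) : ZMod p)) := by
  have hm := h.pos hd
  obtain ⟨b, r, hbr, hr0, hbsf, hb⟩ := exists_sf m hm.ne'
  have hb := hb hm
  -- `(*)`
  obtain ⟨n1, hn1, hstar⟩ : ∃ n1, n = r * n1 ∧
      b * (m - 16 * d * e ^ 2) * (m - 25 * d * e ^ 2) = n1 ^ 2 := by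
    have h1 : r ^ 2 ∣ n ^ 2 := ⟨b * (m - 16 * d * e ^ 2) * (m - 25 * d * e ^ 2), by
      rw [← h.eq]
      nth_rewrite 1 [hbr]
      ring⟩
    obtain ⟨n1, rfl⟩ := dvd_of_sq_dvd h1
    refine ⟨n1, rfl, ?_⟩
    have h2 : r ^ 2 * (b * (m - 16 * d * e ^ 2) * (m - 25 * d * e ^ 2)) = r ^ 2 * n1 ^ 2 := by
      rw [← mul_pow, ← h.eq]
      nth_rewrite 3 [hbr]
      ring
    exact mul_left_cancel₀ (pow_ne_zero 2 hr0) h2
  refine ⟨b, r, n1, hbr, hr0, hstar, hb, hbsf, ?_, ?_, ?_⟩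
  · intro q hq hqb
    by_contra hq2d
    obtain ⟨β, hβ⟩ := hqb
    have hqβ := not_dvd_of_sqf hbsf hq hβ
    have hqm : q ∣ m := ⟨β * r ^ 2, by rw [hbr, hβ]; ring⟩
    have hqe := cop_prime h.cop hq hqm
    have hq2 : ¬ q ∣ 2 := fun h0 => hq2d (Dvd.dvd.mul_right (Dvd.dvd.mul_right h0 _) _)
    have hq5 : ¬ q ∣ 5 := fun h0 => hq2d (Dvd.dvd.mul_right (Dvd.dvd.mul_left h0 _) _)
    have hqd : ¬ q ∣ d := fun h0 => hq2d (Dvd.dvd.mul_left h0 _)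
    have hqU : ¬ q ∣ m - 16 * d * e ^ 2 := by
      intro h0
      have h1 : q ∣ 2 ^ 4 * d * e ^ 2 := by
        have := dvd_sub hqm h0
        have e1 : m - (m - 16 * d * e ^ 2) = 2 ^ 4 * d * e ^ 2 := by ring
        rwa [e1] at this
      rcases hq.dvd_or_dvd h1 with h1 | h1
      · rcases hq.dvd_or_dvd h1 with h1 | h1
        · exact hq2 (hq.dvd_of_dvd_pow h1)
        · exact hqd h1
      · exact hqe (hq.dvd_of_dvd_pow h1)
    have hqV : q ∣ m - 25 * d * e ^ 2 := by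
      have h1 : q * (β * (m - 16 * d * e ^ 2) * (m - 25 * d * e ^ 2)) = n1 ^ 2 := by
        rw [← hstar, hβ]; ring
      rcases hq.dvd_or_dvd (dvd_of_mul_eq_sq hq h1).1 with h2 | h2
      · rcases hq.dvd_or_dvd h2 with h2 | h2
        · exact absurd h2 hqβ
        · exact absurd h2 hqU
      · exact h2
    have h1 : q ∣ 5 ^ 2 * d * e ^ 2 := by
      have := dvd_sub hqm hqV
      have e1 : m - (m - 25 * d * e ^ 2) = 5 ^ 2 * d * e ^ 2 := by ring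
      rwa [e1] at this
    rcases hq.dvd_or_dvd h1 with h1 | h1
    · rcases hq.dvd_or_dvd h1 with h1 | h1
      · exact hq5 (hq.dvd_of_dvd_pow h1)
      · exact absurd h1 hqd
    · exact absurd (hq.dvd_of_dvd_pow h1) hqe
  · intro p hp hp2 hp5 hpd hpb
    have hpp : Prime (p : ℤ) := Nat.prime_iff_prime_int.mp hp
    have := Fact.mk hp
    obtain ⟨d', rfl⟩ := hpd
    by_cases hpr : (p : ℤ) ∣ r
    · obtain ⟨r1, rfl⟩ := hpr
      have hpm : (p : ℤ) ∣ m := ⟨b * p * r1 ^ 2, by rw [hbr]; ring⟩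
      have hpe := cop_prime h.cop hpp hpm
      have hpd' : ¬ (p : ℤ) ∣ d' := not_dvd_of_sqf hsf hpp rfl
      have h1 : (p : ℤ) ^ 2 * (b * (p * b * r1 ^ 2 - 16 * d' * e ^ 2) *
          (p * b * r1 ^ 2 - 25 * d' * e ^ 2)) = n1 ^ 2 := by
        rw [← hstar, hbr]; ring
      obtain ⟨n2, rfl⟩ : (p : ℤ) ∣ n1 := hpp.dvd_of_dvd_pow
        ⟨p * (b * (p * b * r1 ^ 2 - 16 * d' * e ^ 2) *
          (p * b * r1 ^ 2 - 25 * d' * e ^ 2)), by rw [← h1]; ring⟩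
      have h2 : b * (p * b * r1 ^ 2 - 16 * d' * e ^ 2) *
          (p * b * r1 ^ 2 - 25 * d' * e ^ 2) = n2 ^ 2 := by
        have : (p : ℤ) ^ 2 * (b * (p * b * r1 ^ 2 - 16 * d' * e ^ 2) *
          (p * b * r1 ^ 2 - 25 * d' * e ^ 2)) = p ^ 2 * n2 ^ 2 := by rw [h1]; ring
        exact mul_left_cancel₀ (pow_ne_zero 2 hpp.ne_zero) this
      refine zsq (s := ((20 * d' * e ^ 2 : ℤ) : ZMod p)) (w := ((n2 : ℤ) : ZMod p)) ?_ ?_
      · apply cast_ne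
        intro h0
        rcases hpp.dvd_or_dvd h0 with h3 | h3
        · rcases hpp.dvd_or_dvd h3 with h3 | h3
          · have h4 : p ∣ 20 := by exact_mod_cast h3
            have h5 : p ∣ 2 ^ 2 * 5 := by norm_num; exact h4
            rcases (Nat.Prime.dvd_mul hp).mp h5 with h6 | h6
            · exact hp2 ((Nat.prime_dvd_prime_iff_eq hp Nat.prime_two).mp (hp.dvd_of_dvd_pow h6))
            · exact hp5 ((Nat.prime_dvd_prime_iff_eq hp Nat.prime_five).mp h6)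
          · exact hpd' h3
        · exact hpe (hpp.dvd_of_dvd_pow h3)
      · have h3 : (p : ℤ) ∣ b * (20 * d' * e ^ 2) ^ 2 - n2 ^ 2 := by
          rw [← h2]
          exact ⟨-(b * (p * b ^ 2 * r1 ^ 4 - 41 * b * r1 ^ 2 * d' * e ^ 2)), by ring⟩
        have h4 := cast_eq h3
        push_cast at h4 ⊢
        exact h4
    · refine zsq (s := ((b * r ^ 2 : ℤ) : ZMod p)) (w := ((n1 : ℤ) : ZMod p)) ?_ ?_
      · apply cast_ne
        intro h0
        rcases hpp.dvd_or_dvd h0 with h3 | h3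
        · exact hpb h3
        · exact hpr (hpp.dvd_of_dvd_pow h3)
      · have h3 : (p : ℤ) ∣ b * (b * r ^ 2) ^ 2 - n1 ^ 2 := by
          rw [← hstar, hbr]
          exact ⟨b * (41 * (b * r ^ 2) * d' * e ^ 2 - 400 * p * d' ^ 2 * e ^ 4), by ring⟩
        have h4 := cast_eq h3
        push_cast at h4 ⊢
        exact h4
  · intro p hp hp2 hp5 β d' hβ hdd
    have hpp : Prime (p : ℤ) := Nat.prime_iff_prime_int.mp hp
    have := Fact.mk hp
    have hpβ := not_dvd_of_sqf hbsf hpp hβ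
    have hpd' : ¬ (p : ℤ) ∣ d' := not_dvd_of_sqf hsf hpp hdd
    have hpm : (p : ℤ) ∣ m := ⟨β * r ^ 2, by rw [hbr, hβ]; ring⟩
    have hpe := cop_prime h.cop hpp hpm
    have h1 : (p : ℤ) * (p ^ 2 * (β * (β * r ^ 2 - 16 * d' * e ^ 2) *
        (β * r ^ 2 - 25 * d' * e ^ 2))) = n1 ^ 2 := by
      rw [← hstar, hbr, hβ, hdd]; ring
    obtain ⟨_, n2, hn2, h2⟩ := dvd_of_mul_eq_sq hpp h1
    have h3 : (p : ℤ) * (β * (β * r ^ 2 - 16 * d' * e ^ 2) *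
        (β * r ^ 2 - 25 * d' * e ^ 2)) = n2 ^ 2 := by
      have : (p : ℤ) * ((p : ℤ) * (β * (β * r ^ 2 - 16 * d' * e ^ 2) *
        (β * r ^ 2 - 25 * d' * e ^ 2))) = p * n2 ^ 2 := by rw [← h2]; ring
      exact mul_left_cancel₀ hpp.ne_zero this
    have hkey : ∀ c : ℤ, ¬ (p : ℤ) ∣ c → (p : ℤ) ∣ β * r ^ 2 - c ^ 2 * d' * e ^ 2 →
        IsSquare ((β * d' : ℤ) : ZMod p) := by
      intro c hc hdv
      have hr : ¬ (p : ℤ) ∣ r := by
        intro h0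
        have h4 : (p : ℤ) ∣ c ^ 2 * d' * e ^ 2 := by
          have h5 : (p : ℤ) ∣ β * r ^ 2 := Dvd.dvd.mul_left (dvd_pow h0 two_ne_zero) _
          have := dvd_sub h5 hdv
          have e1 : β * r ^ 2 - (β * r ^ 2 - c ^ 2 * d' * e ^ 2) = c ^ 2 * d' * e ^ 2 := by ring
          rwa [e1] at this
        rcases hpp.dvd_or_dvd h4 with h4 | h4
        · rcases hpp.dvd_or_dvd h4 with h4 | h4
          · exact hc (hpp.dvd_of_dvd_pow h4)
          · exact hpd' h4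
        · exact hpe (hpp.dvd_of_dvd_pow h4)
      refine zsq (s := ((r : ℤ) : ZMod p)) (w := ((c * d' * e : ℤ) : ZMod p)) (cast_ne hr) ?_
      have h3 : (p : ℤ) ∣ (β * d') * r ^ 2 - (c * d' * e) ^ 2 := by
        have := Dvd.dvd.mul_left hdv d'
        have e1 : d' * (β * r ^ 2 - c ^ 2 * d' * e ^ 2) =
          (β * d') * r ^ 2 - (c * d' * e) ^ 2 := by ring
        rwa [e1] at this
      have h4 := cast_eq h3
      push_cast at h4 ⊢
      exact h4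
    have hp2' : ¬ (p : ℤ) ∣ 4 := by
      intro h0
      have h4 : p ∣ 2 ^ 2 := by exact_mod_cast h0
      exact hp2 ((Nat.prime_dvd_prime_iff_eq hp Nat.prime_two).mp (hp.dvd_of_dvd_pow h4))
    have hp5' : ¬ (p : ℤ) ∣ 5 := by
      intro h0
      have h4 : p ∣ 5 := by exact_mod_cast h0
      exact hp5 ((Nat.prime_dvd_prime_iff_eq hp Nat.prime_five).mp h4)
    rcases hpp.dvd_or_dvd (dvd_of_mul_eq_sq hpp h3).1 with h4 | h4
    · rcases hpp.dvd_or_dvd h4 with h4 | h4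
      · exact absurd h4 hpβ
      · exact hkey 4 hp2' (by norm_num; exact h4)
    · exact hkey 5 hp5' (by norm_num; exact h4)


/-- if `d ≡ 2, 3 (mod 5)`, then `5` does not divide `b` -/
lemma five_kill {d m e b r n1 : ℤ} (hcop : IsCoprime m e) (hbr : m = b * r ^ 2)
    (hstar : b * (m - 16 * d * e ^ 2) * (m - 25 * d * e ^ 2) = n1 ^ 2) (hbsf : Squarefree b)
    (hd5 : (d : ZMod 5) = 2 ∨ (d : ZMod 5) = 3) : ¬ (5 : ℤ) ∣ b := by
  intro h5b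
  have h5d : ¬ (5 : ℤ) ∣ d := by
    intro h0
    have := (ZMod.intCast_zmod_eq_zero_iff_dvd d 5).mpr h0
    rcases hd5 with h5 | h5 <;> rw [this] at h5 <;> exact absurd h5 (by decide)
  have h5m : (5 : ℤ) ∣ m := by rw [hbr]; exact Dvd.dvd.mul_right h5b _
  have h5e : ¬ (5 : ℤ) ∣ e := cop_prime hcop p5 h5m
  have h5U : ¬ (5 : ℤ) ∣ m - 16 * d * e ^ 2 := by
    intro h0
    have h1 : (5 : ℤ) ∣ 16 * d * e ^ 2 := by
      have := dvd_sub h5m h0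
      have e1 : m - (m - 16 * d * e ^ 2) = 16 * d * e ^ 2 := by ring
      rwa [e1] at this
    rcases p5.dvd_or_dvd h1 with h1 | h1
    · rcases p5.dvd_or_dvd h1 with h1 | h1
      · omega
      · exact h5d h1
    · exact h5e (p5.dvd_of_dvd_pow h1)
  obtain ⟨β, hβ⟩ := h5b
  have h5β := not_dvd_of_sqf hbsf p5 hβ
  have h25 : 25 * (β * (m - 16 * d * e ^ 2) * (β * r ^ 2 - 5 * d * e ^ 2)) = n1 ^ 2 := by
    rw [← hstar, hbr, hβ]; ring
  obtain ⟨n2, rfl⟩ : (5 : ℤ) ∣ n1 := p5.dvd_of_dvd_pow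
    ⟨5 * (β * (m - 16 * d * e ^ 2) * (β * r ^ 2 - 5 * d * e ^ 2)), by rw [← h25]; ring⟩
  have hE : β * (m - 16 * d * e ^ 2) * (β * r ^ 2 - 5 * d * e ^ 2) = n2 ^ 2 := by
    have : (25 : ℤ) * (β * (m - 16 * d * e ^ 2) * (β * r ^ 2 - 5 * d * e ^ 2)) =
      25 * n2 ^ 2 := by rw [h25]; ring
    exact mul_left_cancel₀ (by norm_num) this
  by_cases h5r : (5 : ℤ) ∣ r
  · obtain ⟨r1, rfl⟩ := h5r
    have h1 : 5 * (β * (m - 16 * d * e ^ 2) * (5 * β * r1 ^ 2 - d * e ^ 2)) = n2 ^ 2 := by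
      rw [← hE]; ring
    rcases p5.dvd_or_dvd (dvd_of_mul_eq_sq p5 h1).1 with h2 | h2
    · rcases p5.dvd_or_dvd h2 with h2 | h2
      · exact h5β h2
      · exact h5U h2
    · have : (5 : ℤ) ∣ d * e ^ 2 := by
        have h3 : (5 : ℤ) ∣ 5 * β * r1 ^ 2 := ⟨β * r1 ^ 2, by ring⟩
        have := dvd_sub h3 h2
        have e1 : 5 * β * r1 ^ 2 - (5 * β * r1 ^ 2 - d * e ^ 2) = d * e ^ 2 := by ring
        rwa [e1] at this
      rcases p5.dvd_or_dvd this with h3 | h3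
      · exact h5d h3
      · exact h5e (p5.dvd_of_dvd_pow h3)
  · have hz : ((n2 : ℤ) : ZMod 5) ^ 2 = -(d : ZMod 5) * ((4 * e * β * r : ℤ) : ZMod 5) ^ 2 := by
      have h1 : (5 : ℤ) ∣ n2 ^ 2 - (-d * (4 * e * β * r) ^ 2) := by
        rw [← hE, hbr, hβ]
        refine ⟨β * (β * r ^ 2 * (β * r ^ 2 - 5 * d * e ^ 2)) + 16 * d ^ 2 * e ^ 4 * β, ?_⟩
        ring
      have h2 := cast_eq (p := 5) h1
      push_cast at h2 ⊢
      exact h2
    refine mod5 _ _ _ hd5 ?_ hz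
    apply cast_ne
    intro h0
    have h0' : (5 : ℤ) ∣ 4 * e * β * r := by exact_mod_cast h0
    rcases p5.dvd_or_dvd h0' with h1 | h1
    · rcases p5.dvd_or_dvd h1 with h1 | h1
      · rcases p5.dvd_or_dvd h1 with h1 | h1
        · omega
        · exact h5e h1
      · exact h5β h1
    · exact h5r h1

/-- Step B without a condition modulo `3`: if `m` is a square, the squarefree part of
`m - 16 d e²`. -/
theorem stepB0 {d r e n : ℤ} (h : Sol d (r ^ 2) e n) (hsf : Squarefree d) :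
    ∃ b s n2 : ℤ, r ^ 2 - 16 * d * e ^ 2 = b * s ^ 2 ∧ s ≠ 0 ∧
      b * (r ^ 2 - 25 * d * e ^ 2) = n2 ^ 2 ∧ Squarefree b ∧
      (∀ q : ℤ, Prime q → q ∣ b → q ∣ 3 * d) ∧
      (∀ p : ℕ, p.Prime → p ≠ 2 → (p : ℤ) ∣ d → ¬ (p : ℤ) ∣ b →
        IsSquare ((b : ℤ) : ZMod p)) ∧
      (∀ p : ℕ, p.Prime → p ≠ 2 → ∀ β d' : ℤ, b = p * β → d = p * d' →
        IsSquare ((-(β * d') : ℤ) : ZMod p)) := by
  have hn := h.eq
  have hU0 : r ^ 2 - 16 * d * e ^ 2 ≠ 0 := by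
    intro h0
    rw [h0, mul_zero, zero_mul] at hn
    exact h.n0 (pow_eq_zero_iff two_ne_zero |>.mp hn.symm)
  have hr0 : r ≠ 0 := by
    rintro rfl
    have : (0 : ℤ) = n ^ 2 := by rw [← hn]; ring
    exact h.n0 (pow_eq_zero_iff two_ne_zero |>.mp this.symm)
  obtain ⟨b, s, hbs, hs0, hbsf, -⟩ := exists_sf _ hU0
  have h3e : ∀ q : ℤ, Prime q → q ∣ r ^ 2 - 16 * d * e ^ 2 → q ∣ e → False := by
    intro q hq h1 h2
    have h3 : q ∣ r ^ 2 := by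
      have h4 : q ∣ 16 * d * e ^ 2 := Dvd.dvd.mul_left (dvd_pow h2 two_ne_zero) _
      have := dvd_add h1 h4
      have e1 : r ^ 2 - 16 * d * e ^ 2 + 16 * d * e ^ 2 = r ^ 2 := by ring
      rwa [e1] at this
    exact cop_prime h.cop hq h3 h2
  -- the third factor
  obtain ⟨n1, hn1⟩ : ∃ n1, (r ^ 2 - 16 * d * e ^ 2) * (r ^ 2 - 25 * d * e ^ 2) = n1 ^ 2 := by
    have h1 : r ^ 2 ∣ n ^ 2 := ⟨_, by rw [← hn, mul_assoc]⟩
    obtain ⟨n1, rfl⟩ := dvd_of_sq_dvd h1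
    refine ⟨n1, ?_⟩
    have h2 : r ^ 2 * ((r ^ 2 - 16 * d * e ^ 2) * (r ^ 2 - 25 * d * e ^ 2)) = r ^ 2 * n1 ^ 2 := by
      rw [← mul_pow, ← hn]; ring
    exact mul_left_cancel₀ (pow_ne_zero 2 hr0) h2
  obtain ⟨n2, hn2⟩ : ∃ n2, b * (r ^ 2 - 25 * d * e ^ 2) = n2 ^ 2 := by
    have h1 : s ^ 2 ∣ n1 ^ 2 := ⟨b * (r ^ 2 - 25 * d * e ^ 2), by rw [← hn1, hbs]; ring⟩
    obtain ⟨n2, rfl⟩ := dvd_of_sq_dvd h1
    refine ⟨n2, ?_⟩
    have h2 : s ^ 2 * (b * (r ^ 2 - 25 * d * e ^ 2)) = s ^ 2 * n2 ^ 2 := by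
      rw [← mul_pow, ← hn1, hbs]; ring
    exact mul_left_cancel₀ (pow_ne_zero 2 hs0) h2
  refine ⟨b, s, n2, hbs, hs0, hn2, hbsf, ?_, ?_, ?_⟩
  · intro q hq hqb
    obtain ⟨β, hβ⟩ := hqb
    have hqβ := not_dvd_of_sqf hbsf hq hβ
    have hqU : q ∣ r ^ 2 - 16 * d * e ^ 2 := ⟨β * s ^ 2, by rw [hbs, hβ]; ring⟩
    have hqV : q ∣ r ^ 2 - 25 * d * e ^ 2 := by
      have h1 : q * (β * (r ^ 2 - 25 * d * e ^ 2)) = n2 ^ 2 := by rw [← hn2, hβ]; ring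
      rcases hq.dvd_or_dvd (dvd_of_mul_eq_sq hq h1).1 with h2 | h2
      · exact absurd h2 hqβ
      · exact h2
    have h1 : q ∣ 3 ^ 2 * d * e ^ 2 := by
      have := dvd_sub hqU hqV
      have e1 : r ^ 2 - 16 * d * e ^ 2 - (r ^ 2 - 25 * d * e ^ 2) = 3 ^ 2 * d * e ^ 2 := by ring
      rwa [e1] at this
    rcases hq.dvd_or_dvd h1 with h1 | h1
    · rcases hq.dvd_or_dvd h1 with h1 | h1
      · exact Dvd.dvd.mul_right (hq.dvd_of_dvd_pow h1) _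
      · exact Dvd.dvd.mul_left h1 _
    · exact (h3e q hq hqU (hq.dvd_of_dvd_pow h1)).elim
  · intro p hp hp2 hpd hpb
    have hpp : Prime (p : ℤ) := Nat.prime_iff_prime_int.mp hp
    have := Fact.mk hp
    have hp16 : ¬ (p : ℤ) ∣ 16 := by
      intro h0
      have h4 : p ∣ 2 ^ 4 := by exact_mod_cast h0
      exact hp2 ((Nat.prime_dvd_prime_iff_eq hp Nat.prime_two).mp (hp.dvd_of_dvd_pow h4))
    obtain ⟨d', rfl⟩ := hpd
    have hpd' : ¬ (p : ℤ) ∣ d' := not_dvd_of_sqf hsf hpp rfl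
    have hpr : ¬ (p : ℤ) ∣ r := by
      intro h0
      have hpe := cop_prime h.cop hpp (dvd_pow h0 two_ne_zero)
      obtain ⟨r1, rfl⟩ := h0
      have h1 : (p : ℤ) * (p * r1 ^ 2 - 16 * d' * e ^ 2) = b * s ^ 2 := by
        rw [← hbs]; ring
      have h2 : (p : ℤ) ∣ b * s ^ 2 := ⟨_, h1.symm⟩
      rcases hpp.dvd_or_dvd h2 with h2 | h2
      · exact hpb h2
      · obtain ⟨s1, rfl⟩ := hpp.dvd_of_dvd_pow h2
        have h3 : (p : ℤ) * (p * r1 ^ 2 - 16 * d' * e ^ 2) = p * (p * (b * s1 ^ 2)) := by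
          rw [h1]; ring
        have h4 := mul_left_cancel₀ hpp.ne_zero h3
        have h5 : (p : ℤ) ∣ 16 * d' * e ^ 2 := ⟨r1 ^ 2 - b * s1 ^ 2, by linarith⟩
        rcases hpp.dvd_or_dvd h5 with h5 | h5
        · rcases hpp.dvd_or_dvd h5 with h5 | h5
          · exact hp16 h5
          · exact hpd' h5
        · exact hpe (hpp.dvd_of_dvd_pow h5)
    have hps : ¬ (p : ℤ) ∣ s := by
      intro h0
      have h1 : (p : ℤ) ∣ r ^ 2 := by
        have h2 : (p : ℤ) ∣ b * s ^ 2 := Dvd.dvd.mul_left (dvd_pow h0 two_ne_zero) _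
        rw [← hbs] at h2
        have h3 : (p : ℤ) ∣ 16 * (p * d') * e ^ 2 := ⟨16 * d' * e ^ 2, by ring⟩
        have := dvd_add h2 h3
        have e1 : r ^ 2 - 16 * (p * d') * e ^ 2 + 16 * (p * d') * e ^ 2 = r ^ 2 := by ring
        rwa [e1] at this
      exact hpr (hpp.dvd_of_dvd_pow h1)
    refine zsq (s := ((s : ℤ) : ZMod p)) (w := ((r : ℤ) : ZMod p)) (cast_ne hps) ?_
    have h3 : (p : ℤ) ∣ b * s ^ 2 - r ^ 2 := by
      rw [← hbs]
      exact ⟨-(16 * d' * e ^ 2), by ring⟩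
    have h4 := cast_eq h3
    push_cast at h4 ⊢
    exact h4
  · intro p hp hp2 β d' hβ hdd
    have hpp : Prime (p : ℤ) := Nat.prime_iff_prime_int.mp hp
    have := Fact.mk hp
    have hp16 : ¬ (p : ℤ) ∣ 16 := by
      intro h0
      have h4 : p ∣ 2 ^ 4 := by exact_mod_cast h0
      exact hp2 ((Nat.prime_dvd_prime_iff_eq hp Nat.prime_two).mp (hp.dvd_of_dvd_pow h4))
    have hpβ := not_dvd_of_sqf hbsf hpp hβ
    have hpd' : ¬ (p : ℤ) ∣ d' := not_dvd_of_sqf hsf hpp hdd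
    have hpU : (p : ℤ) ∣ r ^ 2 - 16 * d * e ^ 2 := ⟨β * s ^ 2, by rw [hbs, hβ]; ring⟩
    have hpe : ¬ (p : ℤ) ∣ e := fun h0 => h3e p hpp hpU h0
    have hpr : (p : ℤ) ∣ r := by
      have h3 : (p : ℤ) ∣ 16 * d * e ^ 2 := ⟨16 * d' * e ^ 2, by rw [hdd]; ring⟩
      have := dvd_add hpU h3
      have e1 : r ^ 2 - 16 * d * e ^ 2 + 16 * d * e ^ 2 = r ^ 2 := by ring
      rw [e1] at this
      exact hpp.dvd_of_dvd_pow this
    obtain ⟨r1, rfl⟩ := hpr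
    have h1 : β * s ^ 2 = p * r1 ^ 2 - 16 * d' * e ^ 2 := by
      have : (p : ℤ) * (β * s ^ 2) = p * (p * r1 ^ 2 - 16 * d' * e ^ 2) := by
        have := hbs
        rw [hβ, hdd] at this
        linear_combination -this
      exact mul_left_cancel₀ hpp.ne_zero this
    have hps : ¬ (p : ℤ) ∣ s := by
      intro h0
      have h2 : (p : ℤ) ∣ 16 * d' * e ^ 2 := by
        have h3 : (p : ℤ) ∣ β * s ^ 2 := Dvd.dvd.mul_left (dvd_pow h0 two_ne_zero) _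
        have h4 : (p : ℤ) ∣ p * r1 ^ 2 := ⟨_, rfl⟩
        have := dvd_sub h4 h3
        have e1 : p * r1 ^ 2 - β * s ^ 2 = 16 * d' * e ^ 2 := by rw [h1]; ring
        rwa [e1] at this
      rcases hpp.dvd_or_dvd h2 with h5 | h5
      · rcases hpp.dvd_or_dvd h5 with h5 | h5
        · exact hp16 h5
        · exact hpd' h5
      · exact hpe (hpp.dvd_of_dvd_pow h5)
    refine zsq (s := ((s : ℤ) : ZMod p)) (w := ((4 * d' * e : ℤ) : ZMod p)) (cast_ne hps) ?_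
    have h3 : (p : ℤ) ∣ (-(β * d')) * s ^ 2 - (4 * d' * e) ^ 2 := by
      refine ⟨-(d' * r1 ^ 2), ?_⟩
      linear_combination (-d') * h1
    have h4 := cast_eq h3
    push_cast at h4 ⊢
    exact h4


end Vale.Agent.P017.H390
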