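import Mathlib
import Vale.Agent.P017.H390.NTG

set_option autoImplicit false

namespace Vale.Agent.P017.H390

lemma odd_sq8 {z : ℤ} (h : ¬ (2 : ℤ) ∣ z) : (z : ZMod 8) ^ 2 = 1 := by
  have ho : Odd z := Int.not_even_iff_odd.mp (fun h0 => h h0.two_dvd)
  obtain ⟨k, rfl⟩ := ho
  obtain ⟨j, hj⟩ : (2 : ℤ) ∣ k * (k + 1) := (Int.even_mul_succ_self k).two_dvd
  have h1 : (2 * k + 1) ^ 2 = 8 * j + 1 := by linear_combination 4 * hj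
  have h2 : (((2 * k + 1) ^ 2 : ℤ) : ZMod 8) = ((8 * j + 1 : ℤ) : ZMod 8) := by rw [h1]
  push_cast at h2
  have h8 : (8 : ZMod 8) = 0 := by decide
  rw [h8, zero_mul, zero_add] at h2
  push_cast
  exact h2

lemma odd_cast8 {z : ℤ} (h : ¬ (2 : ℤ) ∣ z) :
    (z : ZMod 8) = 1 ∨ (z : ZMod 8) = 3 ∨ (z : ZMod 8) = 5 ∨ (z : ZMod 8) = 7 := by
  have := odd_sq8 h
  revert this
  generalize (z : ZMod 8) = w
  revert w
  decide

lemma kill_dec1 : ∀ β n : ZMod 8, (β = 1 ∨ β = 3 ∨ β = 5 ∨ β = 7) →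
    β * (β * 1 - 8 * 7 * 1) * (2 * β * 1 - 25 * 7 * 1) ≠ n ^ 2 := by decide

lemma kill_dec2 : ∀ β n : ZMod 8, (β = 1 ∨ β = 3 ∨ β = 5 ∨ β = 7) →
    β * (β * 1 - 2 * 7 * 1) * (8 * β * 1 - 25 * 7 * 1) ≠ n ^ 2 := by decide

/-- if `d ≡ 7 (mod 8)`, then `b` is odd -/
lemma two_kill7 {d m e b r n1 : ℤ} (hcop : IsCoprime m e) (hbr : m = b * r ^ 2)
    (hstar : b * (m - 16 * d * e ^ 2) * (m - 25 * d * e ^ 2) = n1 ^ 2) (hbsf : Squarefree b)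
    (hd : (d : ZMod 8) = 7) : ¬ (2 : ℤ) ∣ b := by
  intro h2b
  have h2m : (2 : ℤ) ∣ m := by rw [hbr]; exact Dvd.dvd.mul_right h2b _
  have h2e : ¬ (2 : ℤ) ∣ e := cop_prime hcop p2 h2m
  have h2d : ¬ (2 : ℤ) ∣ d := by
    rintro ⟨k, rfl⟩
    push_cast at hd
    generalize (k : ZMod 8) = w at hd
    revert w
    decide
  obtain ⟨β, hβ⟩ := h2b
  have h2β := not_dvd_of_sqf hbsf p2 hβ
  have h1 : 4 * (β * (β * r ^ 2 - 8 * d * e ^ 2) * (2 * β * r ^ 2 - 25 * d * e ^ 2)) = n1 ^ 2 := by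
    rw [← hstar, hbr, hβ]; ring
  obtain ⟨n2, rfl⟩ : (2 : ℤ) ∣ n1 := p2.dvd_of_dvd_pow
    ⟨2 * (β * (β * r ^ 2 - 8 * d * e ^ 2) * (2 * β * r ^ 2 - 25 * d * e ^ 2)), by
      rw [← h1]; ring⟩
  have h2 : β * (β * r ^ 2 - 8 * d * e ^ 2) * (2 * β * r ^ 2 - 25 * d * e ^ 2) = n2 ^ 2 := by
    linarith
  by_cases h2r : (2 : ℤ) ∣ r
  · obtain ⟨r1, rfl⟩ := h2r
    have h3 : 4 * (β * (β * r1 ^ 2 - 2 * d * e ^ 2) * (8 * β * r1 ^ 2 - 25 * d * e ^ 2)) =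
        n2 ^ 2 := by rw [← h2]; ring
    obtain ⟨n3, rfl⟩ : (2 : ℤ) ∣ n2 := p2.dvd_of_dvd_pow
      ⟨2 * (β * (β * r1 ^ 2 - 2 * d * e ^ 2) * (8 * β * r1 ^ 2 - 25 * d * e ^ 2)), by
        rw [← h3]; ring⟩
    have h4 : β * (β * r1 ^ 2 - 2 * d * e ^ 2) * (8 * β * r1 ^ 2 - 25 * d * e ^ 2) = n3 ^ 2 := by
      linarith
    by_cases h2r1 : (2 : ℤ) ∣ r1
    · obtain ⟨r2, rfl⟩ := h2r1
      have h5 : 2 * (β * (2 * β * r2 ^ 2 - d * e ^ 2) * (32 * β * r2 ^ 2 - 25 * d * e ^ 2)) =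
        n3 ^ 2 := by rw [← h4]; ring
      have hde : ¬ (2 : ℤ) ∣ d * e ^ 2 := by
        intro h0
        rcases p2.dvd_or_dvd h0 with h6 | h6
        · exact h2d h6
        · exact h2e (p2.dvd_of_dvd_pow h6)
      rcases p2.dvd_or_dvd (dvd_of_mul_eq_sq p2 h5).1 with h6 | h6
      · rcases p2.dvd_or_dvd h6 with h6 | h6
        · exact h2β h6
        · apply hde
          obtain ⟨k, hk⟩ := h6
          exact ⟨β * r2 ^ 2 - k, by linarith⟩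
      · apply hde
        obtain ⟨k, hk⟩ := h6
        exact ⟨16 * β * r2 ^ 2 - 12 * (d * e ^ 2) - k, by linarith⟩
    · have h5 := congrArg (Int.cast : ℤ → ZMod 8) h4
      push_cast at h5
      rw [odd_sq8 h2r1, odd_sq8 h2e, hd] at h5
      exact kill_dec2 _ _ (odd_cast8 h2β) h5
  · have h5 := congrArg (Int.cast : ℤ → ZMod 8) h2
    push_cast at h5
    rw [odd_sq8 h2r, odd_sq8 h2e, hd] at h5
    exact kill_dec1 _ _ (odd_cast8 h2β) h5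

lemma three_dec : ∀ b r e n : ZMod 3, b ≠ 0 → (r ≠ 0 ∨ e ≠ 0) →
    b * (b * r ^ 2 - 16 * 1 * e ^ 2) * (b * r ^ 2 - 25 * 1 * e ^ 2) = n ^ 2 → b = 1 := by decide

/-- if `d ≡ 1 (mod 3)`, then `b ≡ 1 (mod 3)` -/
lemma three_mod {d m e b r n1 : ℤ} (hcop : IsCoprime m e) (hbr : m = b * r ^ 2)
    (hstar : b * (m - 16 * d * e ^ 2) * (m - 25 * d * e ^ 2) = n1 ^ 2) (h3b : ¬ (3 : ℤ) ∣ b)
    (hd : (d : ZMod 3) = 1) : (b : ZMod 3) = 1 := by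
  have h1 := congrArg (Int.cast : ℤ → ZMod 3) hstar
  rw [hbr] at h1
  push_cast at h1
  rw [hd] at h1
  refine three_dec _ _ _ _ (cast_ne (p := 3) h3b) ?_ h1
  by_contra hcon
  push Not at hcon
  have h2 : (3 : ℤ) ∣ r := (ZMod.intCast_zmod_eq_zero_iff_dvd r 3).mp hcon.1
  have h3 : (3 : ℤ) ∣ e := (ZMod.intCast_zmod_eq_zero_iff_dvd e 3).mp hcon.2
  refine cop_prime hcop p3 ?_ h3
  rw [hbr]
  exact Dvd.dvd.mul_left (dvd_pow h2 two_ne_zero) _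

/-- if `d ≡ 2 (mod 3)`, then `3` does not divide `b` -/
lemma three_kill {d r e b s : ℤ} (hcop : IsCoprime (r ^ 2) e)
    (hbs : r ^ 2 - 16 * d * e ^ 2 = b * s ^ 2) (hd3 : (d : ZMod 3) = 2) : ¬ (3 : ℤ) ∣ b := by
  intro h3b
  have h0 : (3 : ℤ) ∣ r ^ 2 - 16 * d * e ^ 2 := by rw [hbs]; exact Dvd.dvd.mul_right h3b _
  have h1 := cast_eq (p := 3) h0
  push_cast at h1
  rw [hd3] at h1
  refine mod3 _ _ ?_ h1
  refine cast_ne (p := 3) (fun h2 => ?_)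
  have h2 : (3 : ℤ) ∣ e := by exact_mod_cast h2
  have h3 : (3 : ℤ) ∣ r ^ 2 := by
    have h4 : (3 : ℤ) ∣ 16 * d * e ^ 2 := Dvd.dvd.mul_left (dvd_pow h2 two_ne_zero) _
    have := dvd_add h0 h4
    have e1 : r ^ 2 - 16 * d * e ^ 2 + 16 * d * e ^ 2 = r ^ 2 := by ring
    rwa [e1] at this
  exact cop_prime hcop p3 h3 h2

lemma five_dec1 : ∀ b r n : ZMod 5, b ≠ 0 → r ≠ 0 → b * r ^ 2 = n ^ 2 → b = 1 ∨ b = 4 := by
  decide

lemma five_dec2 : ∀ b e s : ZMod 5, e ≠ 0 → (-(1 * e ^ 2) = b * s ^ 2 → b = 1 ∨ b = 4) ∧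
    (-(4 * e ^ 2) = b * s ^ 2 → b = 1 ∨ b = 4) := by
  decide

/-- if `d ≡ 1, 4 (mod 5)`, then `b ≡ 1, 4 (mod 5)` -/
lemma five_mod {d r e b s n2 : ℤ} (hcop : IsCoprime (r ^ 2) e)
    (hbs : r ^ 2 - 16 * d * e ^ 2 = b * s ^ 2) (hn2 : b * (r ^ 2 - 25 * d * e ^ 2) = n2 ^ 2)
    (h5b : ¬ (5 : ℤ) ∣ b)
    (hd : (d : ZMod 5) = 1 ∨ (d : ZMod 5) = 4) : (b : ZMod 5) = 1 ∨ (b : ZMod 5) = 4 := by
  have h25 : (25 : ZMod 5) = 0 := by decide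
  have h16 : (16 : ZMod 5) = 1 := by decide
  by_cases h5r : (5 : ℤ) ∣ r
  · have h5e : ¬ (5 : ℤ) ∣ e := cop_prime hcop p5 (dvd_pow h5r two_ne_zero)
    have h1 := congrArg (Int.cast : ℤ → ZMod 5) hbs
    push_cast at h1
    have hr : (r : ZMod 5) = 0 := (ZMod.intCast_zmod_eq_zero_iff_dvd r 5).mpr h5r
    rw [hr, h16] at h1
    have h2 := five_dec2 (b : ZMod 5) e s (cast_ne (p := 5) h5e)
    rcases hd with hd | hd
    · rw [hd] at h1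
      exact h2.1 (by rw [← h1]; ring)
    · rw [hd] at h1
      exact h2.2 (by rw [← h1]; ring)
  · have h1 := congrArg (Int.cast : ℤ → ZMod 5) hn2
    push_cast at h1
    rw [h25] at h1
    refine five_dec1 (b : ZMod 5) r n2 (cast_ne (p := 5) h5b) (cast_ne (p := 5) h5r) ?_
    rw [← h1]; ring

lemma t5_dec1 : ∀ b s : ZMod 8, (b = 1 ∨ b = 3 ∨ b = 5 ∨ b = 7) → b * s ^ 2 = 1 → b = 1 := by
  decide

lemma t5_dec2 : ∀ b n : ZMod 8, (b = 1 ∨ b = 3 ∨ b = 5 ∨ b = 7) →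
    b * (4 * 1 - 25 * 5 * 1) = n ^ 2 → b = 7 := by decide

lemma t5_dec3 : ∀ s : ZMod 8, 1 - 4 * 5 * 1 ≠ 7 * s ^ 2 := by decide

lemma t5_dec4 : ∀ b n : ZMod 8, (b = 1 ∨ b = 3 ∨ b = 5 ∨ b = 7) →
    b * (- (25 * 5 * 1)) = n ^ 2 → b = 3 := by decide

/-- if `d ≡ 5 (mod 8)` and `b` is odd, then `b ≡ 1, 3 (mod 8)` -/
lemma two_mod5 {d r e b s n2 : ℤ} (hcop : IsCoprime (r ^ 2) e)
    (hbs : r ^ 2 - 16 * d * e ^ 2 = b * s ^ 2) (hn2 : b * (r ^ 2 - 25 * d * e ^ 2) = n2 ^ 2)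
    (h2b : ¬ (2 : ℤ) ∣ b)
    (hd : (d : ZMod 8) = 5) : (b : ZMod 8) = 1 ∨ (b : ZMod 8) = 3 := by
  have h16 : (16 : ZMod 8) = 0 := by decide
  by_cases h2r : (2 : ℤ) ∣ r
  · have h2e : ¬ (2 : ℤ) ∣ e := cop_prime hcop p2 (dvd_pow h2r two_ne_zero)
    obtain ⟨r1, rfl⟩ := h2r
    have h1 : (2 : ℤ) ∣ b * s ^ 2 := ⟨2 * r1 ^ 2 - 8 * d * e ^ 2, by rw [← hbs]; ring⟩
    obtain ⟨s1, rfl⟩ : (2 : ℤ) ∣ s := by
      rcases p2.dvd_or_dvd h1 with h | h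
      · exact absurd h h2b
      · exact p2.dvd_of_dvd_pow h
    have h2 : r1 ^ 2 - 4 * d * e ^ 2 = b * s1 ^ 2 := by linarith
    by_cases h2r1 : (2 : ℤ) ∣ r1
    · obtain ⟨r2, rfl⟩ := h2r1
      right
      have h3 := congrArg (Int.cast : ℤ → ZMod 8) hn2
      push_cast at h3
      rw [odd_sq8 h2e, hd] at h3
      refine t5_dec4 _ (n2 : ZMod 8) (odd_cast8 h2b) ?_
      rw [← h3]
      have : (2 * (2 * (r2 : ZMod 8))) ^ 2 = 16 * r2 ^ 2 := by ring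
      rw [this, h16]; ring
    · exfalso
      have h3 := congrArg (Int.cast : ℤ → ZMod 8) hn2
      push_cast at h3
      have h3' : (b : ZMod 8) * (4 * 1 - 25 * 5 * 1) = (n2 : ZMod 8) ^ 2 := by
        rw [← h3, odd_sq8 h2e, hd, mul_pow, odd_sq8 h2r1]; norm_num
      have h4 := t5_dec2 _ _ (odd_cast8 h2b) h3'
      have h5 := congrArg (Int.cast : ℤ → ZMod 8) h2
      push_cast at h5
      rw [odd_sq8 h2e, hd, odd_sq8 h2r1, h4] at h5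
      exact t5_dec3 _ h5
  · left
    have h3 := congrArg (Int.cast : ℤ → ZMod 8) hbs
    push_cast at h3
    refine t5_dec1 _ (s : ZMod 8) (odd_cast8 h2b) ?_
    rw [← h3, odd_sq8 h2r, h16]; ring

/-- splitting off a prime -/
lemma split_prime {b N q : ℤ} (hq : Prime q) (hb : Squarefree b)
    (h : ∀ r : ℤ, Prime r → r ∣ b → r ∣ q * N) :
    (¬ q ∣ b ∧ ∀ r : ℤ, Prime r → r ∣ b → r ∣ N) ∨
      ∃ β, b = q * β ∧ ¬ q ∣ β ∧ Squarefree β ∧ ∀ r : ℤ, Prime r → r ∣ β → r ∣ N := by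
  by_cases hqb : q ∣ b
  · right
    obtain ⟨β, hβ⟩ := hqb
    have hqβ := not_dvd_of_sqf hb hq hβ
    refine ⟨β, hβ, hqβ, hb.squarefree_of_dvd ⟨q, by rw [hβ]; ring⟩, ?_⟩
    intro r hr hrβ
    rcases hr.dvd_or_dvd (h r hr (by rw [hβ]; exact Dvd.dvd.mul_left hrβ _)) with h1 | h1
    · exact absurd ((hr.associated_of_dvd hq h1).symm.dvd.trans hrβ) hqβ
    · exact h1
  · left
    refine ⟨hqb, ?_⟩
    intro r hr hrb
    rcases hr.dvd_or_dvd (h r hr hrb) with h1 | h1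
    · exact absurd ((hr.associated_of_dvd hq h1).symm.dvd.trans hrb) hqb
    · exact h1

end Vale.Agent.P017.H390
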