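import Mathlib
import Vale.Agent.P017.H390.Kill
import Vale.Agent.P017.H390.DescG

set_option autoImplicit false

namespace Vale.Agent.P017.H390

/-- There is no factorization `d = m * M` with `m, M > 1`, `m` a square modulo all primes dividing
`M` and `M` a square modulo all primes dividing `m`. -/
def R1 (d : ℕ) : Prop := ∀ m M : ℕ, m * M = d →
  (∀ q : ℕ, q.Prime → q ∣ M → IsSquare ((m : ℤ) : ZMod q)) →
  (∀ q : ℕ, q.Prime → q ∣ m → IsSquare ((M : ℤ) : ZMod q)) → m = 1 ∨ M = 1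

/-- Rédei's condition for `-d`: there is no factorization `-d = a * b` into integers `a, b ≠ 1`
congruent to `1` modulo `4`, with `a` a square modulo all primes dividing `b` and `b` a square
modulo all primes dividing `a`. -/
def R2 (d : ℕ) : Prop := ∀ a b : ℤ, a * b = -d → a % 4 = 1 → b % 4 = 1 →
  (∀ q : ℕ, q.Prime → (q : ℤ) ∣ b → IsSquare (a : ZMod q)) →
  (∀ q : ℕ, q.Prime → (q : ℤ) ∣ a → IsSquare (b : ZMod q)) → a = 1 ∨ b = 1

lemma kill_dec1' : ∀ β n : ZMod 8, (β = 1 ∨ β = 3 ∨ β = 5 ∨ β = 7) →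
    β * (β * 1 - 8 * 3 * 1) * (2 * β * 1 - 25 * 3 * 1) ≠ n ^ 2 := by decide

lemma kill_dec2' : ∀ β n : ZMod 8, (β = 1 ∨ β = 3 ∨ β = 5 ∨ β = 7) →
    β * (β * 1 - 2 * 3 * 1) * (8 * β * 1 - 25 * 3 * 1) ≠ n ^ 2 := by decide

/-- if `d ≡ 3 (mod 8)`, then `b` is odd -/
lemma two_kill3 {d m e b r n1 : ℤ} (hcop : IsCoprime m e) (hbr : m = b * r ^ 2)
    (hstar : b * (m - 16 * d * e ^ 2) * (m - 25 * d * e ^ 2) = n1 ^ 2) (hbsf : Squarefree b)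
    (hd : (d : ZMod 8) = 3) : ¬ (2 : ℤ) ∣ b := by
  intro h2b
  have h2m : (2 : ℤ) ∣ m := by rw [hbr]; exact Dvd.dvd.mul_right h2b _
  have h2e : ¬ (2 : ℤ) ∣ e := cop_prime hcop p2 h2m
  have h2d : ¬ (2 : ℤ) ∣ d := by
    rintro ⟨k, rfl⟩
    push_cast at hd
    generalize (k : ZMod 8) = w at hd
    revert w
    decide
  obtain ⟨β, hβ⟩ := h2b
  have h2β := not_dvd_of_sqf hbsf p2 hβ
  have h1 : 4 * (β * (β * r ^ 2 - 8 * d * e ^ 2) * (2 * β * r ^ 2 - 25 * d * e ^ 2)) = n1 ^ 2 := by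
    rw [← hstar, hbr, hβ]; ring
  obtain ⟨n2, rfl⟩ : (2 : ℤ) ∣ n1 := p2.dvd_of_dvd_pow
    ⟨2 * (β * (β * r ^ 2 - 8 * d * e ^ 2) * (2 * β * r ^ 2 - 25 * d * e ^ 2)), by
      rw [← h1]; ring⟩
  have h2 : β * (β * r ^ 2 - 8 * d * e ^ 2) * (2 * β * r ^ 2 - 25 * d * e ^ 2) = n2 ^ 2 := by
    linarith
  by_cases h2r : (2 : ℤ) ∣ r
  · obtain ⟨r1, rfl⟩ := h2r
    have h3 : 4 * (β * (β * r1 ^ 2 - 2 * d * e ^ 2) * (8 * β * r1 ^ 2 - 25 * d * e ^ 2)) =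
        n2 ^ 2 := by rw [← h2]; ring
    obtain ⟨n3, rfl⟩ : (2 : ℤ) ∣ n2 := p2.dvd_of_dvd_pow
      ⟨2 * (β * (β * r1 ^ 2 - 2 * d * e ^ 2) * (8 * β * r1 ^ 2 - 25 * d * e ^ 2)), by
        rw [← h3]; ring⟩
    have h4 : β * (β * r1 ^ 2 - 2 * d * e ^ 2) * (8 * β * r1 ^ 2 - 25 * d * e ^ 2) = n3 ^ 2 := by
      linarith
    by_cases h2r1 : (2 : ℤ) ∣ r1
    · obtain ⟨r2, rfl⟩ := h2r1
      have h5 : 2 * (β * (2 * β * r2 ^ 2 - d * e ^ 2) * (32 * β * r2 ^ 2 - 25 * d * e ^ 2)) =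
        n3 ^ 2 := by rw [← h4]; ring
      have hde : ¬ (2 : ℤ) ∣ d * e ^ 2 := by
        intro h0
        rcases p2.dvd_or_dvd h0 with h6 | h6
        · exact h2d h6
        · exact h2e (p2.dvd_of_dvd_pow h6)
      rcases p2.dvd_or_dvd (dvd_of_mul_eq_sq p2 h5).1 with h6 | h6
      · rcases p2.dvd_or_dvd h6 with h6 | h6
        · exact h2β h6
        · apply hde
          obtain ⟨k, hk⟩ := h6
          exact ⟨β * r2 ^ 2 - k, by linarith⟩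
      · apply hde
        obtain ⟨k, hk⟩ := h6
        exact ⟨16 * β * r2 ^ 2 - 12 * (d * e ^ 2) - k, by linarith⟩
    · have h5 := congrArg (Int.cast : ℤ → ZMod 8) h4
      push_cast at h5
      rw [odd_sq8 h2r1, odd_sq8 h2e, hd] at h5
      exact kill_dec2' _ _ (odd_cast8 h2β) h5
  · have h5 := congrArg (Int.cast : ℤ → ZMod 8) h2
    push_cast at h5
    rw [odd_sq8 h2r, odd_sq8 h2e, hd] at h5
    exact kill_dec1' _ _ (odd_cast8 h2β) h5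

lemma t3_dec3 : ∀ b s d : ZMod 8, (b = 1 ∨ b = 3 ∨ b = 5 ∨ b = 7) → (d = 3 ∨ d = 7) →
    1 - 4 * d * 1 = b * s ^ 2 → b = 5 := by decide

lemma t3_dec4 : ∀ b n d : ZMod 8, (b = 1 ∨ b = 3 ∨ b = 5 ∨ b = 7) → (d = 3 ∨ d = 7) →
    b * (- (25 * d * 1)) = n ^ 2 → b = 5 ∨ b = 1 := by decide

/-- if `d ≡ 3 (mod 4)` and `b` is odd, then `b ≡ 1 (mod 4)` -/
lemma two_mod3 {d r e b s n2 : ℤ} (hcop : IsCoprime (r ^ 2) e)
    (hbs : r ^ 2 - 16 * d * e ^ 2 = b * s ^ 2) (hn2 : b * (r ^ 2 - 25 * d * e ^ 2) = n2 ^ 2)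
    (h2b : ¬ (2 : ℤ) ∣ b)
    (hd : (d : ZMod 8) = 3 ∨ (d : ZMod 8) = 7) : b % 4 = 1 := by
  have h16 : (16 : ZMod 8) = 0 := by decide
  have key : (b : ZMod 8) = 5 ∨ (b : ZMod 8) = 1 := by
    by_cases h2r : (2 : ℤ) ∣ r
    · have h2e : ¬ (2 : ℤ) ∣ e := cop_prime hcop p2 (dvd_pow h2r two_ne_zero)
      obtain ⟨r1, rfl⟩ := h2r
      have h1 : (2 : ℤ) ∣ b * s ^ 2 := ⟨2 * r1 ^ 2 - 8 * d * e ^ 2, by rw [← hbs]; ring⟩
      obtain ⟨s1, rfl⟩ : (2 : ℤ) ∣ s := by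
        rcases p2.dvd_or_dvd h1 with h | h
        · exact absurd h h2b
        · exact p2.dvd_of_dvd_pow h
      have h2 : r1 ^ 2 - 4 * d * e ^ 2 = b * s1 ^ 2 := by linarith
      by_cases h2r1 : (2 : ℤ) ∣ r1
      · obtain ⟨r2, rfl⟩ := h2r1
        have h3 := congrArg (Int.cast : ℤ → ZMod 8) hn2
        push_cast at h3
        rw [odd_sq8 h2e] at h3
        refine t3_dec4 _ (n2 : ZMod 8) (d : ZMod 8) (odd_cast8 h2b) hd ?_
        rw [← h3]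
        have : (2 * (2 * (r2 : ZMod 8))) ^ 2 = 16 * r2 ^ 2 := by ring
        rw [this, h16]; ring
      · left
        have h5 := congrArg (Int.cast : ℤ → ZMod 8) h2
        push_cast at h5
        rw [odd_sq8 h2e, odd_sq8 h2r1] at h5
        exact t3_dec3 _ _ _ (odd_cast8 h2b) hd h5
    · right
      have h3 := congrArg (Int.cast : ℤ → ZMod 8) hbs
      push_cast at h3
      refine t5_dec1 _ (s : ZMod 8) (odd_cast8 h2b) ?_
      rw [← h3, odd_sq8 h2r, h16]; ring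
  rcases key with h | h
  · have h1 : ((b : ℤ) : ZMod 8) = ((5 : ℤ) : ZMod 8) := by rw [h]; norm_num
    rw [ZMod.intCast_eq_intCast_iff] at h1
    have h2 : b % 8 = 5 % 8 := h1
    omega
  · have h1 : ((b : ℤ) : ZMod 8) = ((1 : ℤ) : ZMod 8) := by rw [h]; norm_num
    rw [ZMod.intCast_eq_intCast_iff] at h1
    have h2 : b % 8 = 1 % 8 := h1
    omega

lemma dvd_of_primes {b d : ℤ} (hb : Squarefree b) (hd : d ≠ 0)
    (h : ∀ q : ℤ, Prime q → q ∣ b → q ∣ d) : b ∣ d := by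
  rw [← Int.natAbs_dvd_natAbs]
  have hb' : Squarefree b.natAbs := Int.squarefree_natAbs.mpr hb
  rw [← Nat.prod_primeFactors_of_squarefree hb']
  refine (Finset.prod_dvd_prod_of_subset _ _ _ ?_).trans (Nat.prod_primeFactors_dvd d.natAbs)
  intro q hq
  rw [Nat.mem_primeFactors] at hq ⊢
  refine ⟨hq.1, ?_, by simpa using hd⟩
  have h1 : (q : ℤ) ∣ b := Int.natCast_dvd.mpr hq.2.1
  exact Int.natCast_dvd.mp (h q (Nat.prime_iff_prime_int.mp hq.1) h1)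

lemma g1 {d : ℕ} (hd : d % 60 = 23 ∨ d % 60 = 47) : d % 8 = 3 ∨ d % 8 = 7 := by omega
lemma g2 {d : ℕ} (hd : d % 60 = 23 ∨ d % 60 = 47) : d % 3 = 2 := by omega
lemma g3 {d : ℕ} (hd : d % 60 = 23 ∨ d % 60 = 47) : d % 5 = 3 ∨ d % 5 = 2 := by omega
lemma g4 {d : ℕ} (hd : d % 60 = 23 ∨ d % 60 = 47) : d ≠ 0 ∧ d % 2 = 1 ∧ d % 4 = 3 := by omega

lemma z8 {d k : ℕ} (h : d % 8 = k % 8) : (((d : ℕ) : ℤ) : ZMod 8) = ((k : ℕ) : ZMod 8) := by
  rw [Int.cast_natCast, ZMod.natCast_eq_natCast_iff]; exact h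
lemma z3 {d k : ℕ} (h : d % 3 = k % 3) : (((d : ℕ) : ℤ) : ZMod 3) = ((k : ℕ) : ZMod 3) := by
  rw [Int.cast_natCast, ZMod.natCast_eq_natCast_iff]; exact h
lemma z5 {d k : ℕ} (h : d % 5 = k % 5) : (((d : ℕ) : ℤ) : ZMod 5) = ((k : ℕ) : ZMod 5) := by
  rw [Int.cast_natCast, ZMod.natCast_eq_natCast_iff]; exact h

/-- dividing a square by a square -/
lemma sq_div {q : ℕ} (hq : q.Prime) {β c : ℤ} (hβ : ¬ (q : ℤ) ∣ β)
    (h : IsSquare ((β * (β * c) : ℤ) : ZMod q)) : IsSquare ((c : ℤ) : ZMod q) := by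
  have := Fact.mk hq
  have hβ0 : (β : ZMod q) ≠ 0 := cast_ne hβ
  have e : (c : ZMod q) = ((β * (β * c) : ℤ) : ZMod q) / ((β : ZMod q) * (β : ZMod q)) := by
    rw [eq_div_iff (mul_ne_zero hβ0 hβ0)]
    push_cast; ring
  rw [e]
  exact h.div ⟨_, rfl⟩

theorem HA_comp {d : ℕ} (hsf : Squarefree d) (hd : d % 60 = 23 ∨ d % 60 = 47)
    (hR1 : R1 d) : ∀ m e n : ℤ, Sol d m e n → ∃ r : ℤ, m = r ^ 2 ∨ m = d * r ^ 2 := by
  obtain ⟨hd0, hd2, hd4⟩ := g4 hd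
  have hdZ : 0 < (d : ℤ) := by exact_mod_cast Nat.pos_of_ne_zero hd0
  have hsfZ : Squarefree (d : ℤ) := Int.squarefree_natCast.mpr hsf
  have hm5 : ((d : ℤ) : ZMod 5) = 2 ∨ ((d : ℤ) : ZMod 5) = 3 := by
    rcases g3 hd with h | h
    · right; exact_mod_cast z5 (k := 3) h
    · left; exact_mod_cast z5 (k := 2) h
  intro m e n hS
  obtain ⟨b, r, n1, hbr, hr0, hstar, hb0, hbsf, hq, h1, h2⟩ := stepA0 hS hdZ hsfZ
  have h5b : ¬ (5 : ℤ) ∣ b := five_kill hS.cop hbr hstar hbsf hm5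
  have h2b : ¬ (2 : ℤ) ∣ b := by
    rcases g1 hd with h | h
    · exact two_kill3 hS.cop hbr hstar hbsf (by exact_mod_cast z8 (k := 3) h)
    · exact two_kill7 hS.cop hbr hstar hbsf (by exact_mod_cast z8 (k := 7) h)
  have hqd : ∀ q : ℤ, Prime q → q ∣ b → q ∣ (d : ℤ) := by
    intro q hq' hqb
    rcases hq'.dvd_or_dvd (hq q hq' hqb) with h | h
    · exfalso
      rcases hq'.dvd_or_dvd h with h | h
      · exact h2b ((hq'.associated_of_dvd p2 h).symm.dvd.trans hqb)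
      · exact h5b ((hq'.associated_of_dvd p5 h).symm.dvd.trans hqb)
    · exact h
  have hbd : b ∣ (d : ℤ) := dvd_of_primes hbsf hdZ.ne' hqd
  obtain ⟨M, hM⟩ := hbd
  have hM0 : 0 < M := by
    by_contra h0
    have := mul_nonpos_of_nonneg_of_nonpos hb0.le (not_lt.mp h0)
    linarith
  obtain ⟨m', rfl⟩ : ∃ m' : ℕ, b = m' := ⟨b.toNat, (Int.toNat_of_nonneg hb0.le).symm⟩
  obtain ⟨M', rfl⟩ : ∃ M' : ℕ, M = M' := ⟨M.toNat, (Int.toNat_of_nonneg hM0.le).symm⟩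
  have hmM : m' * M' = d := by exact_mod_cast hM.symm
  have hq2 : ∀ q : ℕ, q.Prime → q ∣ d → q ≠ 2 ∧ q ≠ 5 := by
    intro q _ hqd'
    constructor
    · rintro rfl
      have := Nat.mod_eq_zero_of_dvd hqd'
      rw [hd2] at this
      exact one_ne_zero this
    · rintro rfl
      have := Nat.mod_eq_zero_of_dvd hqd'
      rcases g3 hd with h | h <;> rw [h] at this <;> exact absurd this (by norm_num)
  have c1 : ∀ q : ℕ, q.Prime → q ∣ M' → IsSquare ((m' : ℤ) : ZMod q) := by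
    intro q hq' hqM
    have hqd' : q ∣ d := hqM.trans ⟨m', by rw [← hmM]; ring⟩
    obtain ⟨hq2', hq5'⟩ := hq2 q hq' hqd'
    refine h1 q hq' hq2' hq5' (by exact_mod_cast hqd') ?_
    intro h0
    have h0' : q ∣ m' := by exact_mod_cast h0
    obtain ⟨x, hx⟩ := h0'
    obtain ⟨y, hy⟩ := hqM
    have : q * q ∣ d := ⟨x * y, by rw [← hmM, hx, hy]; ring⟩
    exact hq'.one_lt.ne' (Nat.isUnit_iff.mp (hsf q this))
  have c2 : ∀ q : ℕ, q.Prime → q ∣ m' → IsSquare ((M' : ℤ) : ZMod q) := by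
    intro q hq' hqm
    obtain ⟨β, hβ⟩ := hqm
    have hqd' : q ∣ d := ⟨β * M', by rw [← hmM, hβ]; ring⟩
    obtain ⟨hq2', hq5'⟩ := hq2 q hq' hqd'
    have hqβ : ¬ ((q : ℕ) : ℤ) ∣ (β : ℤ) := by
      intro h0
      have h0' : q ∣ β := by exact_mod_cast h0
      obtain ⟨x, hx⟩ := h0'
      have : q * q ∣ d := ⟨x * M', by rw [← hmM, hβ, hx]; ring⟩
      exact hq'.one_lt.ne' (Nat.isUnit_iff.mp (hsf q this))
    refine sq_div hq' hqβ ?_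
    refine h2 q hq' hq2' hq5' (β : ℤ) (β * M') (by rw [hβ]; push_cast; ring) ?_
    rw [← hmM, hβ]; push_cast; ring
  refine ⟨r, ?_⟩
  rcases hR1 m' M' hmM c1 c2 with h | h
  · left; rw [hbr, h]; push_cast; ring
  · right; rw [hbr, ← hmM, h]; push_cast; ring

theorem HB_comp {d : ℕ} (hsf : Squarefree d) (hd : d % 60 = 23 ∨ d % 60 = 47)
    (hR2 : R2 d) : ∀ r e n : ℤ, Sol d (r ^ 2) e n →
      ∃ s : ℤ, r ^ 2 - 16 * d * e ^ 2 = s ^ 2 ∨ r ^ 2 - 16 * d * e ^ 2 = -d * s ^ 2 := by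
  obtain ⟨hd0, hd2, hd4⟩ := g4 hd
  have hdZ : 0 < (d : ℤ) := by exact_mod_cast Nat.pos_of_ne_zero hd0
  have hsfZ : Squarefree (d : ℤ) := Int.squarefree_natCast.mpr hsf
  have hm8 : ((d : ℤ) : ZMod 8) = 3 ∨ ((d : ℤ) : ZMod 8) = 7 := by
    rcases g1 hd with h | h
    · left; exact_mod_cast z8 (k := 3) h
    · right; exact_mod_cast z8 (k := 7) h
  intro r e n hS
  obtain ⟨b, s, n2, hbs, hs0, hn2, hbsf, hq, h1, h2⟩ := stepB0 hS hsfZ
  have h3b : ¬ (3 : ℤ) ∣ b := three_kill hS.cop hbs (by exact_mod_cast z3 (k := 2) (g2 hd))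
  have hqd : ∀ q : ℤ, Prime q → q ∣ b → q ∣ (d : ℤ) := by
    intro q hq' hqb
    rcases hq'.dvd_or_dvd (hq q hq' hqb) with h | h
    · exact absurd ((hq'.associated_of_dvd p3 h).symm.dvd.trans hqb) h3b
    · exact h
  have h2b : ¬ (2 : ℤ) ∣ b := by
    intro h0
    have h3 : (2 : ℤ) ∣ d := hqd 2 p2 h0
    have h4 : 2 ∣ d := by exact_mod_cast h3
    have := Nat.mod_eq_zero_of_dvd h4
    rw [hd2] at this
    exact one_ne_zero this
  have hb4 : b % 4 = 1 := two_mod3 hS.cop hbs hn2 h2b hm8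
  have hbd : b ∣ (d : ℤ) := dvd_of_primes hbsf hdZ.ne' hqd
  obtain ⟨c, hc⟩ := hbd
  have hmul : b * (-c) = -(d : ℤ) := by rw [hc]; ring
  have hc4 : (-c) % 4 = 1 := by
    have h3 : (-(d : ℤ)) % 4 = 1 := by
      have : ((d : ℤ)) % 4 = 3 := by exact_mod_cast hd4
      clear * - this
      omega
    rw [← hmul, Int.mul_emod, hb4, one_mul, Int.emod_emod] at h3
    exact h3
  have hq2 : ∀ q : ℕ, q.Prime → (q : ℤ) ∣ (d : ℤ) → q ≠ 2 := by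
    rintro q _ hqd' rfl
    have hqd'' : 2 ∣ d := by exact_mod_cast hqd'
    have := Nat.mod_eq_zero_of_dvd hqd''
    rw [hd2] at this
    exact one_ne_zero this
  have hnsq : ∀ q : ℕ, q.Prime → ¬ (q : ℤ) * q ∣ (d : ℤ) := by
    intro q hq' h0
    exact (Nat.prime_iff_prime_int.mp hq').not_isUnit (hsfZ _ h0)
  have c1 : ∀ q : ℕ, q.Prime → (q : ℤ) ∣ -c → IsSquare (b : ZMod q) := by
    intro q hq' hqc
    have hqc' : (q : ℤ) ∣ c := (dvd_neg).mp hqc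
    have hqd' : (q : ℤ) ∣ (d : ℤ) := hqc'.trans ⟨b, by rw [hc]; ring⟩
    refine h1 q hq' (hq2 q hq' hqd') hqd' ?_
    rintro ⟨x, hx⟩
    obtain ⟨y, hy⟩ := hqc'
    exact hnsq q hq' ⟨x * y, by rw [hc, hx, hy]; ring⟩
  have c2 : ∀ q : ℕ, q.Prime → (q : ℤ) ∣ b → IsSquare ((-c : ℤ) : ZMod q) := by
    intro q hq' hqb
    obtain ⟨β, hβ⟩ := hqb
    have hqd' : (q : ℤ) ∣ (d : ℤ) := ⟨β * c, by rw [hc, hβ]; ring⟩
    have hqβ : ¬ ((q : ℕ) : ℤ) ∣ β := by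
      rintro ⟨x, hx⟩
      exact hnsq q hq' ⟨x * c, by rw [hc, hβ, hx]; ring⟩
    refine sq_div hq' hqβ ?_
    have h3 := h2 q hq' (hq2 q hq' hqd') β (β * c) hβ (by rw [hc, hβ]; ring)
    have e : β * (β * -c) = -(β * (β * c)) := by ring
    rw [e]
    exact h3
  refine ⟨s, ?_⟩
  rcases hR2 b (-c) hmul hb4 hc4 c1 c2 with h | h
  · left; rw [hbs, h, one_mul]
  · right
    have : b = -d := by
      rw [h, mul_one] at hmul
      exact hmul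
    rw [hbs, this]

theorem condG_comp {d : ℕ} (hsf : Squarefree d) (hd : d % 60 = 23 ∨ d % 60 = 47)
    (hR1 : R1 d) (hR2 : R2 d) : CondG (d : ℤ) :=
  ⟨by exact_mod_cast Nat.pos_of_ne_zero (g4 hd).1, HA_comp hsf hd hR1, HB_comp hsf hd hR2⟩

end Vale.Agent.P017.H390
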