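import Mathlib
import Vale.Agent.P017.H390.Comp
import Vale.Agent.P017.H524.Defs

set_option autoImplicit false

namespace Vale.Agent.P017.H390

open Vale.Agent.P017.H524 (SqMod)

/-! ### The prime `5` when it divides `d` -/

lemma f5_dec1 : ∀ b r n : ZMod 5, r ≠ 0 → b ≠ 0 → b * (b * r ^ 2) * (b * r ^ 2) = n ^ 2 →
    b = 1 ∨ b = 4 ∨ b = 0 := by decide

lemma f5_dec2 : ∀ b w n : ZMod 5, w ≠ 0 → b * w ^ 2 = n ^ 2 → b = 1 ∨ b = 4 ∨ b = 0 := by decide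

lemma isSquare5 {b : ZMod 5} (h : b = 1 ∨ b = 4 ∨ b = 0) : IsSquare b := by
  rcases h with rfl | rfl | rfl
  · exact ⟨1, by decide⟩
  · exact ⟨2, by decide⟩
  · exact ⟨0, by decide⟩

lemma five_i {d' m e b r n1 : ℤ} (hcop : IsCoprime m e) (hbr : m = b * r ^ 2)
    (hstar : b * (m - 16 * (5 * d') * e ^ 2) * (m - 25 * (5 * d') * e ^ 2) = n1 ^ 2)
    (hd' : ¬ (5 : ℤ) ∣ d') (h5b : ¬ (5 : ℤ) ∣ b) : IsSquare ((b : ℤ) : ZMod 5) := by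
  apply isSquare5
  have h5 : (5 : ZMod 5) = 0 := by decide
  by_cases h5r : (5 : ℤ) ∣ r
  · obtain ⟨r1, rfl⟩ := h5r
    have h5e : ¬ (5 : ℤ) ∣ e := cop_prime hcop p5 ⟨b * 5 * r1 ^ 2, by rw [hbr]; ring⟩
    have h5E : ¬ (5 : ℤ) ∣ 16 * d' * e ^ 2 := by
      intro h0
      rcases p5.dvd_or_dvd h0 with h1 | h1
      · rcases p5.dvd_or_dvd h1 with h1 | h1
        · omega
        · exact hd' h1
      · exact h5e (p5.dvd_of_dvd_pow h1)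
    have h1 : 25 * (5 * (b * (5 * b * r1 ^ 2 - 16 * d' * e ^ 2) * (b * r1 ^ 2 - 5 * d' * e ^ 2))) =
        n1 ^ 2 := by rw [← hstar, hbr]; ring
    obtain ⟨n2, rfl⟩ : (5 : ℤ) ∣ n1 := p5.dvd_of_dvd_pow
      ⟨25 * (b * (5 * b * r1 ^ 2 - 16 * d' * e ^ 2) * (b * r1 ^ 2 - 5 * d' * e ^ 2)), by
        rw [← h1]; ring⟩
    have h2 : 5 * (b * (5 * b * r1 ^ 2 - 16 * d' * e ^ 2) * (b * r1 ^ 2 - 5 * d' * e ^ 2)) =
        n2 ^ 2 := by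
      have : (25 : ℤ) * (5 * (b * (5 * b * r1 ^ 2 - 16 * d' * e ^ 2) *
        (b * r1 ^ 2 - 5 * d' * e ^ 2))) = 25 * n2 ^ 2 := by rw [h1]; ring
      exact mul_left_cancel₀ (by norm_num) this
    obtain ⟨h3, n3, hn3, h4⟩ := dvd_of_mul_eq_sq p5 h2
    have h5r1 : (5 : ℤ) ∣ r1 := by
      rcases p5.dvd_or_dvd h3 with h6 | h6
      · rcases p5.dvd_or_dvd h6 with h6 | h6
        · exact absurd h6 h5b
        · exfalso
          apply h5E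
          have := dvd_sub (⟨b * r1 ^ 2, by ring⟩ : (5 : ℤ) ∣ 5 * b * r1 ^ 2) h6
          have e1 : 5 * b * r1 ^ 2 - (5 * b * r1 ^ 2 - 16 * d' * e ^ 2) = 16 * d' * e ^ 2 := by ring
          rwa [e1] at this
      · have h7 : (5 : ℤ) ∣ b * r1 ^ 2 := by
          have := dvd_add h6 (⟨d' * e ^ 2, by ring⟩ : (5 : ℤ) ∣ 5 * d' * e ^ 2)
          have e1 : b * r1 ^ 2 - 5 * d' * e ^ 2 + 5 * d' * e ^ 2 = b * r1 ^ 2 := by ring
          rwa [e1] at this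
        rcases p5.dvd_or_dvd h7 with h8 | h8
        · exact absurd h8 h5b
        · exact p5.dvd_of_dvd_pow h8
    obtain ⟨r2, rfl⟩ := h5r1
    have h6 : 25 * (b * (125 * b * r2 ^ 2 - 16 * d' * e ^ 2) * (5 * b * r2 ^ 2 - d' * e ^ 2)) =
        n2 ^ 2 := by rw [← h2]; ring
    obtain ⟨n4, rfl⟩ : (5 : ℤ) ∣ n2 := p5.dvd_of_dvd_pow
      ⟨5 * (b * (125 * b * r2 ^ 2 - 16 * d' * e ^ 2) * (5 * b * r2 ^ 2 - d' * e ^ 2)), by
        rw [← h6]; ring⟩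
    have h7 : b * (125 * b * r2 ^ 2 - 16 * d' * e ^ 2) * (5 * b * r2 ^ 2 - d' * e ^ 2) =
        n4 ^ 2 := by
      have : (25 : ℤ) * (b * (125 * b * r2 ^ 2 - 16 * d' * e ^ 2) * (5 * b * r2 ^ 2 - d' * e ^ 2)) =
        25 * n4 ^ 2 := by rw [h6]; ring
      exact mul_left_cancel₀ (by norm_num) this
    refine f5_dec2 (b : ZMod 5) ((4 * d' * e ^ 2 : ℤ) : ZMod 5) (n4 : ZMod 5) ?_ ?_
    · refine cast_ne (p := 5) (fun h0 => ?_)
      have h0' : (5 : ℤ) ∣ 4 * d' * e ^ 2 := by exact_mod_cast h0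
      apply h5E
      obtain ⟨k, hk⟩ := h0'
      exact ⟨4 * k, by linarith⟩
    · have h8 := congrArg (Int.cast : ℤ → ZMod 5) h7
      push_cast at h8 ⊢
      have h125 : (125 : ZMod 5) = 0 := by decide
      rw [h5, h125] at h8
      rw [← h8]; ring
  · have h5b' : (b : ZMod 5) ≠ 0 := cast_ne (p := 5) h5b
    have h5r' : (r : ZMod 5) ≠ 0 := cast_ne (p := 5) h5r
    refine f5_dec1 (b : ZMod 5) (r : ZMod 5) (n1 : ZMod 5) h5r' h5b' ?_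
    have h8 := congrArg (Int.cast : ℤ → ZMod 5) hstar
    rw [hbr] at h8
    push_cast at h8
    rw [h5] at h8
    rw [← h8]; ring

lemma f5_dec3 : ∀ β d r e : ZMod 5, d ≠ 0 → e ≠ 0 → β * r ^ 2 = d * e ^ 2 →
    β * d = 1 ∨ β * d = 4 ∨ β * d = 0 := by decide

lemma five_ii {d' m e b r n1 β : ℤ} (hcop : IsCoprime m e) (hbr : m = b * r ^ 2)
    (hstar : b * (m - 16 * (5 * d') * e ^ 2) * (m - 25 * (5 * d') * e ^ 2) = n1 ^ 2)
    (hd' : ¬ (5 : ℤ) ∣ d') (hb : b = 5 * β) (h5β : ¬ (5 : ℤ) ∣ β) :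
    IsSquare ((β * d' : ℤ) : ZMod 5) := by
  have h16 : (16 : ZMod 5) = 1 := by decide
  have h5e : ¬ (5 : ℤ) ∣ e := cop_prime hcop p5 ⟨β * r ^ 2, by rw [hbr, hb]; ring⟩
  have hd5 : (d' : ZMod 5) ≠ 0 := cast_ne (p := 5) hd'
  have he5 : (e : ZMod 5) ≠ 0 := cast_ne (p := 5) h5e
  have hfin : ∀ c f : ℤ, (5 : ℤ) ∣ β * c ^ 2 - f * d' * e ^ 2 → (f : ZMod 5) = 1 →
      IsSquare ((β * d' : ℤ) : ZMod 5) := by
    intro c f h0 hf
    push_cast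
    refine isSquare5 (f5_dec3 (β : ZMod 5) d' c e hd5 he5 ?_)
    have h1 := cast_eq (p := 5) (by exact_mod_cast h0 : ((5 : ℕ) : ℤ) ∣ β * c ^ 2 - f * d' * e ^ 2)
    push_cast at h1
    rw [hf] at h1
    rw [h1]; ring
  have h1 : 25 * (5 * (β * (β * r ^ 2 - 16 * d' * e ^ 2) * (β * r ^ 2 - 25 * d' * e ^ 2))) =
      n1 ^ 2 := by rw [← hstar, hbr, hb]; ring
  obtain ⟨n2, rfl⟩ : (5 : ℤ) ∣ n1 := p5.dvd_of_dvd_pow
    ⟨25 * (β * (β * r ^ 2 - 16 * d' * e ^ 2) * (β * r ^ 2 - 25 * d' * e ^ 2)), by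
      rw [← h1]; ring⟩
  have h2 : 5 * (β * (β * r ^ 2 - 16 * d' * e ^ 2) * (β * r ^ 2 - 25 * d' * e ^ 2)) =
      n2 ^ 2 := by
    have : (25 : ℤ) * (5 * (β * (β * r ^ 2 - 16 * d' * e ^ 2) *
      (β * r ^ 2 - 25 * d' * e ^ 2))) = 25 * n2 ^ 2 := by rw [h1]; ring
    exact mul_left_cancel₀ (by norm_num) this
  obtain ⟨h3, -⟩ := dvd_of_mul_eq_sq p5 h2
  rcases p5.dvd_or_dvd h3 with h4 | h4
  · rcases p5.dvd_or_dvd h4 with h4 | h4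
    · exact absurd h4 h5β
    · exact hfin r 16 h4 (by push_cast; exact h16)
  · have h5r : (5 : ℤ) ∣ r := by
      have h7 : (5 : ℤ) ∣ β * r ^ 2 := by
        have := dvd_add h4 (⟨5 * d' * e ^ 2, by ring⟩ : (5 : ℤ) ∣ 25 * d' * e ^ 2)
        have e1 : β * r ^ 2 - 25 * d' * e ^ 2 + 25 * d' * e ^ 2 = β * r ^ 2 := by ring
        rwa [e1] at this
      rcases p5.dvd_or_dvd h7 with h8 | h8
      · exact absurd h8 h5β
      · exact p5.dvd_of_dvd_pow h8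
    obtain ⟨r1, rfl⟩ := h5r
    have h5 : 25 * (5 * (β * (25 * β * r1 ^ 2 - 16 * d' * e ^ 2) * (β * r1 ^ 2 - d' * e ^ 2))) =
        n2 ^ 2 := by rw [← h2]; ring
    obtain ⟨n3, rfl⟩ : (5 : ℤ) ∣ n2 := p5.dvd_of_dvd_pow
      ⟨25 * (β * (25 * β * r1 ^ 2 - 16 * d' * e ^ 2) * (β * r1 ^ 2 - d' * e ^ 2)), by
        rw [← h5]; ring⟩
    have h6 : 5 * (β * (25 * β * r1 ^ 2 - 16 * d' * e ^ 2) * (β * r1 ^ 2 - d' * e ^ 2)) =
        n3 ^ 2 := by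
      have : (25 : ℤ) * (5 * (β * (25 * β * r1 ^ 2 - 16 * d' * e ^ 2) *
        (β * r1 ^ 2 - d' * e ^ 2))) = 25 * n3 ^ 2 := by rw [h5]; ring
      exact mul_left_cancel₀ (by norm_num) this
    obtain ⟨h7, -⟩ := dvd_of_mul_eq_sq p5 h6
    rcases p5.dvd_or_dvd h7 with h8 | h8
    · rcases p5.dvd_or_dvd h8 with h8 | h8
      · exact absurd h8 h5β
      · exfalso
        have h9 : (5 : ℤ) ∣ 16 * d' * e ^ 2 := by
          have := dvd_sub (⟨5 * β * r1 ^ 2, by ring⟩ : (5 : ℤ) ∣ 25 * β * r1 ^ 2) h8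
          have e1 : 25 * β * r1 ^ 2 - (25 * β * r1 ^ 2 - 16 * d' * e ^ 2) = 16 * d' * e ^ 2 := by
            ring
          rwa [e1] at this
        rcases p5.dvd_or_dvd h9 with h10 | h10
        · rcases p5.dvd_or_dvd h10 with h10 | h10
          · omega
          · exact hd' h10
        · exact h5e (p5.dvd_of_dvd_pow h10)
    · refine hfin r1 1 ?_ (by norm_num)
      rw [one_mul]; exact h8

/-! ### The prime `2` -/

lemma t1_dec3 : ∀ b s d : ZMod 8, (b = 1 ∨ b = 3 ∨ b = 5 ∨ b = 7) → (d = 1 ∨ d = 5) →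
    1 - 4 * d * 1 = b * s ^ 2 → b = 5 := by decide

lemma t1_dec2 : ∀ b n d : ZMod 8, (b = 1 ∨ b = 3 ∨ b = 5 ∨ b = 7) → (d = 1 ∨ d = 5) →
    b * (4 * 1 - 25 * d * 1) = n ^ 2 → b ≠ 5 := by decide

lemma t1_dec4 : ∀ b n d : ZMod 8, (b = 1 ∨ b = 3 ∨ b = 5 ∨ b = 7) → (d = 1 ∨ d = 5) →
    b * (- (25 * d * 1)) = n ^ 2 → b = -d := by decide

/-- if `d ≡ 1 (mod 4)` and `b` is odd, then `b ≡ 1` or `-d (mod 8)` -/
lemma two_mod1 {d r e b s n2 : ℤ} (hcop : IsCoprime (r ^ 2) e)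
    (hbs : r ^ 2 - 16 * d * e ^ 2 = b * s ^ 2) (hn2 : b * (r ^ 2 - 25 * d * e ^ 2) = n2 ^ 2)
    (h2b : ¬ (2 : ℤ) ∣ b)
    (hd : (d : ZMod 8) = 1 ∨ (d : ZMod 8) = 5) : (b : ZMod 8) = 1 ∨ (b : ZMod 8) = -d := by
  have h16 : (16 : ZMod 8) = 0 := by decide
  by_cases h2r : (2 : ℤ) ∣ r
  · have h2e : ¬ (2 : ℤ) ∣ e := cop_prime hcop p2 (dvd_pow h2r two_ne_zero)
    obtain ⟨r1, rfl⟩ := h2r
    have h1 : (2 : ℤ) ∣ b * s ^ 2 := ⟨2 * r1 ^ 2 - 8 * d * e ^ 2, by rw [← hbs]; ring⟩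
    obtain ⟨s1, rfl⟩ : (2 : ℤ) ∣ s := by
      rcases p2.dvd_or_dvd h1 with h | h
      · exact absurd h h2b
      · exact p2.dvd_of_dvd_pow h
    have h2 : r1 ^ 2 - 4 * d * e ^ 2 = b * s1 ^ 2 := by linarith
    by_cases h2r1 : (2 : ℤ) ∣ r1
    · obtain ⟨r2, rfl⟩ := h2r1
      right
      have h3 := congrArg (Int.cast : ℤ → ZMod 8) hn2
      push_cast at h3
      rw [odd_sq8 h2e] at h3
      refine t1_dec4 _ (n2 : ZMod 8) (d : ZMod 8) (odd_cast8 h2b) hd ?_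
      rw [← h3]
      have : (2 * (2 * (r2 : ZMod 8))) ^ 2 = 16 * r2 ^ 2 := by ring
      rw [this, h16]; ring
    · exfalso
      have h3 := congrArg (Int.cast : ℤ → ZMod 8) hn2
      push_cast at h3
      have h3' : (b : ZMod 8) * (4 * 1 - 25 * d * 1) = (n2 : ZMod 8) ^ 2 := by
        rw [← h3, odd_sq8 h2e, mul_pow, odd_sq8 h2r1]; norm_num
      have h4 := t1_dec2 _ _ _ (odd_cast8 h2b) hd h3'
      have h5 := congrArg (Int.cast : ℤ → ZMod 8) h2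
      push_cast at h5
      rw [odd_sq8 h2e, odd_sq8 h2r1] at h5
      exact h4 (t1_dec3 _ _ _ (odd_cast8 h2b) hd h5)
  · left
    have h3 := congrArg (Int.cast : ℤ → ZMod 8) hbs
    push_cast at h3
    refine t5_dec1 _ (s : ZMod 8) (odd_cast8 h2b) ?_
    rw [← h3, odd_sq8 h2r, h16]; ring

lemma te_dec : ∀ c p n : ZMod 8, (c = 1 ∨ c = 3 ∨ c = 5 ∨ c = 7) → (p = 1 ∨ p = 3 ∨ p = 5 ∨ p = 7) →
    c * (- (25 * p * 1)) = n ^ 2 → c = -p := by decide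

/-- even `d = 2 p` : `b ≡ 1 (mod 8)`, or `b = 2 c` with `c ≡ -p (mod 8)` -/
lemma two_even {p r e b s n2 : ℤ} (hcop : IsCoprime (r ^ 2) e) (hp : ¬ (2 : ℤ) ∣ p)
    (hbs : r ^ 2 - 16 * (2 * p) * e ^ 2 = b * s ^ 2)
    (hn2 : b * (r ^ 2 - 25 * (2 * p) * e ^ 2) = n2 ^ 2) (hbsf : Squarefree b) :
    (b : ZMod 8) = 1 ∨ ∃ c, b = 2 * c ∧ (c : ZMod 8) = -p := by
  have h32 : (16 : ZMod 8) = 0 := by decide
  by_cases h2r : (2 : ℤ) ∣ r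
  · right
    have h2e : ¬ (2 : ℤ) ∣ e := cop_prime hcop p2 (dvd_pow h2r two_ne_zero)
    have hpe : ¬ (2 : ℤ) ∣ p * e ^ 2 := by
      intro h0
      rcases p2.dvd_or_dvd h0 with h1 | h1
      · exact hp h1
      · exact h2e (p2.dvd_of_dvd_pow h1)
    obtain ⟨r1, rfl⟩ := h2r
    by_cases h2b : (2 : ℤ) ∣ b
    · obtain ⟨c, rfl⟩ := h2b
      have h2c := not_dvd_of_sqf hbsf p2 rfl
      refine ⟨c, rfl, ?_⟩
      have sq_even : ∀ {u v : ℤ}, c * u ^ 2 = 2 * v → ∃ u', u = 2 * u' := by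
        intro u v h
        have h1 : (2 : ℤ) ∣ c * u ^ 2 := ⟨v, h⟩
        rcases p2.dvd_or_dvd h1 with h2 | h2
        · exact absurd h2 h2c
        · obtain ⟨u', hu'⟩ := p2.dvd_of_dvd_pow h2
          exact ⟨u', hu'⟩
      have sq_even' : ∀ {u v : ℤ}, u ^ 2 = 2 * v → ∃ u', u = 2 * u' := by
        intro u v h
        obtain ⟨u', hu'⟩ := p2.dvd_of_dvd_pow (⟨v, h⟩ : (2 : ℤ) ∣ u ^ 2)
        exact ⟨u', hu'⟩
      have a1 : c * s ^ 2 = 2 * (r1 ^ 2 - 8 * p * e ^ 2) := by linarith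
      obtain ⟨s1, rfl⟩ := sq_even a1
      have a2 : r1 ^ 2 = 2 * (c * s1 ^ 2 + 4 * p * e ^ 2) := by linarith
      obtain ⟨r2, rfl⟩ := sq_even' a2
      have a3 : c * s1 ^ 2 = 2 * (r2 ^ 2 - 2 * p * e ^ 2) := by linarith
      obtain ⟨s2, rfl⟩ := sq_even a3
      have a4 : r2 ^ 2 = 2 * (c * s2 ^ 2 + p * e ^ 2) := by linarith
      obtain ⟨r3, rfl⟩ := sq_even' a4
      have a5 : 4 * (c * (32 * r3 ^ 2 - 25 * p * e ^ 2)) = n2 ^ 2 := by rw [← hn2]; ring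
      obtain ⟨n3, rfl⟩ := sq_even' (v := 2 * (c * (32 * r3 ^ 2 - 25 * p * e ^ 2))) (by
        rw [← a5]; ring)
      have a6 : c * (32 * r3 ^ 2 - 25 * p * e ^ 2) = n3 ^ 2 := by linarith
      have h3 := congrArg (Int.cast : ℤ → ZMod 8) a6
      push_cast at h3
      rw [odd_sq8 h2e] at h3
      refine te_dec _ _ (n3 : ZMod 8) (odd_cast8 h2c) (odd_cast8 hp) ?_
      rw [← h3]
      have h32' : (32 : ZMod 8) = 0 := by decide
      rw [h32']; ring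
    · exfalso
      have h3 : 2 * (b * (2 * r1 ^ 2 - 25 * p * e ^ 2)) = n2 ^ 2 := by rw [← hn2]; ring
      obtain ⟨h4, -⟩ := dvd_of_mul_eq_sq p2 h3
      rcases p2.dvd_or_dvd h4 with h5 | h5
      · exact h2b h5
      · apply hpe
        obtain ⟨k, hk⟩ := h5
        exact ⟨r1 ^ 2 - 12 * (p * e ^ 2) - k, by linarith⟩
  · left
    have h2b : ¬ (2 : ℤ) ∣ b := by
      rintro ⟨c, rfl⟩
      apply h2r
      apply p2.dvd_of_dvd_pow (n := 2)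
      exact ⟨c * s ^ 2 + 16 * p * e ^ 2, by linarith⟩
    have h3 := congrArg (Int.cast : ℤ → ZMod 8) hbs
    push_cast at h3
    refine t5_dec1 _ (s : ZMod 8) (odd_cast8 h2b) ?_
    rw [← h3, odd_sq8 h2r, h32]; ring

end Vale.Agent.P017.H390
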