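import Mathlib
import Vale.Agent.P017.H390.Gen

set_option autoImplicit false

namespace Vale.Agent.P017.H390

open Vale.Agent.P017.H524 (SqMod)

/-- first residue condition -/
def RA (d : ℕ) : Prop := ∀ t a b : ℕ, (t = 1 ∨ (t = 2 ∧ d % 4 = 1)) → a * b = d →
  SqMod ((t : ℤ) * a) b → SqMod ((t : ℤ) * b) a → t = 1 ∧ (a = 1 ∨ b = 1)

/-- second residue condition -/
def RB (d : ℕ) : Prop := ∀ b c : ℤ, b * c = -(d : ℤ) →
  ((d % 4 = 3 ∧ b % 4 = 1) ∨ (d % 4 ≠ 3 ∧ b % 8 = 1)) → SqMod b c → SqMod c b → b = 1 ∨ c = 1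

lemma sq_zmod2 (x : ZMod 2) : IsSquare x := by
  revert x
  intro x
  have : x = 0 ∨ x = 1 := by revert x; decide
  rcases this with rfl | rfl
  · exact ⟨0, by decide⟩
  · exact ⟨1, by decide⟩

theorem HA_gen {d : ℕ} (hd0 : 0 < d) (hsf : Squarefree d) (h5 : d % 5 ≠ 1 ∧ d % 5 ≠ 4)
    (hRA : RA d) : ∀ m e n : ℤ, Sol d m e n → ∃ r : ℤ, m = r ^ 2 ∨ m = d * r ^ 2 := by
  have hdZ : 0 < (d : ℤ) := by exact_mod_cast hd0
  have hsfZ : Squarefree (d : ℤ) := Int.squarefree_natCast.mpr hsf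
  have hnsq : ∀ q : ℕ, q.Prime → ¬ (q : ℤ) * q ∣ (d : ℤ) := by
    intro q hq' h0
    exact (Nat.prime_iff_prime_int.mp hq').not_isUnit (hsfZ _ h0)
  intro m e n hS
  obtain ⟨b, r, n1, hbr, hr0, hstar, hb0, hbsf, hq, h1, h2⟩ := stepA0 hS hdZ hsfZ
  -- the primes dividing `b`
  have hq2d : ∀ q : ℤ, Prime q → q ∣ b → q ∣ 2 ∨ q ∣ (d : ℤ) := by
    intro q hq' hqb
    rcases hq'.dvd_or_dvd (hq q hq' hqb) with h | h
    · rcases hq'.dvd_or_dvd h with h | h
      · exact Or.inl h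
      · right
        have hass := hq'.associated_of_dvd p5 h
        by_cases h5d : 5 ∣ d
        · exact hass.dvd.trans (by exact_mod_cast h5d)
        · exfalso
          refine five_kill hS.cop hbr hstar hbsf ?_ (hass.symm.dvd.trans hqb)
          have h6 : d % 5 = 2 ∨ d % 5 = 3 := by
            obtain ⟨h51, h54⟩ := h5
            clear * - h51 h54 h5d
            omega
          rcases h6 with h6 | h6
          · left; exact_mod_cast z5 (k := 2) h6
          · right; exact_mod_cast z5 (k := 3) h6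
    · exact Or.inr h
  -- local squares
  have hsq1 : ∀ q : ℕ, q.Prime → (q : ℤ) ∣ d → ¬ (q : ℤ) ∣ b → IsSquare ((b : ℤ) : ZMod q) := by
    intro q hq' hqd hqb
    by_cases hq2 : q = 2
    · subst hq2; exact sq_zmod2 _
    by_cases hq5 : q = 5
    · subst hq5
      obtain ⟨d', hd'⟩ := hqd
      have hd'5 : ¬ (5 : ℤ) ∣ d' := by
        rintro ⟨x, hx⟩
        exact hnsq 5 Nat.prime_five ⟨x, by rw [hd', hx]; push_cast; ring⟩
      have hd'' : (d : ℤ) = 5 * d' := by exact_mod_cast hd'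
      rw [hd''] at hstar
      exact five_i hS.cop hbr hstar hd'5 (by exact_mod_cast hqb)
    exact h1 q hq' hq2 hq5 hqd hqb
  have hsq2 : ∀ q : ℕ, q.Prime → ∀ β d' : ℤ, b = q * β → (d : ℤ) = q * d' →
      IsSquare ((β * d' : ℤ) : ZMod q) := by
    intro q hq' β d' hbβ hdd
    by_cases hq2 : q = 2
    · subst hq2; exact sq_zmod2 _
    by_cases hq5 : q = 5
    · subst hq5
      have hd'5 : ¬ (5 : ℤ) ∣ d' := by
        rintro ⟨x, hx⟩
        exact hnsq 5 Nat.prime_five ⟨x, by rw [hdd, hx]; push_cast; ring⟩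
      have hd'' : (d : ℤ) = 5 * d' := by exact_mod_cast hdd
      have hbβ' : b = 5 * β := by exact_mod_cast hbβ
      rw [hd''] at hstar
      exact five_ii hS.cop hbr hstar hd'5 hbβ' (not_dvd_of_sqf hbsf p5 hbβ')
    exact h2 q hq' hq2 hq5 β d' hbβ hdd
  refine ⟨r, ?_⟩
  by_cases hbd : ∀ q : ℤ, Prime q → q ∣ b → q ∣ (d : ℤ)
  · -- `b ∣ d`
    obtain ⟨M, hM⟩ := dvd_of_primes hbsf hdZ.ne' hbd
    have hM0 : 0 < M := by
      by_contra h0
      have := mul_nonpos_of_nonneg_of_nonpos hb0.le (not_lt.mp h0)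
      linarith
    obtain ⟨m', rfl⟩ : ∃ m' : ℕ, b = m' := ⟨b.toNat, (Int.toNat_of_nonneg hb0.le).symm⟩
    obtain ⟨M', rfl⟩ : ∃ M' : ℕ, M = M' := ⟨M.toNat, (Int.toNat_of_nonneg hM0.le).symm⟩
    have hmM : m' * M' = d := by exact_mod_cast hM.symm
    have c1 : SqMod (((1 : ℕ) : ℤ) * m') M' := by
      intro q hq' hqM
      rw [Nat.cast_one, one_mul]
      refine hsq1 q hq' (hqM.trans ⟨m', by rw [hM]; ring⟩) ?_
      rintro ⟨x, hx⟩
      obtain ⟨y, hy⟩ := hqM
      exact hnsq q hq' ⟨x * y, by rw [hM, hx, hy]; ring⟩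
    have c2 : SqMod (((1 : ℕ) : ℤ) * M') m' := by
      intro q hq' hqm
      rw [Nat.cast_one, one_mul]
      obtain ⟨β, hβ⟩ := hqm
      have hqβ : ¬ ((q : ℕ) : ℤ) ∣ β := by
        rintro ⟨x, hx⟩
        exact hnsq q hq' ⟨x * M', by rw [hM, hβ, hx]; ring⟩
      refine sq_div hq' hqβ ?_
      exact hsq2 q hq' β (β * M') hβ (by rw [hM, hβ]; ring)
    rcases (hRA 1 m' M' (Or.inl rfl) hmM c1 c2).2 with h | h
    · left; rw [hbr, h]; push_cast; ring
    · right; rw [hbr, ← hmM, h]; push_cast; ring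
  · -- `2 ∣ b`, `d` odd
    exfalso
    push Not at hbd
    obtain ⟨q0, hq0, hq0b, hq0d⟩ := hbd
    have hq02 : q0 ∣ 2 := (hq2d q0 hq0 hq0b).resolve_right hq0d
    have hass0 := hq0.associated_of_dvd p2 hq02
    have h2b : (2 : ℤ) ∣ b := hass0.symm.dvd.trans hq0b
    have h2d : ¬ (2 : ℤ) ∣ d := fun h0 => hq0d (hass0.dvd.trans h0)
    have h2d' : d % 2 = 1 := by
      rcases Nat.mod_two_eq_zero_or_one d with h | h
      · exact absurd (by exact_mod_cast Nat.dvd_of_mod_eq_zero h) h2d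
      · exact h
    have hd4 : d % 4 = 1 := by
      by_contra hd4
      have h8 : d % 8 = 3 ∨ d % 8 = 7 := by
        clear * - hd4 h2d'
        omega
      rcases h8 with h | h
      · exact two_kill3 hS.cop hbr hstar hbsf (by exact_mod_cast z8 (k := 3) h) h2b
      · exact two_kill7 hS.cop hbr hstar hbsf (by exact_mod_cast z8 (k := 7) h) h2b
    obtain ⟨β, hβ⟩ := h2b
    have h2β := not_dvd_of_sqf hbsf p2 hβ
    have hβsf : Squarefree β := hbsf.squarefree_of_dvd ⟨2, by rw [hβ]; ring⟩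
    have hβ0 : 0 < β := by linarith
    have hβq : ∀ q : ℤ, Prime q → q ∣ β → q ∣ (d : ℤ) := by
      intro q hq' hqβ
      rcases hq2d q hq' (by rw [hβ]; exact Dvd.dvd.mul_left hqβ _) with h | h
      · exact absurd ((hq'.associated_of_dvd p2 h).symm.dvd.trans hqβ) h2β
      · exact h
    obtain ⟨M, hM⟩ := dvd_of_primes hβsf hdZ.ne' hβq
    have hM0 : 0 < M := by
      by_contra h0
      have := mul_nonpos_of_nonneg_of_nonpos hβ0.le (not_lt.mp h0)
      linarith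
    obtain ⟨m', rfl⟩ : ∃ m' : ℕ, β = m' := ⟨β.toNat, (Int.toNat_of_nonneg hβ0.le).symm⟩
    obtain ⟨M', rfl⟩ : ∃ M' : ℕ, M = M' := ⟨M.toNat, (Int.toNat_of_nonneg hM0.le).symm⟩
    have hmM : m' * M' = d := by exact_mod_cast hM.symm
    have c1 : SqMod (((2 : ℕ) : ℤ) * m') M' := by
      intro q hq' hqM
      have hqd : (q : ℤ) ∣ d := hqM.trans ⟨m', by rw [hM]; ring⟩
      have h3 : IsSquare ((b : ℤ) : ZMod q) := by
        refine hsq1 q hq' hqd ?_
        rw [hβ]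
        intro h0
        rcases (Nat.prime_iff_prime_int.mp hq').dvd_or_dvd h0 with h4 | h4
        · have h5 : Associated (q : ℤ) 2 := (Nat.prime_iff_prime_int.mp hq').associated_of_dvd p2 h4
          exact h2d (h5.symm.dvd.trans hqd)
        · obtain ⟨x, hx⟩ := h4
          obtain ⟨y, hy⟩ := hqM
          exact hnsq q hq' ⟨x * y, by rw [hM, hx, hy]; ring⟩
      rw [hβ] at h3
      exact_mod_cast h3
    have c2 : SqMod (((2 : ℕ) : ℤ) * M') m' := by
      intro q hq' hqm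
      obtain ⟨β', hβ'⟩ := hqm
      have hqβ : ¬ ((q : ℕ) : ℤ) ∣ β' := by
        rintro ⟨x, hx⟩
        exact hnsq q hq' ⟨x * M', by rw [hM, hβ', hx]; ring⟩
      refine sq_div hq' hqβ ?_
      have h3 := hsq2 q hq' (2 * β') (β' * M') (by rw [hβ, hβ']; ring) (by rw [hM, hβ']; ring)
      have e : β' * (β' * (((2 : ℕ) : ℤ) * M')) = 2 * β' * (β' * M') := by push_cast; ring
      rw [e]; exact h3
    have := (hRA 2 m' M' (Or.inr ⟨rfl, hd4⟩) hmM c1 c2).1
    omega

lemma unit_dec : ∀ b c : ZMod 8, (b = 1 ∨ b = 3 ∨ b = 5 ∨ b = 7) → b * c = b → c = 1 := by decide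

lemma mod8_of_cast {c : ℤ} (h : (c : ZMod 8) = 1) : c % 8 = 1 := by
  have h1 : ((c : ℤ) : ZMod 8) = ((1 : ℤ) : ZMod 8) := by rw [h]; norm_num
  rw [ZMod.intCast_eq_intCast_iff] at h1
  exact h1

theorem HB_gen {d : ℕ} (hd0 : 0 < d) (hsf : Squarefree d) (h3 : d % 3 ≠ 1)
    (hRB : RB d) : ∀ r e n : ℤ, Sol d (r ^ 2) e n →
      ∃ s : ℤ, r ^ 2 - 16 * d * e ^ 2 = s ^ 2 ∨ r ^ 2 - 16 * d * e ^ 2 = -d * s ^ 2 := by
  have hdZ : 0 < (d : ℤ) := by exact_mod_cast hd0
  have hsfZ : Squarefree (d : ℤ) := Int.squarefree_natCast.mpr hsf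
  have hnsq : ∀ q : ℕ, q.Prime → ¬ (q : ℤ) * q ∣ (d : ℤ) := by
    intro q hq' h0
    exact (Nat.prime_iff_prime_int.mp hq').not_isUnit (hsfZ _ h0)
  intro r e n hS
  obtain ⟨b, s, n2, hbs, hs0, hn2, hbsf, hq, h1, h2⟩ := stepB0 hS hsfZ
  have hqd : ∀ q : ℤ, Prime q → q ∣ b → q ∣ (d : ℤ) := by
    intro q hq' hqb
    rcases hq'.dvd_or_dvd (hq q hq' hqb) with h | h
    · have hass := hq'.associated_of_dvd p3 h
      by_cases h3d : 3 ∣ d
      · exact hass.dvd.trans (by exact_mod_cast h3d)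
      · exfalso
        have h6 : d % 3 = 2 := by
          clear * - h3 h3d
          omega
        exact three_kill hS.cop hbs (by exact_mod_cast z3 (k := 2) h6) (hass.symm.dvd.trans hqb)
    · exact h
  obtain ⟨c, hc⟩ := dvd_of_primes hbsf hdZ.ne' hqd
  have hmul : b * (-c) = -(d : ℤ) := by rw [hc]; ring
  -- residues
  have c1 : SqMod b (-c) := by
    intro q hq' hqc
    by_cases hq2 : q = 2
    · subst hq2; exact sq_zmod2 _
    have hqc' : (q : ℤ) ∣ c := (dvd_neg).mp hqc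
    refine h1 q hq' hq2 (hqc'.trans ⟨b, by rw [hc]; ring⟩) ?_
    rintro ⟨x, hx⟩
    obtain ⟨y, hy⟩ := hqc'
    exact hnsq q hq' ⟨x * y, by rw [hc, hx, hy]; ring⟩
  have c2 : SqMod (-c) b := by
    intro q hq' hqb
    by_cases hq2 : q = 2
    · subst hq2; exact sq_zmod2 _
    obtain ⟨β, hβ⟩ := hqb
    have hqβ : ¬ ((q : ℕ) : ℤ) ∣ β := by
      rintro ⟨x, hx⟩
      exact hnsq q hq' ⟨x * c, by rw [hc, hβ, hx]; ring⟩
    refine sq_div hq' hqβ ?_
    have h3 := h2 q hq' hq2 β (β * c) hβ (by rw [hc, hβ]; ring)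
    have e : β * (β * -c) = -(β * (β * c)) := by ring
    rw [e]
    exact h3
  -- the condition at `2`
  have hkey : ((d % 4 = 3 ∧ b % 4 = 1) ∨ (d % 4 ≠ 3 ∧ b % 8 = 1)) ∨
      (d % 4 ≠ 3 ∧ (-c) % 8 = 1) := by
    rcases Nat.mod_two_eq_zero_or_one d with hd2 | hd2
    · -- even
      have hd4 : d % 4 ≠ 3 := by clear * - hd2; omega
      obtain ⟨p, hp⟩ := Nat.dvd_of_mod_eq_zero hd2
      have h2p : ¬ (2 : ℤ) ∣ (p : ℤ) := by
        rintro ⟨x, hx⟩
        exact hnsq 2 Nat.prime_two ⟨x, by rw [hp]; push_cast; rw [hx]; ring⟩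
      have hdp : (d : ℤ) = 2 * p := by rw [hp]; push_cast; ring
      have hbs' := hbs
      have hn2' := hn2
      rw [hdp] at hbs' hn2'
      rcases two_even hS.cop h2p hbs' hn2' hbsf with h | ⟨c0, hc0, hc0'⟩
      · exact Or.inl (Or.inr ⟨hd4, mod8_of_cast h⟩)
      · right
        refine ⟨hd4, mod8_of_cast ?_⟩
        have h2c0 := not_dvd_of_sqf hbsf p2 hc0
        have h5 : c0 * (-c) = -(p : ℤ) := by
          have : (2 : ℤ) * (c0 * (-c)) = 2 * (-(p : ℤ)) := by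
            have := hmul
            rw [hc0, hdp] at this
            linear_combination this
          exact mul_left_cancel₀ (by norm_num) this
        refine unit_dec (c0 : ZMod 8) _ (odd_cast8 h2c0) ?_
        have h6 := congrArg (Int.cast : ℤ → ZMod 8) h5
        rw [hc0']
        rw [← hc0']
        push_cast at h6 hc0' ⊢
        rw [h6, hc0']
    · -- odd
      have h2d : ¬ (2 : ℤ) ∣ (d : ℤ) := by
        intro h0
        have h0' : 2 ∣ d := by exact_mod_cast h0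
        have := Nat.mod_eq_zero_of_dvd h0'
        rw [hd2] at this
        exact one_ne_zero this
      have h2b : ¬ (2 : ℤ) ∣ b := fun h0 => h2d (hqd 2 p2 h0)
      by_cases hd4 : d % 4 = 3
      · left; left
        refine ⟨hd4, two_mod3 hS.cop hbs hn2 h2b ?_⟩
        have h8 : d % 8 = 3 ∨ d % 8 = 7 := by clear * - hd4; omega
        rcases h8 with h | h
        · left; exact_mod_cast z8 (k := 3) h
        · right; exact_mod_cast z8 (k := 7) h
      · have h8 : d % 8 = 1 ∨ d % 8 = 5 := by clear * - hd4 hd2; omega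
        have h8' : ((d : ℤ) : ZMod 8) = 1 ∨ ((d : ℤ) : ZMod 8) = 5 := by
          rcases h8 with h | h
          · left; exact_mod_cast z8 (k := 1) h
          · right; exact_mod_cast z8 (k := 5) h
        rcases two_mod1 hS.cop hbs hn2 h2b h8' with h | h
        · exact Or.inl (Or.inr ⟨hd4, mod8_of_cast h⟩)
        · right
          refine ⟨hd4, mod8_of_cast ?_⟩
          refine unit_dec (b : ZMod 8) _ (odd_cast8 h2b) ?_
          have h6 := congrArg (Int.cast : ℤ → ZMod 8) hmul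
          push_cast at h6 h ⊢
          rw [h6, h]
  refine ⟨s, ?_⟩
  have hfin : b = 1 ∨ -c = 1 := by
    rcases hkey with h | h
    · exact hRB b (-c) hmul h c1 c2
    · exact (hRB (-c) b (by rw [mul_comm]; exact hmul) (Or.inr h) c2 c1).symm
  rcases hfin with h | h
  · left; rw [hbs, h, one_mul]
  · right
    have : b = -d := by
      rw [h, mul_one] at hmul
      exact hmul
    rw [hbs, this]

theorem condG_gen {d : ℕ} (hd0 : 0 < d) (hsf : Squarefree d) (h3 : d % 3 ≠ 1)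
    (h5 : d % 5 ≠ 1 ∧ d % 5 ≠ 4) (hRA : RA d) (hRB : RB d) : CondG (d : ℤ) :=
  ⟨by exact_mod_cast hd0, HA_gen hd0 hsf h5 hRA, HB_gen hd0 hsf h3 hRB⟩

end Vale.Agent.P017.H390
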