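import Mathlib

set_option autoImplicit false

open NumberField

namespace Vale.Agent.P017.H390

/-- the ramified ideal -/
theorem ram_sq {R : Type*} [CommRing R] {a b : ℕ} (hab : Nat.Coprime a b) {α : R}
    (hα : α ^ 2 = -((a : R) * (b : R))) :
    (Ideal.span {(a : R), α}) ^ 2 = Ideal.span {(a : R)} := by
  have hcop : IsCoprime (a : ℤ) (b : ℤ) := Nat.isCoprime_iff_coprime.mpr hab
  obtain ⟨u, v, huv⟩ := hcop
  have huv' : (u : R) * a + v * b = 1 := by
    have := congrArg (Int.cast : ℤ → R) huv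
    push_cast at this
    exact this
  apply le_antisymm
  · rw [sq, Ideal.mul_le]
    intro r hr s hs
    rw [Ideal.mem_span_pair] at hr hs
    obtain ⟨r1, r2, rfl⟩ := hr
    obtain ⟨s1, s2, rfl⟩ := hs
    rw [Ideal.mem_span_singleton]
    exact ⟨r1 * s1 * a + r1 * s2 * α + r2 * s1 * α - r2 * s2 * b, by
      linear_combination (r2 * s2) * hα⟩
  · rw [Ideal.span_singleton_le_iff_mem, sq]
    have h1 : (a : R) * a ∈ Ideal.span {(a : R), α} * Ideal.span {(a : R), α} :=
      Ideal.mul_mem_mul (Ideal.subset_span (by simp)) (Ideal.subset_span (by simp))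
    have h2 : α * α ∈ Ideal.span {(a : R), α} * Ideal.span {(a : R), α} :=
      Ideal.mul_mem_mul (Ideal.subset_span (by simp)) (Ideal.subset_span (by simp))
    have h3 := Ideal.sub_mem _ (Ideal.mul_mem_left _ (u : R) h1) (Ideal.mul_mem_left _ (v : R) h2)
    have e : (u : R) * (a * a) - v * (α * α) = a := by
      linear_combination (a : R) * huv' - (v : R) * hα
    rwa [e] at h3

/-- an ideal of norm a times a square -/
theorem ideal_sq {R : Type*} [CommRing R] [IsDedekindDomain R] {A : Ideal R}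
    {a z ξ ξ' : R} (ha : a ≠ 0) (hA : A ^ 2 = Ideal.span {a}) (hξ : ξ ∈ A) (hξ' : ξ' ∈ A)
    (h : ξ * ξ' = a * z ^ 2) (hc : IsCoprime z (ξ + ξ')) :
    ∃ J : Ideal R, A * J ^ 2 = Ideal.span {ξ} := by
  obtain ⟨B, hB⟩ := Ideal.dvd_span_singleton.mpr hξ
  obtain ⟨B', hB'⟩ := Ideal.dvd_span_singleton.mpr hξ'
  have hBB : B * B' = (Ideal.span {z}) ^ 2 := by
    have h1 : Ideal.span {a} * (B * B') = Ideal.span {a} * (Ideal.span {z}) ^ 2 := by
      rw [← hA, Ideal.span_singleton_pow, hA, Ideal.span_singleton_mul_span_singleton, ← h,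
        ← Ideal.span_singleton_mul_span_singleton, hB, hB', ← hA]
      ring
    refine mul_left_cancel₀ (fun h0 => ha ?_) h1
    exact Ideal.span_singleton_eq_bot.mp h0
  have hcop : IsCoprime B B' := by
    rw [Ideal.isCoprime_iff_exists]
    have hξB : ξ ∈ B := by
      have : Ideal.span {ξ} ≤ B := by rw [hB]; exact Ideal.mul_le_right
      exact this (Ideal.mem_span_singleton_self ξ)
    have hξB' : ξ' ∈ B' := by
      have : Ideal.span {ξ'} ≤ B' := by rw [hB']; exact Ideal.mul_le_right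
      exact this (Ideal.mem_span_singleton_self ξ')
    have hzB : z ^ 2 ∈ B := by
      have : (Ideal.span {z}) ^ 2 ≤ B := by rw [← hBB]; exact Ideal.mul_le_left
      exact this (Ideal.pow_mem_pow (Ideal.mem_span_singleton_self z) 2)
    obtain ⟨u, v, huv⟩ := (hc.pow_left (m := 2))
    refine ⟨u * z ^ 2 + v * ξ, B.add_mem (B.mul_mem_left _ hzB) (B.mul_mem_left _ hξB),
      v * ξ', B'.mul_mem_left _ hξB', ?_⟩
    rw [← huv]; ring
  let _ : GCDMonoid (Ideal R) := UniqueFactorizationMonoid.toGCDMonoid _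
  obtain ⟨J, hJ⟩ := exists_eq_pow_of_mul_eq_pow_of_coprime hcop hBB
  exact ⟨J, by rw [← hJ, hB]⟩

end Vale.Agent.P017.H390
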