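import Mathlib
import Vale.Agent.P017.H390.Princ

set_option autoImplicit false

open NumberField

namespace Vale.Agent.P017.H390

/-- a principal ideal whose square is generated by the natural number `a` -/
theorem princ_core {K : Type*} [Field K] [NumberField K] (h2 : Module.finrank ℚ K = 2)
    {d : ℕ} (hd : 0 < d) {α : 𝓞 K} (hα : α ^ 2 = -(d : 𝓞 K)) {a : ℕ} (ha0 : a ≠ 0)
    {I : Ideal (𝓞 K)} (hI : I ^ 2 = Ideal.span {(a : 𝓞 K)})
    (hp : I.IsPrincipal) : ∃ (s t : ℚ) (k : ℤ), 4 * s ^ 2 = (2 + k) * a ∧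
      4 * (d * t ^ 2) = (2 - k) * a ∧ (k = -2 ∨ k = -1 ∨ k = 0 ∨ k = 1 ∨ k = 2) := by
  obtain ⟨x, hx⟩ := hp
  have hx : I = Ideal.span {x} := hx
  rw [hx, Ideal.span_singleton_pow, Ideal.span_singleton_eq_span_singleton] at hI
  obtain ⟨u, hu⟩ := hI.symm
  -- pass to `K`
  obtain ⟨δ, hδdef⟩ : ∃ δ : K, δ = (α : K) := ⟨_, rfl⟩
  have hδ : δ ^ 2 = -((d : ℤ) : K) := by
    have := congrArg (algebraMap (𝓞 K) K) hα
    rw [map_pow, map_neg, map_natCast] at this
    rw [hδdef]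
    push_cast
    exact this
  have hd0 : (0 : ℤ) < (d : ℤ) := by exact_mod_cast hd
  obtain ⟨σ, hσ⟩ := exists_conj hd0 h2 hδ
  obtain ⟨s, t, hst⟩ := exists_decomp hd0 h2 hδ (x : K)
  obtain ⟨U, hU⟩ : ∃ U : K, U = ((u : 𝓞 K) : K) := ⟨_, rfl⟩
  obtain ⟨V, hV⟩ : ∃ V : K, V = (((u⁻¹ : (𝓞 K)ˣ) : 𝓞 K) : K) := ⟨_, rfl⟩
  have hUV : U * V = 1 := by
    rw [hU, hV, ← map_mul, Units.mul_inv, map_one]
  have hUi : IsIntegral ℤ U := by rw [hU]; exact RingOfIntegers.isIntegral_coe _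
  have hVi : IsIntegral ℤ V := by rw [hV]; exact RingOfIntegers.isIntegral_coe _
  have hσUi : IsIntegral ℤ (σ U) := hUi.map (σ.toAlgHom.restrictScalars ℤ)
  have hσVi : IsIntegral ℤ (σ V) := hVi.map (σ.toAlgHom.restrictScalars ℤ)
  have hxU : (x : K) ^ 2 = a * U := by
    have := congrArg (algebraMap (𝓞 K) K) hu
    rw [map_mul, map_pow, map_natCast] at this
    rw [hU]
    exact this.symm
  have hσx : σ (x : K) = algebraMap ℚ K s - algebraMap ℚ K t * δ := by
    rw [hst, map_add, map_mul, AlgEquiv.commutes, AlgEquiv.commutes, hσ]; ring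
  have hσU : (algebraMap ℚ K s - algebraMap ℚ K t * δ) ^ 2 = a * σ U := by
    rw [← hσx, ← map_pow, hxU, map_mul, map_natCast]
  have haK : (a : K) ≠ 0 := by exact_mod_cast ha0
  have haQ : (a : ℚ) ≠ 0 := by exact_mod_cast ha0
  have haQ' : (0 : ℚ) < a := by exact_mod_cast Nat.pos_of_ne_zero ha0
  rw [hst] at hxU
  -- the norm
  obtain ⟨n, hn⟩ : ∃ n : ℚ, n = s ^ 2 + d * t ^ 2 := ⟨_, rfl⟩
  have hnorm : U * σ U = algebraMap ℚ K ((n / a) ^ 2) := by
    have h3 : (a : K) ^ 2 * (U * σ U) = (algebraMap ℚ K n) ^ 2 := by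
      have h4 : (a : K) ^ 2 * (U * σ U) = (a * U) * (a * σ U) := by ring
      rw [h4, ← hxU, ← hσU, hn]
      simp only [map_add, map_mul, map_pow, map_natCast]
      rw [← mul_pow]
      congr 1
      push_cast at hδ
      linear_combination (-(algebraMap ℚ K t) ^ 2) * hδ
    rw [div_pow, map_div₀, map_pow, map_pow, map_natCast, eq_div_iff (pow_ne_zero 2 haK), ← h3]
    ring
  have hnormV : V * σ V = algebraMap ℚ K (((n / a) ^ 2)⁻¹) := by
    have h3 : (U * σ U) * (V * σ V) = 1 := by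
      have : (U * σ U) * (V * σ V) = (U * V) * σ (U * V) := by rw [map_mul]; ring
      rw [this, hUV, map_one, mul_one]
    rw [map_inv₀, ← hnorm]
    exact eq_inv_of_mul_eq_one_right h3
  obtain ⟨k1, hk1⟩ := int_of_integral (K := K) (w := (n / a) ^ 2) (by
    rw [← hnorm]; exact hUi.mul hσUi)
  obtain ⟨k2, hk2⟩ := int_of_integral (K := K) (w := ((n / a) ^ 2)⁻¹) (by
    rw [← hnormV]; exact hVi.mul hσVi)
  have hn0 : 0 ≤ n := by rw [hn]; positivity
  have hk1' : (n / a) ^ 2 = 1 := by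
    have hne : ((n / a) ^ 2 : ℚ) ≠ 0 := by
      intro h0
      have h3 : U * σ U = 0 := by rw [hnorm, h0, map_zero]
      have h4 : (U * σ U) * (V * σ V) = 1 := by
        have : (U * σ U) * (V * σ V) = (U * V) * σ (U * V) := by rw [map_mul]; ring
        rw [this, hUV, map_one, mul_one]
      rw [h3, zero_mul] at h4
      exact zero_ne_one h4
    have h5 : (k1 : ℚ) * k2 = 1 := by rw [hk1, hk2, mul_inv_cancel₀ hne]
    have h6 : k1 * k2 = 1 := by exact_mod_cast h5
    have h7 : 0 ≤ k1 := by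
      have : (0 : ℚ) ≤ k1 := by rw [hk1]; positivity
      exact_mod_cast this
    rcases Int.isUnit_iff.mp (IsUnit.of_mul_eq_one _ h6) with h8 | h8
    · rw [← hk1, h8]; norm_num
    · omega
  have hna : n = a := by
    have h3 : n / a = 1 := by
      have h4 : (0 : ℚ) ≤ n / a := div_nonneg hn0 haQ'.le
      nlinarith
    rwa [div_eq_one_iff_eq haQ] at h3
  -- the trace
  have htr : U + σ U = algebraMap ℚ K (2 * (s ^ 2 - d * t ^ 2) / a) := by
    rw [map_div₀, map_natCast, eq_div_iff haK]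
    have h3 : (U + σ U) * a = a * U + a * σ U := by ring
    rw [h3, ← hxU, ← hσU]
    simp only [map_sub, map_mul, map_pow, map_natCast, map_ofNat]
    push_cast at hδ
    linear_combination (2 * (algebraMap ℚ K t) ^ 2) * hδ
  obtain ⟨k, hk⟩ := int_of_integral (K := K) (w := 2 * (s ^ 2 - d * t ^ 2) / a) (by
    rw [← htr]; exact hUi.add hσUi)
  rw [eq_div_iff haQ] at hk
  have hs4 : 4 * s ^ 2 = (2 + k) * a := by linear_combination 2 * (hn.symm.trans hna) - hk
  have ht4 : 4 * (d * t ^ 2) = (2 - k) * a := by linear_combination 2 * (hn.symm.trans hna) + hk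
  have hdQ : (0 : ℚ) < d := by exact_mod_cast hd
  have hk_lo : -2 ≤ k := by
    have h3 : (0 : ℚ) ≤ (2 + k) * a := by rw [← hs4]; positivity
    have h4 : (0 : ℚ) ≤ 2 + k := nonneg_of_mul_nonneg_left h3 haQ'
    have h5 : (-2 : ℚ) ≤ k := by linarith
    exact_mod_cast h5
  have hk_hi : k ≤ 2 := by
    have h3 : (0 : ℚ) ≤ (2 - k) * a := by rw [← ht4]; positivity
    have h4 : (0 : ℚ) ≤ 2 - k := nonneg_of_mul_nonneg_left h3 haQ'
    have h5 : (k : ℚ) ≤ 2 := by linarith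
    exact_mod_cast h5
  have hcases : k = -2 ∨ k = -1 ∨ k = 0 ∨ k = 1 ∨ k = 2 := by omega
  exact ⟨s, t, k, hs4, ht4, hcases⟩

/-- for `d ≡ 1 (mod 4)` an ideal with square `(2 a)`, `a ∣ d`, is not principal -/
theorem princ_two {K : Type*} [Field K] [NumberField K] (h2 : Module.finrank ℚ K = 2)
    {d : ℕ} (hd : 1 < d) (hd4 : d % 4 = 1) (hsf : Squarefree d) {α : 𝓞 K}
    (hα : α ^ 2 = -(d : 𝓞 K)) {a b : ℕ} (hab : a * b = d) {I : Ideal (𝓞 K)}
    (hI : I ^ 2 = Ideal.span {(2 * a : 𝓞 K)}) : ¬ I.IsPrincipal := by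
  intro hp
  have ha0 : a ≠ 0 := by
    rintro rfl
    rw [zero_mul] at hab
    omega
  have hasf : Squarefree a := hsf.squarefree_of_dvd ⟨b, hab.symm⟩
  have hbsf : Squarefree b := hsf.squarefree_of_dvd ⟨a, by rw [← hab]; ring⟩
  have hodd : ∀ c : ℕ, c ∣ d → Nat.Coprime 2 c := by
    intro c hc
    rw [Nat.Prime.coprime_iff_not_dvd Nat.prime_two]
    intro h0
    have h1 := h0.trans hc
    omega
  have hasf2 : Squarefree (2 * a) :=
    (Nat.squarefree_mul (hodd a ⟨b, hab.symm⟩)).mpr ⟨Nat.prime_two.squarefree, hasf⟩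
  have hbsf2 : Squarefree (2 * b) :=
    (Nat.squarefree_mul (hodd b ⟨a, by rw [← hab]; ring⟩)).mpr ⟨Nat.prime_two.squarefree, hbsf⟩
  have hd0 : 0 < d := by omega
  obtain ⟨s, t, k, hs4, ht4, hcases⟩ := princ_core h2 hd0 hα (a := 2 * a) (by omega)
    (by rw [hI]; push_cast; rfl) hp
  push_cast at hs4 ht4
  have haQ : (a : ℚ) ≠ 0 := by exact_mod_cast ha0
  have hd' : (d : ℚ) = a * b := by exact_mod_cast hab.symm
  have hprod : (d * (2 * s * t / a)) ^ 2 = d * ((2 + k) * (2 - k)) := by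
    have h3 : (4 * s ^ 2) * (4 * (d * t ^ 2)) = ((2 + k) * (2 * a)) * ((2 - k) * (2 * a)) := by
      rw [hs4, ht4]
    rw [mul_div_assoc', div_pow, div_eq_iff (pow_ne_zero 2 haQ)]
    linear_combination (d : ℚ) / 4 * h3
  rcases hcases with rfl | rfl | rfl | rfl | rfl
  · have h3 : (b * t) ^ 2 = ((2 * b : ℕ) : ℚ) := by
      have h4 : (a : ℚ) * (b * t ^ 2) = a * 2 := by
        rw [hd'] at ht4
        push_cast at ht4
        linear_combination ht4 / 4
      have h5 := mul_left_cancel₀ haQ h4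
      push_cast
      linear_combination (b : ℚ) * h5
    have h6 := sqf_sq hbsf2 h3
    omega
  · have := sqf_sq3 hsf (q := d * (2 * s * t / a)) (by rw [hprod]; push_cast; ring)
    omega
  · have h3 : (d * (2 * s * t / a) / 2) ^ 2 = (d : ℚ) := by
      rw [div_pow, hprod]; push_cast; ring
    have := sqf_sq hsf h3
    omega
  · have := sqf_sq3 hsf (q := d * (2 * s * t / a)) (by rw [hprod]; push_cast; ring)
    omega
  · have h3 : s ^ 2 = ((2 * a : ℕ) : ℚ) := by
      push_cast at hs4 ⊢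
      linear_combination hs4 / 4
    have h6 := sqf_sq hasf2 h3
    omega

end Vale.Agent.P017.H390
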