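import Mathlib
import Vale.Agent.P017.H390.IdealSq
import Vale.Agent.P017.H390.PrincTwo

set_option autoImplicit false

open NumberField

namespace Vale.Agent.P017.H390

/-- the class group argument: `[A]² = 1`, `[A] [J]² = 1` and no element of order four -/
theorem principal_of_no_four {R : Type*} [CommRing R] [IsDedekindDomain R]
    (h4 : ∀ c : ClassGroup R, c ^ 4 = 1 → c ^ 2 = 1) {A J : Ideal R} {n ξ : R} (hn : n ≠ 0)
    (hξ : ξ ≠ 0) (hA : A ^ 2 = Ideal.span {n}) (hJ : A * J ^ 2 = Ideal.span {ξ}) :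
    A.IsPrincipal := by
  have hn' : Ideal.span {n} ≠ (0 : Ideal R) := fun h0 => hn (Ideal.span_singleton_eq_bot.mp h0)
  have hξ' : Ideal.span {ξ} ≠ (0 : Ideal R) := fun h0 => hξ (Ideal.span_singleton_eq_bot.mp h0)
  have hA0 : A ≠ 0 := by
    rintro rfl
    apply hn'
    rw [← hA]; exact zero_pow two_ne_zero
  have hJ0 : J ≠ 0 := by
    rintro rfl
    apply hξ'
    rw [← hJ, zero_pow two_ne_zero, mul_zero]
  obtain ⟨A', hA'⟩ : ∃ A' : nonZeroDivisors (Ideal R), (A' : Ideal R) = A :=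
    ⟨⟨A, mem_nonZeroDivisors_iff_ne_zero.mpr hA0⟩, rfl⟩
  obtain ⟨J', hJ'⟩ : ∃ J' : nonZeroDivisors (Ideal R), (J' : Ideal R) = J :=
    ⟨⟨J, mem_nonZeroDivisors_iff_ne_zero.mpr hJ0⟩, rfl⟩
  have key : ∀ I : nonZeroDivisors (Ideal R), ClassGroup.mk0 I = 1 ↔ (I : Ideal R).IsPrincipal :=
    fun I => ClassGroup.mk0_eq_one_iff I.2
  have h1 : (ClassGroup.mk0 A') ^ 2 = 1 := by
    rw [← map_pow, key]
    refine ⟨n, ?_⟩
    rw [SubmonoidClass.coe_pow, hA', hA]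
  have h2 : ClassGroup.mk0 A' * (ClassGroup.mk0 J') ^ 2 = 1 := by
    rw [← map_pow, ← map_mul, key]
    refine ⟨ξ, ?_⟩
    rw [Submonoid.coe_mul, SubmonoidClass.coe_pow, hA', hJ', hJ]
  have h3 : (ClassGroup.mk0 J') ^ 4 = 1 := by
    have h5 : (ClassGroup.mk0 J') ^ 2 = (ClassGroup.mk0 A')⁻¹ := eq_inv_of_mul_eq_one_right h2
    have h6 : (ClassGroup.mk0 J') ^ 4 = ((ClassGroup.mk0 J') ^ 2) ^ 2 := by rw [← pow_mul]
    rw [h6, h5, inv_pow, h1, inv_one]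
  rw [h4 _ h3, mul_one, key, hA'] at h2
  exact h2

/-- a primitive solution of `t z² = a x² + b y²` -/
lemma exists_prim_t {t : ℤ} {a b : ℕ} : ∀ n : ℕ, ∀ x y z : ℤ, z.natAbs = n → z ≠ 0 →
    t * z ^ 2 = a * x ^ 2 + b * y ^ 2 →
    ∃ x' y' z' : ℤ, z' ≠ 0 ∧ t * z' ^ 2 = a * x' ^ 2 + b * y' ^ 2 ∧
      ∀ p : ℤ, Prime p → p ∣ x' → p ∣ y' → p ∣ z' → False := by
  intro n
  induction n using Nat.strong_induction_on with
  | _ n ih =>
    intro x y z hn hz h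
    by_cases hp : ∃ p : ℤ, Prime p ∧ p ∣ x ∧ p ∣ y ∧ p ∣ z
    · obtain ⟨p, hp, ⟨x', rfl⟩, ⟨y', rfl⟩, ⟨z', rfl⟩⟩ := hp
      have hz' : z' ≠ 0 := by rintro rfl; exact hz (mul_zero _)
      have h' : t * z' ^ 2 = a * x' ^ 2 + b * y' ^ 2 := by
        have : p ^ 2 * (t * z' ^ 2) = p ^ 2 * (a * x' ^ 2 + b * y' ^ 2) := by linear_combination h
        exact mul_left_cancel₀ (pow_ne_zero 2 hp.ne_zero) this
      refine ih z'.natAbs ?_ x' y' z' rfl hz' h'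
      rw [← hn, Int.natAbs_mul]
      have h1 : 1 < p.natAbs := (Int.prime_iff_natAbs_prime.mp hp).one_lt
      have h2 : 0 < z'.natAbs := Int.natAbs_pos.mpr hz'
      nlinarith
    · exact ⟨x, y, z, hz, h, fun p hp1 h1 h2 h3 => hp ⟨p, hp1, h1, h2, h3⟩⟩

lemma cop_of_prim_t {t : ℤ} {a b : ℕ} (hsf : Squarefree (a * b)) {x y z : ℤ} (hz : z ≠ 0)
    (h : t * z ^ 2 = a * x ^ 2 + b * y ^ 2)
    (hp : ∀ p : ℤ, Prime p → p ∣ x → p ∣ y → p ∣ z → False) : IsCoprime z (a * x) := by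
  have hab : Nat.Coprime a b := Nat.coprime_of_squarefree_mul hsf
  have hasf : Squarefree (a : ℤ) :=
    Int.squarefree_natCast.mpr (hsf.squarefree_of_dvd ⟨b, rfl⟩)
  have hbsf : Squarefree (b : ℤ) :=
    Int.squarefree_natCast.mpr (hsf.squarefree_of_dvd ⟨a, mul_comm _ _⟩)
  refine isCoprime_of_prime_dvd (fun h0 => hz h0.1) ?_
  intro p hpp hpz hpax
  rcases hpp.dvd_or_dvd hpax with hpa | hpx
  · -- `p ∣ a`
    have hpb : ¬ p ∣ (b : ℤ) := by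
      intro h0
      have h1 : IsCoprime (a : ℤ) (b : ℤ) := Nat.isCoprime_iff_coprime.mpr hab
      exact hpp.not_isUnit (h1.isUnit_of_dvd' hpa h0)
    have hpy : p ∣ y := by
      have h1 : p ∣ b * y ^ 2 := by
        have e : (b : ℤ) * y ^ 2 = t * z ^ 2 - a * x ^ 2 := by rw [h]; ring
        rw [e]
        exact dvd_sub (Dvd.dvd.mul_left (dvd_pow hpz two_ne_zero) _) (Dvd.dvd.mul_right hpa _)
      rcases hpp.dvd_or_dvd h1 with h2 | h2
      · exact absurd h2 hpb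
      · exact hpp.dvd_of_dvd_pow h2
    obtain ⟨a', ha'⟩ := hpa
    have hpa' : ¬ p ∣ a' := by
      rintro ⟨c, rfl⟩
      exact hpp.not_isUnit (hasf p ⟨c, by rw [ha']; ring⟩)
    have hpx : p ∣ x := by
      obtain ⟨z1, hz1⟩ := hpz
      obtain ⟨y1, hy1⟩ := hpy
      have h1 : p * (a' * x ^ 2) = p * (p * (t * z1 ^ 2 - b * y1 ^ 2)) := by
        rw [ha', hz1, hy1] at h
        linear_combination -h
      have h2 := mul_left_cancel₀ hpp.ne_zero h1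
      have h3 : p ∣ a' * x ^ 2 := ⟨_, h2⟩
      rcases hpp.dvd_or_dvd h3 with h4 | h4
      · exact absurd h4 hpa'
      · exact hpp.dvd_of_dvd_pow h4
    exact hp p hpp hpx hpy hpz
  · -- `p ∣ x`
    have hpy : p ∣ y := by
      by_contra hpy
      obtain ⟨z1, hz1⟩ := hpz
      obtain ⟨x1, hx1⟩ := hpx
      have h1 : (b : ℤ) * y ^ 2 = p * (p * (t * z1 ^ 2 - a * x1 ^ 2)) := by
        rw [hz1, hx1] at h
        linear_combination -h
      have h2 : p ∣ (b : ℤ) * y ^ 2 := ⟨_, h1⟩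
      rcases hpp.dvd_or_dvd h2 with h3 | h3
      · obtain ⟨b', hb'⟩ := h3
        have h4 : p * (b' * y ^ 2) = p * (p * (t * z1 ^ 2 - a * x1 ^ 2)) := by
          rw [← h1, hb']; ring
        have h5 : p ∣ b' * y ^ 2 := ⟨_, mul_left_cancel₀ hpp.ne_zero h4⟩
        rcases hpp.dvd_or_dvd h5 with h6 | h6
        · obtain ⟨c, rfl⟩ := h6
          exact hpp.not_isUnit (hbsf p ⟨c, by rw [hb']; ring⟩)
        · exact hpy (hpp.dvd_of_dvd_pow h6)
      · exact hpy (hpp.dvd_of_dvd_pow h3)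
    exact hp p hpp hpx hpy hpz

/-- the ramified prime above `2` for `d ≡ 1 (mod 4)` -/
lemma two_sq {R : Type*} [CommRing R] {α : R} {k : ℤ} (hα : α ^ 2 = -((4 * k + 1 : ℤ) : R)) :
    (Ideal.span {(2 : R), 1 + α}) ^ 2 = Ideal.span {(2 : R)} := by
  push_cast at hα
  apply le_antisymm
  · rw [sq, Ideal.mul_le]
    intro r hr s hs
    rw [Ideal.mem_span_pair] at hr hs
    obtain ⟨r1, r2, rfl⟩ := hr
    obtain ⟨s1, s2, rfl⟩ := hs
    rw [Ideal.mem_span_singleton]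
    exact ⟨2 * r1 * s1 + r1 * s2 * (1 + α) + r2 * s1 * (1 + α) + r2 * s2 * (α - 2 * k), by
      linear_combination (r2 * s2) * hα⟩
  · rw [Ideal.span_singleton_le_iff_mem, sq]
    have m2 : (2 : R) ∈ Ideal.span {(2 : R), 1 + α} := Ideal.subset_span (by simp)
    have mα : (1 + α : R) ∈ Ideal.span {(2 : R), 1 + α} := Ideal.subset_span (by simp)
    have h1 := Ideal.mul_mem_mul m2 m2
    have h2 := Ideal.mul_mem_mul m2 mα
    have h3 := Ideal.mul_mem_mul mα mα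
    have h4 := Ideal.sub_mem _ (Ideal.sub_mem _ h2 h3) (Ideal.mul_mem_left _ (k : R) h1)
    have e : (2 : R) * (1 + α) - (1 + α) * (1 + α) - k * (2 * 2) = 2 := by
      linear_combination -hα
    rwa [e] at h4

lemma par_dec : ∀ a b x y z : ZMod 4, (a = 1 ∧ b = 1) ∨ (a = 3 ∧ b = 3) →
    2 * z ^ 2 = a * x ^ 2 + b * y ^ 2 →
    (x ^ 2 = 0 ∧ y ^ 2 = 0 ∧ z ^ 2 = 0) ∨ (x ^ 2 = 1 ∧ y ^ 2 = 1 ∧ z ^ 2 = 1) := by decide

lemma even_of_sq4 {x : ℤ} (h : (x : ZMod 4) ^ 2 = 0) : (2 : ℤ) ∣ x := by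
  have h1 : ((x ^ 2 : ℤ) : ZMod 4) = 0 := by push_cast; exact h
  rw [ZMod.intCast_zmod_eq_zero_iff_dvd] at h1
  have h2 : (2 : ℤ) ∣ x ^ 2 := Dvd.dvd.trans (by norm_num) h1
  exact Int.prime_two.dvd_of_dvd_pow h2

lemma odd_of_sq4 {x : ℤ} (h : (x : ZMod 4) ^ 2 = 1) : ¬ (2 : ℤ) ∣ x := by
  rintro ⟨k, rfl⟩
  push_cast at h
  generalize (k : ZMod 4) = w at h
  revert w
  decide

/-- no nontrivial solution of `2 z² = a x² + b y²` if there is no class of order four -/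
theorem no_two_of_no_four {K : Type*} [Field K] [NumberField K] (hK : Module.finrank ℚ K = 2)
    {d : ℕ} (hd : 1 < d) (hd4 : d % 4 = 1) (hsf : Squarefree d) {α : 𝓞 K}
    (hα : α ^ 2 = -(d : 𝓞 K)) (h4 : ∀ c : ClassGroup (𝓞 K), c ^ 4 = 1 → c ^ 2 = 1) {a b : ℕ}
    (hab : a * b = d) (hsol : ∃ x y z : ℤ, 2 * z ^ 2 = a * x ^ 2 + b * y ^ 2 ∧ z ≠ 0) : False := by
  obtain ⟨x, y, z, h, hz⟩ := hsol
  obtain ⟨x, y, z, hz, h, hp⟩ := exists_prim_t z.natAbs x y z rfl hz h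
  have hsf' : Squarefree (a * b) := by rw [hab]; exact hsf
  have hcop := cop_of_prim_t hsf' hz h hp
  have hcab : Nat.Coprime a b := Nat.coprime_of_squarefree_mul hsf'
  have ha0 : a ≠ 0 := by
    rintro rfl
    rw [zero_mul] at hab
    omega
  -- parities
  have hab4 : (a % 4 = 1 ∧ b % 4 = 1) ∨ (a % 4 = 3 ∧ b % 4 = 3) := by
    have h1 : a * b % 4 = 1 := by rw [hab]; exact hd4
    rw [Nat.mul_mod] at h1
    have ha : a % 4 < 4 := Nat.mod_lt _ (by norm_num)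
    have hb : b % 4 < 4 := Nat.mod_lt _ (by norm_num)
    generalize a % 4 = u at *
    generalize b % 4 = v at *
    interval_cases u <;> interval_cases v <;> omega
  have hab4' : ((a : ZMod 4) = 1 ∧ (b : ZMod 4) = 1) ∨ ((a : ZMod 4) = 3 ∧ (b : ZMod 4) = 3) := by
    rcases hab4 with ⟨h1, h2⟩ | ⟨h1, h2⟩
    · left
      exact ⟨by exact_mod_cast (ZMod.natCast_eq_natCast_iff a 1 4).mpr h1,
        by exact_mod_cast (ZMod.natCast_eq_natCast_iff b 1 4).mpr h2⟩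
    · right
      exact ⟨by exact_mod_cast (ZMod.natCast_eq_natCast_iff a 3 4).mpr h1,
        by exact_mod_cast (ZMod.natCast_eq_natCast_iff b 3 4).mpr h2⟩
  have hcast := congrArg (Int.cast : ℤ → ZMod 4) h
  push_cast at hcast
  obtain ⟨hx2, hy2, hz2⟩ : ¬ (2 : ℤ) ∣ x ∧ ¬ (2 : ℤ) ∣ y ∧ ¬ (2 : ℤ) ∣ z := by
    rcases par_dec _ _ _ _ _ hab4' hcast with ⟨h1, h2, h3⟩ | ⟨h1, h2, h3⟩
    · exact (hp 2 Int.prime_two (even_of_sq4 h1) (even_of_sq4 h2) (even_of_sq4 h3)).elim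
    · exact ⟨odd_of_sq4 h1, odd_of_sq4 h2, odd_of_sq4 h3⟩
  obtain ⟨k, hk⟩ : ∃ k : ℤ, x = y + 2 * k := ⟨(x - y) / 2, by omega⟩
  obtain ⟨c, hc⟩ : ∃ c : ℕ, b + 1 = 2 * c := ⟨(b + 1) / 2, by omega⟩
  obtain ⟨l, hl⟩ : ∃ l : ℕ, d = 4 * l + 1 := ⟨d / 4, by omega⟩
  -- the ideal
  have hα' : α ^ 2 = -((a : 𝓞 K) * (b : 𝓞 K)) := by rw [hα, ← hab]; push_cast; ring
  have hcR : (b : 𝓞 K) + 1 = 2 * c := by exact_mod_cast congrArg (Nat.cast : ℕ → 𝓞 K) hc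
  have hkR : (x : 𝓞 K) = y + 2 * k := by rw [hk]; push_cast; ring
  have hR := congrArg (Int.cast : ℤ → 𝓞 K) h
  push_cast at hR
  obtain ⟨M, hM⟩ : ∃ M : Ideal (𝓞 K), M = Ideal.span {(a : 𝓞 K), α} *
    Ideal.span {(2 : 𝓞 K), 1 + α} := ⟨_, rfl⟩
  have hM2 : M ^ 2 = Ideal.span {(2 * a : 𝓞 K)} := by
    rw [hM, mul_pow, ram_sq hcab hα', two_sq (k := (l : ℤ)) (by
      rw [hα, hl]; push_cast; ring), Ideal.span_singleton_mul_span_singleton, mul_comm]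
  have m1 : (a : 𝓞 K) * 2 ∈ M := by
    rw [hM]
    exact Ideal.mul_mem_mul (Ideal.subset_span (by simp)) (Ideal.subset_span (by simp))
  have m3 : α * 2 ∈ M := by
    rw [hM]
    exact Ideal.mul_mem_mul (Ideal.subset_span (by simp)) (Ideal.subset_span (by simp))
  have m4 : α * (1 + α) ∈ M := by
    rw [hM]
    exact Ideal.mul_mem_mul (Ideal.subset_span (by simp)) (Ideal.subset_span (by simp))
  have m5 : (a : 𝓞 K) + α ∈ M := by
    have e : (a : 𝓞 K) + α = c * (a * 2) + α * (1 + α) := by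
      linear_combination (a : 𝓞 K) * hcR - hα'
    rw [e]
    exact Ideal.add_mem _ (Ideal.mul_mem_left _ _ m1) m4
  have hξ : (a : 𝓞 K) * x + α * y ∈ M := by
    have e : (a : 𝓞 K) * x + α * y = k * (a * 2) + y * (a + α) := by
      rw [hkR]; ring
    rw [e]
    exact Ideal.add_mem _ (Ideal.mul_mem_left _ _ m1) (Ideal.mul_mem_left _ _ m5)
  have hξ' : (a : 𝓞 K) * x - α * y ∈ M := by
    have e : (a : 𝓞 K) * x - α * y = k * (a * 2) + y * (a + α) - y * (α * 2) := by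
      rw [hkR]; ring
    rw [e]
    exact Ideal.sub_mem _ (Ideal.add_mem _ (Ideal.mul_mem_left _ _ m1)
      (Ideal.mul_mem_left _ _ m5)) (Ideal.mul_mem_left _ _ m3)
  have haO : (a : 𝓞 K) ≠ 0 := by exact_mod_cast ha0
  have haO2 : (2 * a : 𝓞 K) ≠ 0 := mul_ne_zero two_ne_zero haO
  have hprod : ((a : 𝓞 K) * x + α * y) * (a * x - α * y) = (2 * a) * (z : 𝓞 K) ^ 2 := by
    linear_combination (-(y : 𝓞 K) ^ 2) * hα' - (a : 𝓞 K) * hR
  have hzO : (z : 𝓞 K) ≠ 0 := by exact_mod_cast hz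
  have hcz : IsCoprime (z : 𝓞 K) (((a : 𝓞 K) * x + α * y) + (a * x - α * y)) := by
    have h5 : IsCoprime z 2 := by
      rw [isCoprime_comm, Int.prime_two.coprime_iff_not_dvd]
      exact hz2
    have h6 : IsCoprime z (2 * (a * x)) := h5.mul_right hcop
    have h7 := h6.map (Int.castRingHom (𝓞 K))
    have e : ((a : 𝓞 K) * x + α * y) + (a * x - α * y) = 2 * (a * x) := by ring
    rw [e]
    simpa using h7
  obtain ⟨J, hJ⟩ := ideal_sq haO2 hM2 hξ hξ' hprod hcz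
  have hξ0 : (a : 𝓞 K) * x + α * y ≠ 0 := by
    intro h0
    rw [h0, zero_mul] at hprod
    exact mul_ne_zero haO2 (pow_ne_zero 2 hzO) hprod.symm
  exact princ_two hK hd hd4 hsf hα hab hM2 (principal_of_no_four h4 haO2 hξ0 hM2 hJ)

lemma par_dec1 : ∀ a b x y z : ZMod 4, (a = 1 ∧ b = 1) ∨ (a = 3 ∧ b = 3) →
    z ^ 2 = a * x ^ 2 + b * y ^ 2 →
    (x ^ 2 = 0 ∧ y ^ 2 = 0 ∧ z ^ 2 = 0) ∨ z ^ 2 = 1 := by decide

lemma par_dec2 : ∀ a b x y z : ZMod 4, ((a = 1 ∨ a = 3) ∧ b = 2) ∨ (a = 2 ∧ (b = 1 ∨ b = 3)) →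
    z ^ 2 = a * x ^ 2 + b * y ^ 2 →
    (x ^ 2 = 0 ∧ y ^ 2 = 0 ∧ z ^ 2 = 0) ∨ z ^ 2 = 1 := by decide

/-- for `d ≢ 3 (mod 4)`: a solution of `z² = a x² + b y²`, `a b = d`, is trivial if there is no class
of order four -/
theorem one_of_no_four {K : Type*} [Field K] [NumberField K] (hK : Module.finrank ℚ K = 2)
    {d : ℕ} (hd : 3 < d) (hd4 : d % 4 = 1 ∨ d % 4 = 2) (hsf : Squarefree d) {α : 𝓞 K}
    (hα : α ^ 2 = -(d : 𝓞 K)) (h4 : ∀ c : ClassGroup (𝓞 K), c ^ 4 = 1 → c ^ 2 = 1) {a b : ℕ}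
    (hab : a * b = d) (hsol : ∃ x y z : ℤ, z ^ 2 = a * x ^ 2 + b * y ^ 2 ∧ z ≠ 0) :
    a = 1 ∨ b = 1 := by
  obtain ⟨x, y, z, h, hz⟩ := hsol
  rw [← one_mul (z ^ 2)] at h
  obtain ⟨x, y, z, hz, h, hp⟩ := exists_prim_t z.natAbs x y z rfl hz h
  have hsf' : Squarefree (a * b) := by rw [hab]; exact hsf
  have hcop := cop_of_prim_t hsf' hz h hp
  rw [one_mul] at h
  have hcab : Nat.Coprime a b := Nat.coprime_of_squarefree_mul hsf'
  have ha0 : a ≠ 0 := by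
    rintro rfl
    rw [zero_mul] at hab
    omega
  have hcast := congrArg (Int.cast : ℤ → ZMod 4) h
  push_cast at hcast
  have hpar : ((x : ZMod 4) ^ 2 = 0 ∧ (y : ZMod 4) ^ 2 = 0 ∧ (z : ZMod 4) ^ 2 = 0) ∨
      (z : ZMod 4) ^ 2 = 1 := by
    have ca : (a : ZMod 4) = ((a % 4 : ℕ) : ZMod 4) := by
      rw [ZMod.natCast_mod]
    have cb : (b : ZMod 4) = ((b % 4 : ℕ) : ZMod 4) := by
      rw [ZMod.natCast_mod]
    have ha : a % 4 < 4 := Nat.mod_lt _ (by norm_num)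
    have hb : b % 4 < 4 := Nat.mod_lt _ (by norm_num)
    have h1 : a * b % 4 = (a % 4) * (b % 4) % 4 := Nat.mul_mod _ _ _
    rw [hab] at h1
    rcases hd4 with hd4 | hd4
    · refine par_dec1 _ _ _ _ _ ?_ hcast
      rw [ca, cb]
      rw [hd4] at h1
      generalize a % 4 = u at *
      generalize b % 4 = v at *
      interval_cases u <;> interval_cases v <;> first | omega | (norm_num)
    · refine par_dec2 _ _ _ _ _ ?_ hcast
      rw [ca, cb]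
      rw [hd4] at h1
      generalize a % 4 = u at *
      generalize b % 4 = v at *
      interval_cases u <;> interval_cases v <;> first | omega | (norm_num)
  have hz2 : ¬ (2 : ℤ) ∣ z := by
    rcases hpar with ⟨h1, h2, h3⟩ | h3
    · exact (hp 2 Int.prime_two (even_of_sq4 h1) (even_of_sq4 h2) (even_of_sq4 h3)).elim
    · exact odd_of_sq4 h3
  have hα' : α ^ 2 = -((a : 𝓞 K) * (b : 𝓞 K)) := by rw [hα, ← hab]; push_cast; ring
  have hR := congrArg (Int.cast : ℤ → 𝓞 K) h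
  push_cast at hR
  have hA := ram_sq hcab hα'
  have haA : (a : 𝓞 K) ∈ Ideal.span {(a : 𝓞 K), α} := Ideal.subset_span (by simp)
  have hαA : α ∈ Ideal.span {(a : 𝓞 K), α} := Ideal.subset_span (by simp)
  have hξ : (a : 𝓞 K) * x + α * y ∈ Ideal.span {(a : 𝓞 K), α} :=
    Ideal.add_mem _ (Ideal.mul_mem_right _ _ haA) (Ideal.mul_mem_right _ _ hαA)
  have hξ' : (a : 𝓞 K) * x - α * y ∈ Ideal.span {(a : 𝓞 K), α} :=
    Ideal.sub_mem _ (Ideal.mul_mem_right _ _ haA) (Ideal.mul_mem_right _ _ hαA)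
  have haO : (a : 𝓞 K) ≠ 0 := by exact_mod_cast ha0
  have hprod : ((a : 𝓞 K) * x + α * y) * (a * x - α * y) = a * (z : 𝓞 K) ^ 2 := by
    linear_combination (-(y : 𝓞 K) ^ 2) * hα' - (a : 𝓞 K) * hR
  have hzO : (z : 𝓞 K) ≠ 0 := by exact_mod_cast hz
  have hcz : IsCoprime (z : 𝓞 K) (((a : 𝓞 K) * x + α * y) + (a * x - α * y)) := by
    have h5 : IsCoprime z 2 := by
      rw [isCoprime_comm, Int.prime_two.coprime_iff_not_dvd]
      exact hz2
    have h6 : IsCoprime z (2 * (a * x)) := h5.mul_right hcop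
    have h7 := h6.map (Int.castRingHom (𝓞 K))
    have e : ((a : 𝓞 K) * x + α * y) + (a * x - α * y) = 2 * (a * x) := by ring
    rw [e]
    simpa using h7
  obtain ⟨J, hJ⟩ := ideal_sq haO hA hξ hξ' hprod hcz
  have hξ0 : (a : 𝓞 K) * x + α * y ≠ 0 := by
    intro h0
    rw [h0, zero_mul] at hprod
    exact mul_ne_zero haO (pow_ne_zero 2 hzO) hprod.symm
  exact princ_trivial hK hd hsf hα hab hA (principal_of_no_four h4 haO hξ0 hA hJ)

end Vale.Agent.P017.H390
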