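import Mathlib
import Vale.Agent.P017.H390.Gen2
import Vale.Agent.P017.H390.JTwo
import Vale.Agent.P017.H766.Legendre
import Vale.Agent.P017.H689.R12GC
import Vale.Agent.P017.H689.T2C
import Vale.Agent.P017.H540.T3S
import Vale.Agent.P017.H524.ClassG

set_option autoImplicit false

open NumberField

namespace Vale.Agent.P017.H390

open Vale.Agent.P017.H524 (SqMod)

lemma sqMod_nat {u b : ℕ} (h : SqMod (u : ℤ) b) :
    ∀ q : ℕ, q.Prime → q ∣ b → IsSquare ((u : ℕ) : ZMod q) := by
  intro q hq hqb
  have := h q hq (by exact_mod_cast hqb)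
  simpa using this

/-- the second condition follows from the first -/
theorem RB_of_RA {d : ℕ} (hsf : Squarefree d) (hRA : RA d) : RB d := by
  intro b c hbc h2 s1 s2
  have hR1 : R1 d := by
    intro m M hmM g1 g2
    refine (hRA 1 m M (Or.inl rfl) hmM ?_ ?_).2
    · intro q hq hqM
      rw [Nat.cast_one, one_mul]
      exact g1 q hq (by exact_mod_cast hqM)
    · intro q hq hqm
      rw [Nat.cast_one, one_mul]
      exact g2 q hq (by exact_mod_cast hqm)
  rcases h2 with ⟨hd4, hb4⟩ | ⟨hd4, hb8⟩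
  · have hc4 : c % 4 = 1 := by
      have h3 : (-(d : ℤ)) % 4 = 1 := by
        clear * - hd4
        omega
      rw [← hbc, Int.mul_emod, hb4, one_mul, Int.emod_emod] at h3
      exact h3
    exact Vale.Agent.P017.H689.R2_of_R1_all hsf hd4 hR1 b c hbc hb4 hc4 s1 s2
  · rcases Nat.mod_two_eq_zero_or_one d with hd2 | hd2
    · left
      refine Vale.Agent.P017.H540.t3_sqMod hsf hd2 ?_ b c hbc hb8 s1 s2
      intro a b' hab ha g1 g2
      rcases (hRA 1 a b' (Or.inl rfl) hab (by rw [Nat.cast_one, one_mul]; exact g1)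
        (by rw [Nat.cast_one, one_mul]; exact g2)).2 with h | h
      · exact h
      · exfalso
        rw [h, mul_one] at hab
        omega
    · have hd41 : d % 4 = 1 := by clear * - hd4 hd2; omega
      refine Vale.Agent.P017.H689.T2 hsf hd41 ?_ b c hbc hb8 s1 s2
      intro t a b' ht hab g1 g2
      exact hRA t a b' (ht.imp id (fun h => ⟨h, hd41⟩)) hab g1 g2

/-- the statement of Legendre's theorem for `2 z² = a x² + b y²` -/
def Leg2 : Prop := ∀ a b : ℕ, Squarefree (a * b) → a % 2 = 1 → b % 2 = 1 → 1 < a * b →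
  (∀ q : ℕ, q.Prime → q ∣ b → IsSquare ((2 * a : ℕ) : ZMod q)) →
  (∀ q : ℕ, q.Prime → q ∣ a → IsSquare ((2 * b : ℕ) : ZMod q)) →
  ∃ x y z : ℤ, 2 * z ^ 2 = a * x ^ 2 + b * y ^ 2 ∧ z ≠ 0

theorem RA_class {K : Type*} [Field K] [NumberField K] (hK : Module.finrank ℚ K = 2) {d : ℕ}
    (hd1 : 1 < d) (hsf : Squarefree d) {α : 𝓞 K} (hα : α ^ 2 = -(d : 𝓞 K))
    (hcl : ∀ c : ClassGroup (𝓞 K), c ^ 4 = 1 → c ^ 2 = 1) (hL : Leg2) : RA d := by
  intro t a b ht hab s1 s2
  have hsf' : Squarefree (a * b) := by rw [hab]; exact hsf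
  rcases ht with rfl | ⟨rfl, hd4⟩
  · refine ⟨rfl, ?_⟩
    rw [Nat.cast_one, one_mul] at s1 s2
    have g1 := sqMod_nat s1
    have g2 := sqMod_nat s2
    by_cases hd3 : 3 < d
    · by_cases hd4 : d % 4 = 3
      · exact Vale.Agent.P017.H524.R1_class hK hd3 hsf hd4 hα hcl a b hab g1 g2
      · have hd4' : d % 4 = 1 ∨ d % 4 = 2 := by
          have h0 : d % 4 ≠ 0 := by
            intro h0
            have h4 : 2 * 2 ∣ d := Nat.dvd_of_mod_eq_zero h0
            exact absurd (Nat.isUnit_iff.mp (hsf 2 h4)) (by norm_num)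
          clear * - hd4 h0
          omega
        by_contra hne
        push Not at hne
        have ha0 : a ≠ 0 := by rintro rfl; rw [zero_mul] at hab; omega
        have hb0 : b ≠ 0 := by rintro rfl; rw [mul_zero] at hab; omega
        have hsol := P017.H766.legendre hsf' (by omega) (by omega) g1 g2
        rcases one_of_no_four hK hd3 hd4' hsf hα hcl hab hsol with h | h
        · exact hne.1 h
        · exact hne.2 h
    · have hp : d.Prime := by
        have : d = 2 ∨ d = 3 := by omega
        rcases this with rfl | rfl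
        · exact Nat.prime_two
        · exact Nat.prime_three
      rcases hp.eq_one_or_self_of_dvd a ⟨b, hab.symm⟩ with h | h
      · exact Or.inl h
      · right
        rw [h] at hab
        exact Nat.eq_of_mul_eq_mul_left hp.pos (by rw [hab, mul_one])
  · exfalso
    have hodd : ∀ c : ℕ, c ∣ d → c % 2 = 1 := by
      intro c hc
      rcases Nat.mod_two_eq_zero_or_one c with h | h
      · exfalso
        have h2 : 2 ∣ d := (Nat.dvd_of_mod_eq_zero h).trans hc
        omega
      · exact h
    refine no_two_of_no_four hK hd1 hd4 hsf hα hcl hab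
      (hL a b hsf' (hodd a ⟨b, hab.symm⟩) (hodd b ⟨a, by rw [← hab]; ring⟩) (by rw [hab]; exact hd1)
        (sqMod_nat ?_) (sqMod_nat ?_))
    · push_cast; exact_mod_cast s1
    · push_cast; exact_mod_cast s2

end Vale.Agent.P017.H390
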