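import Mathlib
import Vale.Agent.P017.H390.Comp

set_option autoImplicit false

namespace Vale.Agent.P017.H390

/-- an integer all of whose prime factors are squares mod `q` is a square mod `q` -/
lemma sq_of_primes {q : ℕ} (n : ℕ) (hn : n ≠ 0)
    (h : ∀ p : ℕ, p.Prime → p ∣ n → IsSquare ((p : ℤ) : ZMod q)) :
    IsSquare ((n : ℤ) : ZMod q) := by
  induction n using Nat.recOnMul with
  | zero => exact absurd rfl hn
  | one => exact ⟨1, by norm_num⟩
  | prime p hp => exact h p hp dvd_rfl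
  | mul a b iha ihb =>
    have ha : a ≠ 0 := left_ne_zero_of_mul hn
    have hb : b ≠ 0 := right_ne_zero_of_mul hn
    have h1 := iha ha (fun p hp hpa => h p hp (Dvd.dvd.mul_right hpa _))
    have h2 := ihb hb (fun p hp hpb => h p hp (Dvd.dvd.mul_left hpb _))
    push_cast at h1 h2 ⊢
    exact h1.mul h2

/-- the hypotheses for adding the prime `q` -/
structure Add (d l q : ℕ) : Prop where
  sf : Squarefree d
  hl : l.Prime
  hld : l ∣ d
  hq : q.Prime
  hqd : ¬ q ∣ d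
  q4 : q % 4 = 1
  h1 : ∀ p : ℕ, p.Prime → p ∣ d → p ≠ l → IsSquare ((q : ℤ) : ZMod p)
  h2 : ∀ p : ℕ, p.Prime → p ∣ d → p ≠ l → IsSquare ((p : ℤ) : ZMod q)
  h3 : ¬ IsSquare ((l : ℤ) : ZMod q)

/-- a divisor of `d` which is a square modulo `q` is not divisible by `l` -/
lemma Add.not_dvd {d l q : ℕ} (h : Add d l q) {M : ℕ} (hM : M ∣ d)
    (hs : IsSquare ((M : ℤ) : ZMod q)) : ¬ l ∣ M := by
  rintro ⟨x, hx⟩
  have := Fact.mk h.hq
  have hx0 : x ≠ 0 := by
    rintro rfl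
    rw [mul_zero] at hx
    rw [hx] at hM
    exact h.sf.ne_zero (zero_dvd_iff.mp hM)
  have hlx : ¬ l ∣ x := by
    rintro ⟨y, hy⟩
    have : l * l ∣ d := Dvd.dvd.trans ⟨y, by rw [hx, hy]; ring⟩ hM
    exact h.hl.one_lt.ne' (Nat.isUnit_iff.mp (h.sf l this))
  have hsx : IsSquare ((x : ℤ) : ZMod q) := by
    refine sq_of_primes x hx0 (fun p hp hpx => h.h2 p hp ?_ ?_)
    · exact (hpx.trans ⟨l, by rw [hx]; ring⟩).trans hM
    · rintro rfl; exact hlx hpx
  have hxq : ((x : ℤ) : ZMod q) ≠ 0 := by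
    apply cast_ne
    intro h0
    have h0' : q ∣ x := by exact_mod_cast h0
    exact h.hqd ((h0'.trans ⟨l, by rw [hx]; ring⟩).trans hM)
  apply h.h3
  have e : ((l : ℤ) : ZMod q) = ((M : ℤ) : ZMod q) / ((x : ℤ) : ZMod q) := by
    rw [eq_div_iff hxq, hx]; push_cast; ring
  rw [e]
  exact hs.div hsx

lemma R1_half {d l q : ℕ} (h : Add d l q) (hR : R1 d) {m M : ℕ} (hmM : m * M = d)
    (c1 : ∀ p : ℕ, p.Prime → p ∣ M → IsSquare (((q * m : ℕ) : ℤ) : ZMod p))
    (c2 : ∀ p : ℕ, p.Prime → p ∣ q * m → IsSquare ((M : ℤ) : ZMod p)) : M = 1 := by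
  have hMd : M ∣ d := ⟨m, by rw [← hmM]; ring⟩
  have hlM : ¬ l ∣ M := h.not_dvd hMd (c2 q h.hq ⟨m, rfl⟩)
  have hlm : l ∣ m := by
    have := h.hld
    rw [← hmM] at this
    exact (h.hl.dvd_mul.mp this).resolve_right hlM
  have c1' : ∀ p : ℕ, p.Prime → p ∣ M → IsSquare ((m : ℤ) : ZMod p) := by
    intro p hp hpM
    have hpd : p ∣ d := hpM.trans hMd
    have hpl : p ≠ l := by rintro rfl; exact hlM hpM
    have := Fact.mk hp
    have hqp : ((q : ℤ) : ZMod p) ≠ 0 := by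
      apply cast_ne
      intro h0
      have h0' : p ∣ q := by exact_mod_cast h0
      have := (Nat.prime_dvd_prime_iff_eq hp h.hq).mp h0'
      exact h.hqd (this ▸ hpd)
    have e : ((m : ℤ) : ZMod p) = (((q * m : ℕ) : ℤ) : ZMod p) / ((q : ℤ) : ZMod p) := by
      rw [eq_div_iff hqp]; push_cast; ring
    rw [e]
    exact (c1 p hp hpM).div (h.h1 p hp hpd hpl)
  rcases hR m M hmM c1' (fun p hp hpm => c2 p hp (Dvd.dvd.mul_left hpm _)) with h1 | h1
  · rw [h1] at hlm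
    exact absurd (Nat.dvd_one.mp hlm) h.hl.one_lt.ne'
  · exact h1

theorem R1_step {d l q : ℕ} (h : Add d l q) (hR : R1 d) : R1 (d * q) := by
  intro m M hmM c1 c2
  have hqmM : q ∣ m * M := by rw [hmM]; exact ⟨d, by ring⟩
  rcases h.hq.dvd_mul.mp hqmM with ⟨x, hx⟩ | ⟨x, hx⟩
  · right
    have e : x * M = d := by
      have : q * (x * M) = q * d := by rw [← mul_assoc, ← hx, hmM]; ring
      exact Nat.eq_of_mul_eq_mul_left h.hq.pos this
    subst hx
    exact R1_half h hR e c1 c2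
  · left
    have e : x * m = d := by
      have : q * (x * m) = q * d := by
        have h1 : m * (q * x) = d * q := by rw [← hx, hmM]
        rw [mul_comm q d, ← h1]; ring
      exact Nat.eq_of_mul_eq_mul_left h.hq.pos this
    subst hx
    exact R1_half h hR e c2 c1

lemma R2_half {d l q : ℕ} (h : Add d l q) (hR : R2 d) {a b : ℤ} (hab : a * b = -(d : ℤ))
    (ha : a % 4 = 1) (hb : b % 4 = 1)
    (c1 : ∀ p : ℕ, p.Prime → (p : ℤ) ∣ b → IsSquare ((q * a : ℤ) : ZMod p))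
    (c2 : ∀ p : ℕ, p.Prime → (p : ℤ) ∣ q * a → IsSquare ((b : ℤ) : ZMod p)) : b = 1 := by
  have := Fact.mk h.hq
  have hbd : (b : ℤ) ∣ d := ⟨-a, by linear_combination hab⟩
  have hbd' : b.natAbs ∣ d := Int.natAbs_dvd_natAbs.mpr hbd
  have hbs : IsSquare ((b.natAbs : ℤ) : ZMod q) := by
    have h1 := c2 q h.hq ⟨a, rfl⟩
    rcases Int.natAbs_eq b with h2 | h2
    · rw [← h2]; exact h1
    · have h3 : ((b.natAbs : ℤ)) = -b := by omega
      rw [h3]
      have h4 : IsSquare (-1 : ZMod q) := by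
        rw [ZMod.exists_sq_eq_neg_one_iff]
        rw [h.q4]; norm_num
      have h5 := h4.mul h1
      push_cast
      rw [← neg_one_mul]
      exact h5
  have hlb : ¬ l ∣ b.natAbs := h.not_dvd hbd' hbs
  have hlb' : ¬ (l : ℤ) ∣ b := fun h0 => hlb (Int.natCast_dvd.mp h0)
  have hlZ : Prime (l : ℤ) := Nat.prime_iff_prime_int.mp h.hl
  have hla : (l : ℤ) ∣ a := by
    have h1 : (l : ℤ) ∣ a * b := by
      rw [hab, dvd_neg]; exact_mod_cast h.hld
    exact (hlZ.dvd_or_dvd h1).resolve_right hlb'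
  have c1' : ∀ p : ℕ, p.Prime → (p : ℤ) ∣ b → IsSquare ((a : ℤ) : ZMod p) := by
    intro p hp hpb
    have hpd : p ∣ d := by exact_mod_cast hpb.trans hbd
    have hpl : p ≠ l := by rintro rfl; exact hlb' hpb
    have := Fact.mk hp
    have hqp : ((q : ℤ) : ZMod p) ≠ 0 := by
      apply cast_ne
      intro h0
      have h0' : p ∣ q := by exact_mod_cast h0
      have := (Nat.prime_dvd_prime_iff_eq hp h.hq).mp h0'
      exact h.hqd (this ▸ hpd)
    have e : ((a : ℤ) : ZMod p) = ((q * a : ℤ) : ZMod p) / ((q : ℤ) : ZMod p) := by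
      rw [eq_div_iff hqp]; push_cast; ring
    rw [e]
    exact (c1 p hp hpb).div (h.h1 p hp hpd hpl)
  rcases hR a b hab ha hb c1' (fun p hp hpa => c2 p hp (Dvd.dvd.mul_left hpa _)) with h1 | h1
  · rw [h1] at hla
    exact absurd (isUnit_of_dvd_one hla) hlZ.not_isUnit
  · exact h1

theorem R2_step {d l q : ℕ} (h : Add d l q) (hR : R2 d) : R2 (d * q) := by
  intro a b hab ha hb c1 c2
  have hqZ : Prime (q : ℤ) := Nat.prime_iff_prime_int.mp h.hq
  have hq4 : (q : ℤ) % 4 = 1 := by exact_mod_cast h.q4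
  have hqab : (q : ℤ) ∣ a * b := by rw [hab]; exact ⟨-d, by push_cast; ring⟩
  have hmod : ∀ x : ℤ, (q * x) % 4 = 1 → x % 4 = 1 := by
    intro x hx
    rw [Int.mul_emod, hq4, one_mul, Int.emod_emod] at hx
    exact hx
  rcases hqZ.dvd_or_dvd hqab with ⟨x, hx⟩ | ⟨x, hx⟩
  · right
    have e : x * b = -(d : ℤ) := by
      have : (q : ℤ) * (x * b) = q * (-(d : ℤ)) := by
        rw [← mul_assoc, ← hx, hab]; push_cast; ring
      exact mul_left_cancel₀ hqZ.ne_zero this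
    subst hx
    exact R2_half h hR e (hmod x ha) hb c1 c2
  · left
    have e : x * a = -(d : ℤ) := by
      have : (q : ℤ) * (x * a) = q * (-(d : ℤ)) := by
        have h1 : a * (q * x) = -((d * q : ℕ) : ℤ) := by rw [← hx, hab]
        push_cast at h1
        linear_combination h1
      exact mul_left_cancel₀ hqZ.ne_zero this
    subst hx
    exact R2_half h hR e (hmod x hb) ha c2 c1

/-- unbundled forms -/
theorem R1_step' {d l q : ℕ} (hsf : Squarefree d) (hl : l.Prime) (hld : l ∣ d) (hq : q.Prime)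
    (hqd : ¬ q ∣ d) (h1 : ∀ p : ℕ, p.Prime → p ∣ d → p ≠ l → IsSquare ((q : ℤ) : ZMod p))
    (h2 : ∀ p : ℕ, p.Prime → p ∣ d → p ≠ l → IsSquare ((p : ℤ) : ZMod q))
    (h3 : ¬ IsSquare ((l : ℤ) : ZMod q)) (hq4 : q % 4 = 1) (hR : R1 d) : R1 (d * q) :=
  R1_step ⟨hsf, hl, hld, hq, hqd, hq4, h1, h2, h3⟩ hR

theorem R2_step' {d l q : ℕ} (hsf : Squarefree d) (hl : l.Prime) (hld : l ∣ d) (hq : q.Prime)
    (hqd : ¬ q ∣ d) (h1 : ∀ p : ℕ, p.Prime → p ∣ d → p ≠ l → IsSquare ((q : ℤ) : ZMod p))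
    (h2 : ∀ p : ℕ, p.Prime → p ∣ d → p ≠ l → IsSquare ((p : ℤ) : ZMod q))
    (h3 : ¬ IsSquare ((l : ℤ) : ZMod q)) (hq4 : q % 4 = 1) (hR : R2 d) : R2 (d * q) :=
  R2_step ⟨hsf, hl, hld, hq, hqd, hq4, h1, h2, h3⟩ hR

end Vale.Agent.P017.H390
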