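import Mathlib
import Vale.Agent.P017.H390.DescD

set_option autoImplicit false

namespace Vale.Agent.P017.H390

lemma not_sq_two {p : ℕ} (hp : p.Prime) (h8 : p % 8 = 3) : ¬ IsSquare ((2 : ℤ) : ZMod p) := by
  haveI := Fact.mk hp
  have h2 : p ≠ 2 := by rintro rfl; omega
  push_cast
  rw [ZMod.exists_sq_eq_two_iff h2]
  omega

lemma not_sq_neg_one {p : ℕ} (hp : p.Prime) (h4 : p % 4 = 3) :
    ¬ IsSquare ((-1 : ℤ) : ZMod p) := by
  haveI := Fact.mk hp
  push_cast
  rw [ZMod.exists_sq_eq_neg_one_iff]
  exact fun h => h h4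

theorem cond_prime {p : ℕ} (hp : p.Prime) (h8 : p % 8 = 3) (h3 : p % 3 = 2)
    (h5 : p % 5 = 2 ∨ p % 5 = 3) : Cond (p : ℤ) := by
  have hpZ : Prime (p : ℤ) := Nat.prime_iff_prime_int.mp hp
  have hp0 : 0 < (p : ℤ) := by exact_mod_cast hp.pos
  have hp2 : p ≠ 2 := by rintro rfl; omega
  have hp5 : p ≠ 5 := by rintro rfl; omega
  refine ⟨hp0, hpZ.squarefree, ?_, ?_, ?_, ?_⟩
  · have : ((p : ℕ) : ZMod 3) = ((2 : ℕ) : ZMod 3) := by
      rw [ZMod.natCast_eq_natCast_iff]; exact h3
    simpa using this
  · rcases h5 with h5 | h5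
    · left
      have : ((p : ℕ) : ZMod 5) = ((2 : ℕ) : ZMod 5) := by
        rw [ZMod.natCast_eq_natCast_iff]; exact h5
      simpa using this
    · right
      have : ((p : ℕ) : ZMod 5) = ((3 : ℕ) : ZMod 5) := by
        rw [ZMod.natCast_eq_natCast_iff]; exact h5
      simpa using this
  · intro b hb0 hbsf hq h1 h2
    have hns := not_sq_two hp h8
    by_cases h2b : (2 : ℤ) ∣ b
    · exfalso
      obtain ⟨β, hβ⟩ := h2b
      have h2β := not_dvd_of_sqf hbsf p2 hβ
      have hβsf : Squarefree β := hbsf.squarefree_of_dvd ⟨2, by rw [hβ]; ring⟩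
      have hβp : ∀ q : ℤ, Prime q → q ∣ β → q ∣ (p : ℤ) := by
        intro q hq' hqβ
        rcases hq'.dvd_or_dvd (hq q hq' (by rw [hβ]; exact hqβ.mul_left 2)) with h | h
        · exfalso
          exact h2β ((hq'.associated_of_dvd p2 h).symm.dvd.trans hqβ)
        · exact h
      rcases sf_of_prime hpZ hβsf hβp with h | h | h | h
      · apply hns
        have hb : b = 2 := by rw [hβ, h]; norm_num
        rw [← hb]
        refine h1 p hp hp2 hp5 dvd_rfl ?_
        rw [hb]
        intro h'
        have := Int.le_of_dvd (by norm_num) h'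
        have h2 := hp.two_le
        have : p = 2 := by omega
        exact hp2 this
      · omega
      · apply hns
        have := h2 p hp hp2 hp5 2 1 (by rw [hβ, h]; ring) (by ring)
        simpa using this
      · have : b < 0 := by rw [hβ, h]; linarith
        omega
    · have hβp : ∀ q : ℤ, Prime q → q ∣ b → q ∣ (p : ℤ) := by
        intro q hq' hqβ
        rcases hq'.dvd_or_dvd (hq q hq' hqβ) with h | h
        · exfalso
          exact h2b ((hq'.associated_of_dvd p2 h).symm.dvd.trans hqβ)
        · exact h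
      rcases sf_of_prime hpZ hbsf hβp with h | h | h | h
      · exact Or.inl h
      · omega
      · exact Or.inr h
      · omega
  · intro b hbsf hq h1 h2
    have hns := not_sq_neg_one hp (by omega)
    rcases sf_of_prime hpZ hbsf hq with h | h | h | h
    · exact Or.inl h
    · exfalso
      apply hns
      rw [← h]
      refine h1 p hp hp2 dvd_rfl ?_
      rw [h]
      intro h'
      exact hpZ.not_unit (isUnit_of_dvd_unit h' (by decide))
    · exfalso
      apply hns
      have := h2 p hp hp2 1 1 (by rw [h]; ring) (by ring)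
      simpa using this
    · exact Or.inr h

end Vale.Agent.P017.H390
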