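import Mathlib
import Vale.Agent.P017.H390.Kill
import Vale.Agent.P017.H390.CondP
import Vale.Agent.P017.H390.DescG

set_option autoImplicit false

namespace Vale.Agent.P017.H390

lemma natcast_zmod {p n k : ℕ} (h : p % n = k % n) : (((p : ℕ) : ℤ) : ZMod n) = ((k : ℕ) : ZMod n) := by
  rw [Int.cast_natCast, ZMod.natCast_eq_natCast_iff]; exact h

lemma not_sq_two' {p : ℕ} (hp : p.Prime) (h8 : p % 8 = 3 ∨ p % 8 = 5) :
    ¬ IsSquare ((2 : ℤ) : ZMod p) := by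
  have := Fact.mk hp
  have h2 : p ≠ 2 := by rintro rfl; omega
  push_cast
  rw [ZMod.exists_sq_eq_two_iff h2]
  omega

lemma sq_five {p : ℕ} (hp : p.Prime) (hp2 : p ≠ 2) (h5 : p % 5 = 1 ∨ p % 5 = 4) :
    IsSquare ((5 : ℤ) : ZMod p) := by
  have := Fact.mk hp
  have := Fact.mk Nat.prime_five
  have h1 : IsSquare ((p : ℕ) : ZMod 5) := by
    rcases h5 with h5 | h5
    · have : ((p : ℕ) : ZMod 5) = ((1 : ℕ) : ZMod 5) := by
        rw [ZMod.natCast_eq_natCast_iff]; exact h5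
      rw [this]; exact ⟨1, by norm_num⟩
    · have : ((p : ℕ) : ZMod 5) = ((4 : ℕ) : ZMod 5) := by
        rw [ZMod.natCast_eq_natCast_iff]; exact h5
      rw [this]; exact ⟨2, by norm_num⟩
  have h2 := (ZMod.exists_sq_eq_prime_iff_of_mod_four_eq_one (p := 5) (q := p) (by norm_num)
    hp2).mp
  have h3 : IsSquare ((5 : ℕ) : ZMod p) := h2 h1
  exact_mod_cast h3

/-- arithmetic facts on the residue class -/
structure PC (p : ℕ) : Prop where
  p2 : p ≠ 2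
  p3 : p ≠ 3
  p5 : p ≠ 5
  nd : ∀ k : ℤ, 0 < k → k ≤ 6 → ¬ (p : ℤ) ∣ k
  m3 : (p % 15 = 2 ∨ p % 15 = 8) → ((p : ℤ) : ZMod 3) = 2
  m3' : ¬ (p % 15 = 2 ∨ p % 15 = 8) → ((p : ℤ) : ZMod 3) = 1
  m5 : (p % 15 = 2 ∨ p % 15 = 8) → ((p : ℤ) : ZMod 5) = 2 ∨ ((p : ℤ) : ZMod 5) = 3
  m5' : ¬ (p % 15 = 2 ∨ p % 15 = 8) → p % 5 = 1 ∨ p % 5 = 4
  m5'' : ¬ (p % 15 = 2 ∨ p % 15 = 8) → ((p : ℤ) : ZMod 5) = 1 ∨ ((p : ℤ) : ZMod 5) = 4
  m8 : p % 8 = 7 → ((p : ℤ) : ZMod 8) = 7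
  m8' : p % 8 = 5 → ((p : ℤ) : ZMod 8) = 5
  ns2 : p % 8 ≠ 7 → ¬ IsSquare ((2 : ℤ) : ZMod p)
  ns1 : p % 8 ≠ 5 → ¬ IsSquare ((-1 : ℤ) : ZMod p)

lemma f1 {p : ℕ} (h8 : p % 8 = 3 ∨ p % 8 = 5 ∨ p % 8 = 7) : p ≠ 2 ∧ p ≠ 4 ∧ p ≠ 6 := by omega
lemma f2 {p : ℕ} (h15 : p % 15 = 1 ∨ p % 15 = 2 ∨ p % 15 = 4 ∨ p % 15 = 8) :
    p ≠ 3 ∧ p ≠ 5 ∧ p ≠ 0 := by omega
lemma f3 {p : ℕ} (h : 1 < p) (h2 : p ≠ 2) (h3 : p ≠ 3) (h4 : p ≠ 4) (h5 : p ≠ 5) (h6 : p ≠ 6) :
    6 < p := by omega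
lemma f4 {p : ℕ} (h : p % 15 = 2 ∨ p % 15 = 8) : p % 3 = 2 := by omega
lemma f5 {p : ℕ} (h15 : p % 15 = 1 ∨ p % 15 = 2 ∨ p % 15 = 4 ∨ p % 15 = 8)
    (h : ¬ (p % 15 = 2 ∨ p % 15 = 8)) : p % 3 = 1 := by omega
lemma f6 {p : ℕ} (h : p % 15 = 2) : p % 5 = 2 := by omega
lemma f7 {p : ℕ} (h : p % 15 = 8) : p % 5 = 3 := by omega
lemma f8 {p : ℕ} (h15 : p % 15 = 1 ∨ p % 15 = 2 ∨ p % 15 = 4 ∨ p % 15 = 8)
    (h : ¬ (p % 15 = 2 ∨ p % 15 = 8)) : p % 5 = 1 ∨ p % 5 = 4 := by omega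
lemma f9 {p : ℕ} (h8 : p % 8 = 3 ∨ p % 8 = 5 ∨ p % 8 = 7) (h : p % 8 ≠ 7) :
    p % 8 = 3 ∨ p % 8 = 5 := by omega
lemma f10 {p : ℕ} (h8 : p % 8 = 3 ∨ p % 8 = 5 ∨ p % 8 = 7) (h : p % 8 ≠ 5) :
    p % 4 = 3 := by omega

lemma pc {p : ℕ} (hp : p.Prime) (h8 : p % 8 = 3 ∨ p % 8 = 5 ∨ p % 8 = 7)
    (h15 : p % 15 = 1 ∨ p % 15 = 2 ∨ p % 15 = 4 ∨ p % 15 = 8) : PC p := by
  obtain ⟨g2, g4, g6⟩ := f1 h8
  obtain ⟨g3, g5, g0⟩ := f2 h15
  have hm5' : ¬ (p % 15 = 2 ∨ p % 15 = 8) → p % 5 = 1 ∨ p % 5 = 4 := f8 h15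
  refine ⟨g2, g3, g5, ?_, ?_, ?_, ?_, hm5', ?_, ?_, ?_, ?_, ?_⟩
  · intro k hk hk6 h0
    have h1 := Int.le_of_dvd hk h0
    have h2 := f3 hp.one_lt g2 g3 g4 g5 g6
    have h3 : (6 : ℤ) < p := by exact_mod_cast h2
    linarith
  · intro h
    exact_mod_cast natcast_zmod (n := 3) (k := 2) (f4 h)
  · intro h
    exact_mod_cast natcast_zmod (n := 3) (k := 1) (f5 h15 h)
  · rintro (h | h)
    · left; exact_mod_cast natcast_zmod (n := 5) (k := 2) (f6 h)
    · right; exact_mod_cast natcast_zmod (n := 5) (k := 3) (f7 h)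
  · intro h
    rcases hm5' h with h | h
    · left; exact_mod_cast natcast_zmod (n := 5) (k := 1) h
    · right; exact_mod_cast natcast_zmod (n := 5) (k := 4) h
  · intro h
    exact_mod_cast natcast_zmod (n := 8) (k := 7) h
  · intro h
    exact_mod_cast natcast_zmod (n := 8) (k := 5) h
  · intro h
    exact not_sq_two' hp (f9 h8 h)
  · intro h
    exact not_sq_neg_one hp (f10 h8 h)

theorem HA_prime {p : ℕ} (hp : p.Prime) (h8 : p % 8 = 3 ∨ p % 8 = 5 ∨ p % 8 = 7)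
    (h15 : p % 15 = 1 ∨ p % 15 = 2 ∨ p % 15 = 4 ∨ p % 15 = 8) :
    ∀ m e n : ℤ, Sol p m e n → ∃ r : ℤ, m = r ^ 2 ∨ m = p * r ^ 2 := by
  have hpZ : Prime (p : ℤ) := Nat.prime_iff_prime_int.mp hp
  have hp0 : 0 < (p : ℤ) := by exact_mod_cast hp.pos
  obtain ⟨hp2, hp3, hp5, hnd, hm3, hm3', hm5, hm5', hm5'', hm8, hm8', hns2, hns1⟩ := pc hp h8 h15
  intro m e n hS
  obtain ⟨b, r, n1, hbr, hr0, hstar, hb0, hbsf, hq, h1, h2⟩ := stepA0 hS hp0 hpZ.squarefree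
  refine ⟨r, ?_⟩
  -- `b ∈ {1, p}`
  suffices hb : b = 1 ∨ b = p by
    rcases hb with hb | hb
    · left; rw [hbr, hb, one_mul]
    · right; rw [hbr, hb]
  have key : ∀ β : ℤ, 0 < β → Squarefree β → (∀ q : ℤ, Prime q → q ∣ β → q ∣ (p : ℤ)) →
      β = 1 ∨ β = p := by
    intro β hβ hβsf hβq
    rcases sf_of_prime hpZ hβsf hβq with h | h | h | h
    · exact Or.inl h
    · omega
    · exact Or.inr h
    · omega
  -- Legendre conditions
  have hL1 : ∀ c : ℤ, b = c → ¬ (p : ℤ) ∣ c → IsSquare ((c : ℤ) : ZMod p) := by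
    intro c hbc hpc
    rw [← hbc] at hpc ⊢
    exact h1 p hp hp2 hp5 dvd_rfl hpc
  have hL2 : ∀ c : ℤ, b = c * p → IsSquare ((c : ℤ) : ZMod p) := by
    intro c hbc
    have := h2 p hp hp2 hp5 c 1 (by rw [hbc]; ring) (by ring)
    rwa [mul_one] at this
  have hcase2 := split_prime (q := 2) (N := 5 * p) p2 hbsf (fun q hq' hqb => by
    have := hq q hq' hqb
    rwa [mul_assoc] at this)
  by_cases hA : p % 15 = 2 ∨ p % 15 = 8
  · -- `p ≡ 2 (mod 3)`, `p ≡ ± 2 (mod 5)`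
    have h5b : ¬ (5 : ℤ) ∣ b := by
      exact five_kill hS.cop hbr hstar hbsf (hm5 hA)
    rcases hcase2 with ⟨h2b, hq5⟩ | ⟨β, hβ, h2β, hβsf, hβq⟩
    · rcases split_prime p5 hbsf hq5 with ⟨-, h⟩ | ⟨γ, hγ, -⟩
      · exact key b hb0 hbsf h
      · exact absurd ⟨γ, hγ⟩ h5b
    · exfalso
      by_cases h7 : p % 8 = 7
      · exact two_kill7 hS.cop hbr hstar hbsf
          (hm8 h7) ⟨β, hβ⟩
      · have hns := hns2 h7
        have hβ0 : 0 < β := by linarith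
        have hβp : ∀ q : ℤ, Prime q → q ∣ β → q ∣ (p : ℤ) := by
          rcases split_prime p5 hβsf hβq with ⟨-, h⟩ | ⟨γ, hγ, -⟩
          · exact h
          · exact absurd ⟨2 * γ, by rw [hβ, hγ]; ring⟩ h5b
        rcases key β hβ0 hβsf hβp with h | h
        · exact hns (hL1 2 (by rw [hβ, h]; ring) (hnd 2 (by norm_num) (by norm_num)))
        · exact hns (hL2 2 (by rw [hβ, h]))
  · -- `p ≡ 1 (mod 3)`, `p ≡ ± 1 (mod 5)`
    have h3b : ¬ (3 : ℤ) ∣ b := by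
      intro h3
      have h4 := hq 3 p3 h3
      have h5 : (3 : ℤ) ∣ p := by
        rcases p3.dvd_or_dvd h4 with h4 | h4
        · exact absurd h4 (by norm_num)
        · exact h4
      have h6 : 3 ∣ p := by exact_mod_cast h5
      exact hp3 ((Nat.prime_dvd_prime_iff_eq Nat.prime_three hp).mp h6).symm
    have hp3' : ((p : ℤ) : ZMod 3) = 1 := hm3' hA
    have h3 : (b : ZMod 3) = 1 := three_mod hS.cop hbr hstar h3b hp3'
    rcases hcase2 with ⟨h2b, hq5⟩ | ⟨β, hβ, h2β, hβsf, hβq⟩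
    · rcases split_prime p5 hbsf hq5 with ⟨-, h⟩ | ⟨γ, hγ, h5γ, hγsf, hγq⟩
      · exact key b hb0 hbsf h
      · exfalso
        rcases key γ (by linarith) hγsf hγq with h | h
        · rw [hγ, h] at h3
          revert h3; decide
        · rw [hγ, h] at h3
          push_cast at h3
          push_cast at hp3'
          rw [hp3'] at h3
          revert h3; decide
    · exfalso
      by_cases h7 : p % 8 = 7
      · exact two_kill7 hS.cop hbr hstar hbsf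
          (hm8 h7) ⟨β, hβ⟩
      · have hns := hns2 h7
        have hβ0 : 0 < β := by linarith
        rcases split_prime p5 hβsf hβq with ⟨-, h⟩ | ⟨γ, hγ, h5γ, hγsf, hγq⟩
        · rcases key β hβ0 hβsf h with h | h
          · rw [hβ, h] at h3
            revert h3; decide
          · rw [hβ, h] at h3
            push_cast at h3
            push_cast at hp3'
            rw [hp3'] at h3
            revert h3; decide
        · have h5 := sq_five hp hp2 (hm5' hA)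
          have hns10 : ¬ IsSquare ((10 : ℤ) : ZMod p) := by
            intro h10
            apply hns
            have := Fact.mk hp
            have e : ((2 : ℤ) : ZMod p) = ((10 : ℤ) : ZMod p) / ((5 : ℤ) : ZMod p) := by
              rw [eq_div_iff (cast_ne (hnd 5 (by norm_num) (by norm_num)))]
              norm_num
            rw [e]
            exact h10.div h5
          rcases key γ (by linarith) hγsf hγq with h | h
          · refine hns10 (hL1 10 (by rw [hβ, hγ, h]; ring) ?_)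
            intro h0
            have h6 : (p : ℤ) ∣ 2 * 5 := by norm_num; exact h0
            rcases hpZ.dvd_or_dvd h6 with h6 | h6
            · exact hnd 2 (by norm_num) (by norm_num) h6
            · exact hnd 5 (by norm_num) (by norm_num) h6
          · exact hns10 (hL2 10 (by rw [hβ, hγ, h]; ring))

theorem HB_prime {p : ℕ} (hp : p.Prime) (h8 : p % 8 = 3 ∨ p % 8 = 5 ∨ p % 8 = 7)
    (h15 : p % 15 = 1 ∨ p % 15 = 2 ∨ p % 15 = 4 ∨ p % 15 = 8) :
    ∀ r e n : ℤ, Sol p (r ^ 2) e n →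
      ∃ s : ℤ, r ^ 2 - 16 * p * e ^ 2 = s ^ 2 ∨ r ^ 2 - 16 * p * e ^ 2 = -p * s ^ 2 := by
  have hpZ : Prime (p : ℤ) := Nat.prime_iff_prime_int.mp hp
  have hp0 : 0 < (p : ℤ) := by exact_mod_cast hp.pos
  obtain ⟨hp2, hp3, hp5, hnd, hm3, hm3', hm5, hm5', hm5'', hm8, hm8', hns2, hns1⟩ := pc hp h8 h15
  intro r e n hS
  obtain ⟨b, s, n2, hbs, hs0, hn2, hbsf, hq, h1, h2⟩ := stepB0 hS hpZ.squarefree
  refine ⟨s, ?_⟩
  suffices hb : b = 1 ∨ b = -p by
    rcases hb with hb | hb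
    · left; rw [hbs, hb, one_mul]
    · right; rw [hbs, hb]
  have hcase := split_prime (q := 3) (N := p) p3 hbsf hq
  -- `3 ∤ b`
  have h3b : ¬ (3 : ℤ) ∣ b := by
    by_cases hA : p % 15 = 2 ∨ p % 15 = 8
    · exact three_kill hS.cop hbs (hm3 hA)
    · rcases hcase with ⟨h, -⟩ | ⟨β, hβ, h3β, hβsf, hβq⟩
      · exact h
      · exfalso
        have h5b : ¬ (5 : ℤ) ∣ b := by
          intro h5
          have h4 := hq 5 p5 h5
          have h5 : (5 : ℤ) ∣ p := by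
            rcases p5.dvd_or_dvd h4 with h4 | h4
            · exact absurd h4 (by norm_num)
            · exact h4
          have h6 : 5 ∣ p := by exact_mod_cast h5
          exact hp5 ((Nat.prime_dvd_prime_iff_eq Nat.prime_five hp).mp h6).symm
        have hp5' : ((p : ℤ) : ZMod 5) = 1 ∨ ((p : ℤ) : ZMod 5) = 4 := hm5'' hA
        have h6 := five_mod hS.cop hbs hn2 h5b hp5'
        push_cast at hp5'
        rcases sf_of_prime hpZ hβsf hβq with h | h | h | h <;> rw [hβ, h] at h6 <;>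
          push_cast at h6 <;> rcases hp5' with h7 | h7 <;> (try rw [h7] at h6) <;>
          revert h6 <;> decide
  have hqp : ∀ q : ℤ, Prime q → q ∣ b → q ∣ p := by
    rcases hcase with h | ⟨β, h, -⟩
    · exact h.2
    · exact absurd ⟨β, h⟩ h3b
  have hneg : b ≠ -1 ∧ b ≠ p := by
    by_cases h5 : p % 8 = 5
    · have h2b : ¬ (2 : ℤ) ∣ b := by
        intro h2
        have h4 := hqp 2 p2 h2
        have h6 : 2 ∣ p := by exact_mod_cast h4
        exact hp2 ((Nat.prime_dvd_prime_iff_eq Nat.prime_two hp).mp h6).symm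
      have hp8 : ((p : ℤ) : ZMod 8) = 5 := hm8' h5
      have h6 := two_mod5 hS.cop hbs hn2 h2b hp8
      constructor
      · intro h
        rw [h] at h6
        revert h6; decide
      · intro h
        rw [h, hp8] at h6
        revert h6; decide
    · have hns := hns1 h5
      constructor
      · intro h
        apply hns
        rw [← h]
        refine h1 p hp hp2 dvd_rfl ?_
        rw [h]
        intro h'
        exact hpZ.not_isUnit (isUnit_of_dvd_unit h' (by decide))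
      · intro h
        apply hns
        have := h2 p hp hp2 1 1 (by rw [h]; ring) (by ring)
        simpa using this
  rcases sf_of_prime hpZ hbsf hqp with h | h | h | h
  · exact Or.inl h
  · exact absurd h hneg.1
  · exact absurd h hneg.2
  · exact Or.inr h


theorem condG_prime {p : ℕ} (hp : p.Prime) (h8 : p % 8 = 3 ∨ p % 8 = 5 ∨ p % 8 = 7)
    (h15 : p % 15 = 1 ∨ p % 15 = 2 ∨ p % 15 = 4 ∨ p % 15 = 8) : CondG (p : ℤ) :=
  ⟨by exact_mod_cast hp.pos, HA_prime hp h8 h15, HB_prime hp h8 h15⟩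

end Vale.Agent.P017.H390
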