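import Vale.Agent.P017.H390.FieldsG
import Vale.Agent.P017.H390.PrimeG
import Vale.Agent.P017.H390.Many
import Vale.Agent.P017.H121.ManyGen

set_option autoImplicit false

namespace Vale.Agent.P017.H390

universe u

/-- `X₀(15)(K)` is finite for `K = ℚ(√-d)`: for every number field `K` of degree two over `ℚ` which
contains a square root of `-d`, the curve `X15` has only finitely many points over `K`. -/
def FinitelyManyPoints (d : ℕ) : Prop :=
  ∀ (K : Type u) [Field K] [NumberField K], Module.finrank ℚ K = 2 →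
    (∃ δ : K, δ ^ 2 = -(d : K)) → Finite (X15.baseChange K).toAffine.Point

theorem X15_disc : X15.Δ = 15 ^ 4 := by
  simp only [X15, WeierstrassCurve.Δ, WeierstrassCurve.b₂, WeierstrassCurve.b₄,
    WeierstrassCurve.b₆, WeierstrassCurve.b₈]
  norm_num

theorem X15_elliptic : X15.IsElliptic := ⟨by rw [X15_disc]; norm_num⟩

theorem fin_of_condG {d : ℕ} (h : CondG (d : ℤ)) : FinitelyManyPoints.{u} d := by
  rintro K _ _ h2 ⟨δ, hδ⟩
  exact finite_K h h2 (by rw [hδ]; push_cast; rfl)

theorem infinite_classes (a b : ℕ) (ha : a = 3 ∨ a = 5 ∨ a = 7)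
    (hb : b = 1 ∨ b = 2 ∨ b = 4 ∨ b = 8) :
    {p : ℕ | p.Prime ∧ p % 8 = a ∧ p % 15 = b}.Infinite := by
  have key : ∀ c : ℕ, c.Coprime 120 → c < 120 → c % 8 = a → c % 15 = b →
      {p : ℕ | p.Prime ∧ p % 8 = a ∧ p % 15 = b}.Infinite := by
    intro c hc hlt h1 h2
    refine (Nat.infinite_setOfPred_prime_and_modEq (q := 120) (a := c) (by norm_num) hc).mono ?_
    rintro p ⟨hp, hpc⟩
    have hpc' : p % 120 = c % 120 := hpc
    exact ⟨hp, by omega, by omega⟩
  rcases ha with rfl | rfl | rfl <;> rcases hb with rfl | rfl | rfl | rfl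
  · exact key 91 (by norm_num) (by norm_num) rfl rfl
  · exact key 107 (by norm_num) (by norm_num) rfl rfl
  · exact key 19 (by norm_num) (by norm_num) rfl rfl
  · exact key 83 (by norm_num) (by norm_num) rfl rfl
  · exact key 61 (by norm_num) (by norm_num) rfl rfl
  · exact key 77 (by norm_num) (by norm_num) rfl rfl
  · exact key 109 (by norm_num) (by norm_num) rfl rfl
  · exact key 53 (by norm_num) (by norm_num) rfl rfl
  · exact key 31 (by norm_num) (by norm_num) rfl rfl
  · exact key 47 (by norm_num) (by norm_num) rfl rfl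
  · exact key 79 (by norm_num) (by norm_num) rfl rfl
  · exact key 23 (by norm_num) (by norm_num) rfl rfl

lemma R1_prime {p : ℕ} (hp : p.Prime) : R1 p := by
  intro m M hmM _ _
  rcases hp.eq_one_or_self_of_dvd m ⟨M, hmM.symm⟩ with h | h
  · exact Or.inl h
  · right
    rw [h] at hmM
    exact Nat.eq_of_mul_eq_mul_left hp.pos (by rw [hmM, mul_one])

lemma R2_prime {p : ℕ} (hp : p.Prime) : R2 p := by
  intro a b hab ha hb _ _
  have hpZ : Prime (p : ℤ) := Nat.prime_iff_prime_int.mp hp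
  have hirr : Irreducible (a * b) := by
    rw [hab]; exact hpZ.neg.irreducible
  rcases (irreducible_mul_iff.mp hirr) with h | h
  · right
    rcases Int.isUnit_iff.mp h.2 with h1 | h1
    · exact h1
    · rw [h1] at hb; norm_num at hb
  · left
    rcases Int.isUnit_iff.mp h.2 with h1 | h1
    · exact h1
    · rw [h1] at ha; norm_num at ha

theorem many (k : ℕ) (hk : 1 ≤ k) (N : ℕ) : ∃ d : ℕ, N < d ∧ Squarefree d ∧
    d.primeFactors.card = k ∧ d % 60 = 23 ∧ R1 d ∧ R2 d :=
  Vale.Agent.P017.H121.many_gen (fun d => R1 d ∧ R2 d) (fun _ hp => ⟨R1_prime hp, R2_prime hp⟩)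
    (fun _ _ _ hsf hl hld hq hqd hq4 h1 h2 h3 h =>
      ⟨R1_step ⟨hsf, hl, hld, hq, hqd, hq4, h1, h2, h3⟩ h.1,
        R2_step ⟨hsf, hl, hld, hq, hqd, hq4, h1, h2, h3⟩ h.2⟩) N k hk

end Vale.Agent.P017.H390
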