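import Mathlib
import Vale.Agent.P017.H390.ClassRA
import Vale.Agent.P017.H390.Final
import Vale.Agent.P017.H524.SplitInert
import Vale.Agent.P017.H524.FinalU

/-! `X_0(15)` over the imaginary quadratic fields in which `3` is not inert and `5` does not split
and which have no ideal class of order 4. -/

set_option autoImplicit false

open NumberField

namespace Vale.Agent.P017.H390

universe u

theorem four_of_order {G : Type*} [CommGroup G] (hcl : ∀ c : G, orderOf c ≠ 4) :
    ∀ c : G, c ^ 4 = 1 → c ^ 2 = 1 := by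
  intro c hc
  have h1 : orderOf c ∣ 4 := orderOf_dvd_of_pow_eq_one hc
  have h2 : orderOf c ∣ 2 := by
    have h3 : orderOf c ≤ 4 := Nat.le_of_dvd (by norm_num) h1
    have h4 := hcl c
    interval_cases h : orderOf c <;> simp_all
  exact orderOf_dvd_iff_pow_eq_one.mp h2

theorem leg2' : Leg2 := fun _ _ hs ha hb hab h1 h2 =>
  Vale.Agent.P017.H524.legendre2 hs ha hb hab h1 h2

theorem one_lt_of {d : ℕ} (hsf : Squarefree d) (h3 : d % 3 ≠ 1) : 1 < d := by
  have h0 : d ≠ 0 := hsf.ne_zero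
  have h1 : d ≠ 1 := by rintro rfl; exact h3 rfl
  omega

/-- the general theorem, with the elementary (Rédei) condition -/
theorem finite_RA {d : ℕ} (hsf : Squarefree d) (h3 : d % 3 ≠ 1)
    (h5 : d % 5 ≠ 1 ∧ d % 5 ≠ 4) (hRA : RA d) : FinitelyManyPoints.{u} d := by
  have h1 := one_lt_of hsf h3
  exact fin_of_condG (condG_gen (by omega) hsf h3 h5 hRA (RB_of_RA hsf hRA))

/-- the general theorem, with the class group -/
theorem finite_class {d : ℕ} (hsf : Squarefree d) (h3 : d % 3 ≠ 1)
    (h5 : d % 5 ≠ 1 ∧ d % 5 ≠ 4) (K : Type u) [Field K] [NumberField K]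
    (hK : Module.finrank ℚ K = 2) (hα : ∃ α : K, α ^ 2 = -(d : K))
    (hcl : ∀ c : ClassGroup (𝓞 K), orderOf c ≠ 4) :
    Finite (X15.baseChange K).toAffine.Point := by
  obtain ⟨α, hα'⟩ := hα
  obtain ⟨β, hβ⟩ := Vale.Agent.P017.H524.lift_alpha hα'
  exact finite_RA hsf h3 h5
    (RA_class hK (one_lt_of hsf h3) hsf hβ (four_of_order hcl) leg2') K hK ⟨α, hα'⟩

end Vale.Agent.P017.H390
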