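import Mathlib
import Vale.Agent.P017.H390.CondP

set_option autoImplicit false

namespace Vale.Agent.P017.H390

open WeierstrassCurve WeierstrassCurve.Affine

/-! ### The finite sets of rational numbers -/

lemma finite_X (A B : ℤ) [(CQ A B).IsElliptic] (h : Finite (CQ A B).toAffine.Point) :
    {x : ℚ | ∃ y : ℚ, y ^ 2 = x * (x + A) * (x + B)}.Finite := by
  refine (Set.finite_range (fun P : (CQ A B).toAffine.Point =>
    match P with
    | Point.zero => (0 : ℚ)
    | Point.some x _ _ => x)).subset ?_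
  rintro x ⟨y, hxy⟩
  exact ⟨pt hxy, rfl⟩

lemma finite_quad (b c : ℚ) : {u : ℚ | u ^ 2 + b * u + c = 0}.Finite := by
  by_cases h : ∃ u0 : ℚ, u0 ^ 2 + b * u0 + c = 0
  · obtain ⟨u0, h0⟩ := h
    refine (Set.toFinite {u0, -b - u0}).subset ?_
    intro u hu
    have hu' : u ^ 2 + b * u + c = 0 := hu
    have : (u - u0) * (u + b + u0) = 0 := by linear_combination hu' - h0
    rcases mul_eq_zero.mp this with h1 | h1
    · left; linarith
    · right
      have : u = -b - u0 := by linarith
      exact this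
  · convert Set.finite_empty
    ext u
    simp only [Set.mem_empty_iff_false, iff_false]
    exact fun hu => h ⟨u, hu⟩

lemma finite_U1 : {u : ℚ | ∃ v : ℚ, v ^ 2 = u * (u + 16) * (u + 25)}.Finite := by
  haveI : (CQ (-1) (-81)).IsElliptic := EC_ell (by norm_num) (by norm_num) (by norm_num)
    (by norm_num)
  have hX := finite_X (-1) (-81) finite_one
  refine (((Set.finite_singleton (0 : ℚ)).union
    (hX.biUnion fun x' _ => finite_quad (41 - x') 400))).subset ?_
  rintro u ⟨v, huv⟩
  by_cases hu : u = 0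
  · left; exact hu
  · right
    simp only [Set.mem_iUnion]
    refine ⟨(u + 16) * (u + 25) / u, ⟨v * (400 - u ^ 2) / u ^ 2, ?_⟩, ?_⟩
    · push_cast
      field_simp
      rw [huv]
      ring
    · change u ^ 2 + (41 - (u + 16) * (u + 25) / u) * u + 400 = 0
      field_simp
      ring

lemma finite_U2 {d : ℤ} (hd : Cond d) :
    {u : ℚ | ∃ w : ℚ, -(d : ℚ) * w ^ 2 = u * (u + 16) * (u + 25)}.Finite := by
  have hd0 := hd.pos
  have hdQ : (d : ℚ) ≠ 0 := by exact_mod_cast hd.pos.ne'
  haveI : (CQ (-16 * d) (-25 * d)).IsElliptic := EC_ell (by norm_num)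
    (by push_cast; exact mul_ne_zero (by norm_num) hdQ)
    (by push_cast; exact mul_ne_zero (by norm_num) hdQ)
    (by push_cast
        have : -16 * (d : ℚ) - -25 * d = 9 * d := by ring
        rw [this]; exact mul_ne_zero (by norm_num) hdQ)
  have hX := finite_X (-16 * d) (-25 * d) (finite_d hd)
  refine (hX.image (fun x : ℚ => -x / (d : ℚ))).subset ?_
  rintro u ⟨w, huw⟩
  refine ⟨-d * u, ⟨d ^ 2 * w, ?_⟩, by field_simp⟩
  push_cast
  linear_combination (-(d : ℚ) ^ 3) * huw

/-- The modular curve `X₀(15)`: the elliptic curve `y² + xy + y = x³ + x² - 10x - 10` (15.a5). -/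
def X15 : WeierstrassCurve ℚ := ⟨1, 1, 1, -10, -10⟩

section

variable {K : Type*} [Field K] [Algebra ℚ K]

lemma X15_eq (x y : K) : (X15.baseChange K).toAffine.Equation x y ↔
    y ^ 2 + x * y + y = x ^ 3 + x ^ 2 - 10 * x - 10 := by
  rw [equation_iff]
  simp only [X15, WeierstrassCurve.baseChange, WeierstrassCurve.map_a₁,
    WeierstrassCurve.map_a₂, WeierstrassCurve.map_a₃, WeierstrassCurve.map_a₄,
    WeierstrassCurve.map_a₆, map_one, map_neg, map_ofNat, one_mul, neg_mul]
  constructor <;> intro h <;> linear_combination h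

lemma X15_negY (x y : K) : (X15.baseChange K).toAffine.negY x y = -y - x - 1 := by
  simp [negY, X15, WeierstrassCurve.baseChange]

lemma X15_uv {x y : K} (h : (X15.baseChange K).toAffine.Equation x y) :
    (4 * (2 * y + x + 1)) ^ 2 = (4 * x - 12) * ((4 * x - 12) + 16) * ((4 * x - 12) + 25) := by
  rw [X15_eq] at h
  linear_combination 64 * h

omit [Algebra ℚ K] in
/-- the points with first coordinate in a finite set are finite in number -/
lemma finite_of_x (W : WeierstrassCurve K) {S : Set K} (hS : S.Finite) :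
    {Q : W.toAffine.Point | Q = 0 ∨ ∃ x y h, Q = Point.some x y h ∧ x ∈ S}.Finite := by
  have key : ∀ x : K, {Q : W.toAffine.Point | ∃ y h, Q = Point.some x y h}.Finite := by
    intro x
    by_cases h : ∃ Q : W.toAffine.Point, ∃ y h, Q = Point.some x y h
    · obtain ⟨Q0, y0, h0, rfl⟩ := h
      refine (Set.toFinite {Point.some x y0 h0, -Point.some x y0 h0}).subset ?_
      rintro Q ⟨y, h, rfl⟩
      rcases Y_eq_of_X_eq h.1 h0.1 rfl with h1 | h1
      · left
        subst h1; rfl
      · right
        subst h1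
        rfl
    · convert Set.finite_empty
      ext Q
      simp only [Set.mem_empty_iff_false, iff_false]
      exact fun hQ => h ⟨Q, hQ⟩
  refine ((Set.finite_singleton (0 : W.toAffine.Point)).union
    (hS.biUnion fun x _ => key x)).subset ?_
  rintro Q (rfl | ⟨x, y, h, rfl, hx⟩)
  · left; rfl
  · right
    simp only [Set.mem_iUnion]
    exact ⟨x, hx, y, h, rfl⟩

lemma finite_of_hom {G : Type*} [AddCommGroup G] (τ : G →+ G)
    (h0 : {P : G | P + P = 0}.Finite) (h1 : {P : G | τ P = P}.Finite)
    (h2 : {P : G | τ P = -P}.Finite) (hτ : ∀ P, τ (τ P) = P) : Finite G := by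
  rw [← Set.finite_univ_iff]
  have h3 : Set.univ = (fun P : G => (P + τ P, P - τ P)) ⁻¹'
      ({P : G | τ P = P} ×ˢ {P : G | τ P = -P}) := by
    ext P
    simp only [Set.mem_univ, Set.mem_preimage, Set.mem_prod, true_iff]
    constructor
    · change τ (P + τ P) = P + τ P
      rw [map_add, hτ, add_comm]
    · change τ (P - τ P) = -(P - τ P)
      rw [map_sub, hτ]; abel
  rw [h3]
  refine Set.Finite.preimage' (h1.prod h2) ?_
  rintro b -
  by_cases hb : ∃ P0 : G, (fun P : G => (P + τ P, P - τ P)) P0 = b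
  · obtain ⟨P0, hP0⟩ := hb
    refine (h0.image (fun P => P + P0)).subset ?_
    intro P hP
    have hP : (P + τ P, P - τ P) = (P0 + τ P0, P0 - τ P0) := by
      rw [← hP0] at hP
      exact hP
    rw [Prod.mk.injEq] at hP
    refine ⟨P - P0, ?_, by abel⟩
    change P - P0 + (P - P0) = 0
    have e1 : P - P0 + (P - P0) = (P + τ P) - (P0 + τ P0) + ((P - τ P) - (P0 - τ P0)) := by abel
    rw [e1, hP.1, hP.2]; abel
  · convert Set.finite_empty
    ext Q
    simp only [Set.mem_empty_iff_false, iff_false]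
    exact fun hQ => hb ⟨Q, hQ⟩

lemma exists_conj {d : ℤ} (hd : 0 < d) (h2 : Module.finrank ℚ K = 2) {δ : K}
    (hδ : δ ^ 2 = -(d : K)) :
    ∃ σ : K ≃ₐ[ℚ] K, σ δ = -δ := by
  have hQ : δ ∉ Set.range (algebraMap ℚ K) := by
    rintro ⟨q, rfl⟩
    have h3 : algebraMap ℚ K (q ^ 2) = algebraMap ℚ K (-(d : ℚ)) := by
      rw [map_pow, hδ]; simp
    have h4 := (algebraMap ℚ K).injective h3
    have : (0 : ℚ) < d := by exact_mod_cast hd
    nlinarith [sq_nonneg q]
  have : Algebra.IsQuadraticExtension ℚ K :=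
    { toFree := inferInstance, finrank_eq_two' := h2 }
  have : CharZero K := algebraRat.charZero K
  rw [IsGalois.mem_range_algebraMap_iff_fixed] at hQ
  push Not at hQ
  obtain ⟨σ, hσ⟩ := hQ
  refine ⟨σ, ?_⟩
  have h3 : (σ δ) ^ 2 = δ ^ 2 := by
    rw [← map_pow, hδ, map_neg, map_intCast]
  rcases sq_eq_sq_iff_eq_or_eq_neg.mp h3 with h | h
  · exact absurd h hσ
  · exact h

lemma exists_decomp {d : ℤ} (hd : 0 < d) (h2 : Module.finrank ℚ K = 2) {δ : K}
    (hδ : δ ^ 2 = -(d : K)) (x : K) :
    ∃ a b : ℚ, x = algebraMap ℚ K a + algebraMap ℚ K b * δ := by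
  have hli : LinearIndependent ℚ ![(1 : K), δ] := by
    rw [LinearIndependent.pair_iff]
    intro s t hst
    rw [Algebra.smul_def, Algebra.smul_def, mul_one] at hst
    have ht : t = 0 := by
      by_contra ht
      have h3 : algebraMap ℚ K (s ^ 2) = algebraMap ℚ K (-(d : ℚ) * t ^ 2) := by
        have : algebraMap ℚ K s = - (algebraMap ℚ K t * δ) := by linear_combination hst
        rw [map_pow, this]
        simp only [map_mul, map_neg, map_intCast, map_pow]
        linear_combination (algebraMap ℚ K t) ^ 2 * hδ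
      have h4 := (algebraMap ℚ K).injective h3
      have h5 : (0 : ℚ) < d := by exact_mod_cast hd
      have h6 : 0 < t ^ 2 := by positivity
      nlinarith [sq_nonneg s, mul_pos h5 h6]
    subst ht
    refine ⟨?_, rfl⟩
    rw [map_zero, zero_mul, add_zero] at hst
    exact (map_eq_zero_iff _ (algebraMap ℚ K).injective).mp hst
  obtain ⟨b, hb⟩ : ∃ b : Module.Basis (Fin 2) ℚ K, (b : Fin 2 → K) = ![1, δ] :=
    ⟨basisOfLinearIndependentOfCardEqFinrank hli (by simp [h2]), by simp⟩
  have h3 := b.sum_repr x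
  rw [Fin.sum_univ_two, hb, Algebra.smul_def, Algebra.smul_def] at h3
  refine ⟨b.repr x 0, b.repr x 1, ?_⟩
  have e0 : (![(1 : K), δ] : Fin 2 → K) 0 = 1 := rfl
  have e1 : (![(1 : K), δ] : Fin 2 → K) 1 = δ := rfl
  rw [e0, e1, mul_one] at h3
  exact h3.symm

open Classical in
theorem finite_K {d : ℤ} (hd : Cond d) (h2 : Module.finrank ℚ K = 2) {δ : K}
    (hδ : δ ^ 2 = -(d : K)) : Finite (X15.baseChange K).toAffine.Point := by
  have : CharZero K := algebraRat.charZero K
  obtain ⟨σ, hσ⟩ := exists_conj hd.pos h2 hδ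
  have hδ0 : δ ≠ 0 := by
    rintro rfl
    have : (d : K) = 0 := by linear_combination hδ
    exact hd.pos.ne' (by exact_mod_cast this)
  have h2K : (2 : K) ≠ 0 := two_ne_zero
  have hσσ : ∀ x : K, σ (σ x) = x := by
    intro x
    obtain ⟨a, b, rfl⟩ := exists_decomp hd.pos h2 hδ x
    simp only [map_add, map_mul, AlgEquiv.commutes, hσ, map_neg, neg_neg]
  have hfix : ∀ x : K, σ x = x → ∃ a : ℚ, x = algebraMap ℚ K a := by
    intro x hx
    obtain ⟨a, b, rfl⟩ := exists_decomp hd.pos h2 hδ x
    simp only [map_add, map_mul, AlgEquiv.commutes, hσ] at hx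
    have h3 : 2 * (algebraMap ℚ K b * δ) = 0 := by linear_combination -hx
    have h4 := (mul_eq_zero.mp h3).resolve_left h2K
    exact ⟨a, by rw [h4, add_zero]⟩
  have hanti : ∀ x : K, σ x = -x → ∃ a : ℚ, x = algebraMap ℚ K a * δ := by
    intro x hx
    obtain ⟨a, b, rfl⟩ := exists_decomp hd.pos h2 hδ x
    simp only [map_add, map_mul, AlgEquiv.commutes, hσ] at hx
    have h3 : 2 * (algebraMap ℚ K a) = 0 := by linear_combination hx
    have h4 := (mul_eq_zero.mp h3).resolve_left h2K
    exact ⟨b, by rw [h4, zero_add]⟩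
  let τ : (X15.baseChange K).toAffine.Point →+ (X15.baseChange K).toAffine.Point :=
    Point.map (W' := X15) (σ : K →ₐ[ℚ] K)
  have hτs : ∀ {x y : K} (h : (X15.baseChange K).toAffine.Nonsingular x y),
      ∃ h', τ (Point.some x y h) = Point.some (σ x) (σ y) h' := by
    intro x y h
    exact ⟨_, Point.map_some (W' := X15) (f := (σ : K →ₐ[ℚ] K)) h⟩
  refine finite_of_hom τ ?_ ?_ ?_ ?_
  · -- two-torsion
    refine (finite_of_x (X15.baseChange K) (S := {3, -1, -13 / 4}) (Set.toFinite _)).subset ?_
    intro P hP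
    have hP : P + P = 0 := hP
    rcases P with _ | ⟨x, y, h⟩
    · exact Or.inl rfl
    · right
      refine ⟨x, y, h, rfl, ?_⟩
      have hn : Point.some x y h = -Point.some x y h := eq_neg_of_add_eq_zero_left hP
      rw [Point.neg_some, Point.some.injEq] at hn
      have hy := hn.2
      rw [X15_negY] at hy
      have h3 := X15_uv h.1
      have h4 : 2 * y + x + 1 = 0 := by linear_combination hy
      rw [h4] at h3
      have h5 : (x - 3) * (x + 1) * (4 * x + 13) = 0 := by
        have : (16 : K) * ((x - 3) * (x + 1) * (4 * x + 13)) = 0 := by linear_combination -h3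
        exact (mul_eq_zero.mp this).resolve_left (by norm_num)
      rcases mul_eq_zero.mp h5 with h5 | h5
      · rcases mul_eq_zero.mp h5 with h5 | h5
        · left; linear_combination h5
        · right; left; linear_combination h5
      · right; right
        change x = -13 / 4
        field_simp
        linear_combination h5
  · -- fixed points
    refine (finite_of_x (X15.baseChange K) (S := (fun u : ℚ => algebraMap ℚ K ((u + 12) / 4)) ''
      {u : ℚ | ∃ v : ℚ, v ^ 2 = u * (u + 16) * (u + 25)}) (finite_U1.image _)).subset ?_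
    intro P hP
    have hP : τ P = P := hP
    rcases P with _ | ⟨x, y, h⟩
    · exact Or.inl rfl
    · right
      refine ⟨x, y, h, rfl, ?_⟩
      obtain ⟨h', e⟩ := hτs h
      rw [e, Point.some.injEq] at hP
      obtain ⟨a, ha⟩ := hfix x hP.1
      obtain ⟨b, hb⟩ := hfix y hP.2
      refine ⟨4 * a - 12, ⟨4 * (2 * b + a + 1), ?_⟩, ?_⟩
      · apply (algebraMap ℚ K).injective
        have h3 := X15_uv h.1
        rw [ha, hb] at h3
        simp only [map_pow, map_mul, map_add, map_sub, map_one, map_ofNat]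
        exact h3
      · rw [ha]
        congr 1
        ring
  · -- anti-fixed points
    refine (finite_of_x (X15.baseChange K) (S := (fun u : ℚ => algebraMap ℚ K ((u + 12) / 4)) ''
      {u : ℚ | ∃ w : ℚ, -(d : ℚ) * w ^ 2 = u * (u + 16) * (u + 25)})
      ((finite_U2 hd).image _)).subset ?_
    intro P hP
    have hP : τ P = -P := hP
    rcases P with _ | ⟨x, y, h⟩
    · exact Or.inl rfl
    · right
      refine ⟨x, y, h, rfl, ?_⟩
      obtain ⟨h', e⟩ := hτs h
      rw [e, Point.neg_some, Point.some.injEq, X15_negY] at hP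
      obtain ⟨a, ha⟩ := hfix x hP.1
      obtain ⟨b, hb⟩ := hanti (2 * y + x + 1) (by
        simp only [map_add, map_mul, map_one, map_ofNat, hP.1, hP.2]; ring)
      refine ⟨4 * a - 12, ⟨4 * b, ?_⟩, ?_⟩
      · apply (algebraMap ℚ K).injective
        have h3 := X15_uv h.1
        rw [hb, ha] at h3
        simp only [map_pow, map_mul, map_add, map_sub, map_neg, map_ofNat, map_intCast]
        rw [← h3]
        linear_combination (-16 * (algebraMap ℚ K b) ^ 2) * hδ
      · rw [ha]
        congr 1
        ring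
  · intro P
    rcases P with _ | ⟨x, y, h⟩
    · rfl
    · obtain ⟨h', e⟩ := hτs h
      obtain ⟨h'', e'⟩ := hτs h'
      rw [e, e', Point.some.injEq]
      exact ⟨hσσ x, hσσ y⟩

end

end Vale.Agent.P017.H390
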