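import Vale.Agent.P017.H766.Legendre
import Vale.Agent.P017.H524.Defs

set_option autoImplicit false

/-! Legendre's theorem for `n z² = a x² + b y²` and the norm form of the criterion. -/

namespace Vale.Agent.P017.H390

open P017.H766
open Vale.Agent.P017.H524 (SqMod)

theorem legendreN {n a b : ℕ} (hs : Squarefree (a * b)) (hn : Squarefree n) (hn1 : 1 < n)
    (hcn : Nat.Coprime (a * b) n) (hab1 : 1 < a * b)
    (h1 : ∀ q : ℕ, q.Prime → q ∣ b → IsSquare ((n * a : ℕ) : ZMod q))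
    (h2 : ∀ q : ℕ, q.Prime → q ∣ a → IsSquare ((n * b : ℕ) : ZMod q))
    (h3 : ∀ q : ℕ, q.Prime → q ∣ n → ∃ t : ℤ, (q : ℤ) ∣ t ^ 2 - (-((a : ℤ) * b))) :
    ∃ x y z : ℤ, n * z ^ 2 = a * x ^ 2 + b * y ^ 2 ∧ z ≠ 0 := by
  have hsa : Squarefree a := hs.squarefree_of_dvd (Dvd.intro _ rfl)
  have hsb : Squarefree b := hs.squarefree_of_dvd (Dvd.intro_left _ rfl)
  have hcop : Nat.Coprime a b := Nat.coprime_of_squarefree_mul hs
  have hcna : Nat.Coprime n a := (Nat.Coprime.coprime_dvd_left (Dvd.intro _ rfl) hcn).symm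
  have hcnb : Nat.Coprime n b := (Nat.Coprime.coprime_dvd_left (Dvd.intro_left _ rfl) hcn).symm
  have hs2a : Squarefree (n * a) := (Nat.squarefree_mul hcna).mpr ⟨hn, hsa⟩
  have hs2b : Squarefree (n * b) := (Nat.squarefree_mul hcnb).mpr ⟨hn, hsb⟩
  have ha0' : 0 < a := Nat.pos_of_ne_zero hsa.ne_zero
  have hb0' : 0 < b := Nat.pos_of_ne_zero hsb.ne_zero
  have hn0' : 0 < n := by omega
  have h1na : 1 < n * a := by nlinarith
  have h1nb : 1 < n * b := by nlinarith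
  obtain ⟨α, hα⟩ := sq_mod_squarefree ((n * a : ℕ) : ℤ) b hsb
    (fun q hq hqb => exists_int_of_isSquare (h1 q hq hqb))
  obtain ⟨β, hβ⟩ := sq_mod_squarefree ((n * b : ℕ) : ℤ) a hsa
    (fun q hq hqa => exists_int_of_isSquare (h2 q hq hqa))
  obtain ⟨γ, hγ⟩ := sq_mod_squarefree (-((a : ℤ) * b)) n hn h3
  have : NeZero a := ⟨by omega⟩
  have : NeZero b := ⟨by omega⟩
  have : NeZero n := ⟨by omega⟩
  -- the box
  let s : Finset (ℕ × ℕ × ℕ) := (Finset.range (Nat.sqrt (n * b) + 1)) ×ˢ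
    ((Finset.range (Nat.sqrt (n * a) + 1)) ×ˢ (Finset.range (Nat.sqrt (a * b) + 1)))
  let f : ℕ × ℕ × ℕ → ZMod b × ZMod a × ZMod n := fun p =>
    ((((a : ℤ) * (p.1 : ℤ) - α * (p.2.2 : ℤ) : ℤ) : ZMod b),
      (((b : ℤ) * (p.2.1 : ℤ) - β * (p.2.2 : ℤ) : ℤ) : ZMod a),
      (((b : ℤ) * (p.2.1 : ℤ) - γ * (p.1 : ℤ) : ℤ) : ZMod n))
  have hcard : (Finset.univ : Finset (ZMod b × ZMod a × ZMod n)).card < s.card := by
    have e1 : (Finset.univ : Finset (ZMod b × ZMod a × ZMod n)).card = b * (a * n) := by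
      rw [Finset.card_univ, Fintype.card_prod, Fintype.card_prod, ZMod.card, ZMod.card, ZMod.card]
    have e2 : s.card = (Nat.sqrt (n * b) + 1) *
        ((Nat.sqrt (n * a) + 1) * (Nat.sqrt (a * b) + 1)) := by
      simp [s, Finset.card_product]
    rw [e1, e2]
    have l1 := Nat.lt_succ_sqrt (n * b)
    have l2 := Nat.lt_succ_sqrt (n * a)
    have l3 := Nat.lt_succ_sqrt (a * b)
    rw [Nat.succ_eq_add_one] at l1 l2 l3
    by_contra hcon
    push Not at hcon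
    have k1 := Nat.mul_le_mul hcon hcon
    have k2 : (n * b) * ((n * a) * (a * b)) < ((Nat.sqrt (n * b) + 1) * (Nat.sqrt (n * b) + 1)) *
        (((Nat.sqrt (n * a) + 1) * (Nat.sqrt (n * a) + 1)) *
          ((Nat.sqrt (a * b) + 1) * (Nat.sqrt (a * b) + 1))) := by
      apply Nat.mul_lt_mul_of_lt_of_lt l1
      exact Nat.mul_lt_mul_of_lt_of_lt l2 l3
    have k3 : ((Nat.sqrt (n * b) + 1) * (Nat.sqrt (n * b) + 1)) *
        (((Nat.sqrt (n * a) + 1) * (Nat.sqrt (n * a) + 1)) *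
          ((Nat.sqrt (a * b) + 1) * (Nat.sqrt (a * b) + 1))) =
        ((Nat.sqrt (n * b) + 1) * ((Nat.sqrt (n * a) + 1) * (Nat.sqrt (a * b) + 1))) *
        ((Nat.sqrt (n * b) + 1) * ((Nat.sqrt (n * a) + 1) * (Nat.sqrt (a * b) + 1))) := by ring
    have k4 : (n * b) * ((n * a) * (a * b)) = (b * (a * n)) * (b * (a * n)) := by ring
    rw [k3, k4] at k2
    exact absurd k1 (not_le.mpr k2)
  obtain ⟨p, hp, p', hp', hne, hf⟩ :=
    Finset.exists_ne_map_eq_of_card_lt_of_maps_to hcard (f := f) (fun _ _ => Finset.mem_univ _)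
  obtain ⟨x1, y1, z1⟩ := p
  obtain ⟨x2, y2, z2⟩ := p'
  simp only [s, Finset.mem_product, Finset.mem_range] at hp hp'
  simp only [f, Prod.mk.injEq] at hf
  obtain ⟨hx1, hy1, hz1⟩ := hp
  obtain ⟨hx2, hy2, hz2⟩ := hp'
  obtain ⟨hf1, hf2, hf3⟩ := hf
  -- the difference
  have sqlt : ∀ (n : ℕ), Squarefree n → 1 < n → ∀ u v : ℕ, u < Nat.sqrt n + 1 →
      v < Nat.sqrt n + 1 → ((u : ℤ) - v) ^ 2 < n := by
    intro n hn h1n u v hu hv
    have key : ((u : ℤ) - v).natAbs ≤ Nat.sqrt n := by omega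
    have k1 : ((u : ℤ) - v).natAbs ^ 2 ≤ n := by
      calc ((u : ℤ) - v).natAbs ^ 2 ≤ (Nat.sqrt n) ^ 2 := Nat.pow_le_pow_left key 2
        _ ≤ n := Nat.sqrt_le' n
    have k2 : ((u : ℤ) - v).natAbs ^ 2 < n :=
      lt_of_le_of_ne k1 (sq_ne_of_squarefree hn h1n _)
    have k3 : ((((u : ℤ) - v).natAbs ^ 2 : ℕ) : ℤ) < (n : ℤ) := by exact_mod_cast k2
    have k4 : ((((u : ℤ) - v).natAbs ^ 2 : ℕ) : ℤ) = ((u : ℤ) - v) ^ 2 := by
      push_cast
      rw [sq_abs]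
    rw [k4] at k3
    exact k3
  set x : ℤ := (x1 : ℤ) - x2 with hx
  set y : ℤ := (y1 : ℤ) - y2 with hy
  set z : ℤ := (z1 : ℤ) - z2 with hz
  have bx : x ^ 2 < ((n * b : ℕ) : ℤ) := sqlt (n * b) hs2b h1nb x1 x2 hx1 hx2
  have by' : y ^ 2 < ((n * a : ℕ) : ℤ) := sqlt (n * a) hs2a h1na y1 y2 hy1 hy2
  have bz : z ^ 2 < ((a * b : ℕ) : ℤ) := sqlt (a * b) hs hab1 z1 z2 hz1 hz2
  push_cast at bx by' bz hα hβ
  have c1 : (b : ℤ) ∣ a * x - α * z := by
    rw [← ZMod.intCast_zmod_eq_zero_iff_dvd]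
    have : a * x - α * z = ((a : ℤ) * x1 - α * z1) - ((a : ℤ) * x2 - α * z2) := by
      rw [hz, hx]; ring
    rw [this, Int.cast_sub, hf1, sub_self]
  have c2 : (a : ℤ) ∣ b * y - β * z := by
    rw [← ZMod.intCast_zmod_eq_zero_iff_dvd]
    have : b * y - β * z = ((b : ℤ) * y1 - β * z1) - ((b : ℤ) * y2 - β * z2) := by
      rw [hz, hy]; ring
    rw [this, Int.cast_sub, hf2, sub_self]
  have c3 : (n : ℤ) ∣ b * y - γ * x := by
    rw [← ZMod.intCast_zmod_eq_zero_iff_dvd]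
    have : b * y - γ * x = ((b : ℤ) * y1 - γ * x1) - ((b : ℤ) * y2 - γ * x2) := by
      rw [hx, hy]; ring
    rw [this, Int.cast_sub, hf3, sub_self]
  have hcz : IsCoprime (a : ℤ) (b : ℤ) := Nat.isCoprime_iff_coprime.mpr hcop
  have hcnbz : IsCoprime (n : ℤ) (b : ℤ) := Nat.isCoprime_iff_coprime.mpr hcnb
  have d1 : (b : ℤ) ∣ a * x ^ 2 + b * y ^ 2 - n * z ^ 2 := by
    have e : (b : ℤ) ∣ a * (a * x ^ 2 + b * y ^ 2 - n * z ^ 2) := by
      have : (a : ℤ) * (a * x ^ 2 + b * y ^ 2 - n * z ^ 2) =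
          (a * x - α * z) * (a * x + α * z) + (α ^ 2 - n * a) * z ^ 2 + b * (a * y ^ 2) := by ring
      rw [this]
      exact dvd_add (dvd_add (Dvd.dvd.mul_right c1 _) (Dvd.dvd.mul_right hα _)) (Dvd.intro _ rfl)
    exact hcz.symm.dvd_of_dvd_mul_left e
  have d2 : (a : ℤ) ∣ a * x ^ 2 + b * y ^ 2 - n * z ^ 2 := by
    have e : (a : ℤ) ∣ b * (a * x ^ 2 + b * y ^ 2 - n * z ^ 2) := by
      have : (b : ℤ) * (a * x ^ 2 + b * y ^ 2 - n * z ^ 2) =
          (b * y - β * z) * (b * y + β * z) + (β ^ 2 - n * b) * z ^ 2 + a * (b * x ^ 2) := by ring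
      rw [this]
      exact dvd_add (dvd_add (Dvd.dvd.mul_right c2 _) (Dvd.dvd.mul_right hβ _)) (Dvd.intro _ rfl)
    exact hcz.dvd_of_dvd_mul_left e
  have d3 : (n : ℤ) ∣ a * x ^ 2 + b * y ^ 2 - n * z ^ 2 := by
    have e : (n : ℤ) ∣ b * (a * x ^ 2 + b * y ^ 2 - n * z ^ 2) := by
      have : (b : ℤ) * (a * x ^ 2 + b * y ^ 2 - n * z ^ 2) =
          (b * y - γ * x) * (b * y + γ * x) + (γ ^ 2 - (-((a : ℤ) * b))) * x ^ 2
            + n * (-b * z ^ 2) := by ring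
      rw [this]
      exact dvd_add (dvd_add (Dvd.dvd.mul_right c3 _) (Dvd.dvd.mul_right hγ _)) (Dvd.intro _ rfl)
    exact hcnbz.dvd_of_dvd_mul_left e
  have habn : IsCoprime ((a : ℤ) * b) n := by
    have := Nat.isCoprime_iff_coprime.mpr hcn
    push_cast at this
    exact this
  obtain ⟨k, hk⟩ := habn.mul_dvd (hcz.mul_dvd d2 d1) d3
  have ha0 : (0 : ℤ) < a := by exact_mod_cast ha0'
  have hb0 : (0 : ℤ) < b := by exact_mod_cast hb0'
  have hn0 : (0 : ℤ) < n := by exact_mod_cast hn0'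
  have hab0 : (0 : ℤ) < (a : ℤ) * b * n := mul_pos (mul_pos ha0 hb0) hn0
  have q1 : (a : ℤ) * x ^ 2 < a * (n * b) := mul_lt_mul_of_pos_left bx ha0
  have q2 : (b : ℤ) * y ^ 2 < b * (n * a) := mul_lt_mul_of_pos_left by' hb0
  have q3 : (0 : ℤ) ≤ a * x ^ 2 := by positivity
  have q4 : (0 : ℤ) ≤ b * y ^ 2 := by positivity
  have q5 : (0 : ℤ) ≤ n * z ^ 2 := by positivity
  have q6 : (n : ℤ) * z ^ 2 < n * (a * b) := mul_lt_mul_of_pos_left bz hn0
  have r1 : (a : ℤ) * (n * b) = a * b * n := by ring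
  have r2 : (b : ℤ) * (n * a) = a * b * n := by ring
  have r3 : (n : ℤ) * (a * b) = a * b * n := by ring
  rw [r1] at q1
  rw [r2] at q2
  rw [r3] at q6
  have hk1 : k < 2 := by
    by_contra hcon
    push Not at hcon
    have : (a : ℤ) * b * n * 2 ≤ a * b * n * k :=
      mul_le_mul_of_nonneg_left hcon hab0.le
    linarith
  have hk2 : -1 < k := by
    by_contra hcon
    push Not at hcon
    have : (a : ℤ) * b * n * k ≤ a * b * n * (-1) :=
      mul_le_mul_of_nonneg_left hcon hab0.le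
    linarith
  have hk3 : k = 0 ∨ k = 1 := by omega
  rcases hk3 with rfl | rfl
  · refine ⟨x, y, z, by linarith, ?_⟩
    intro hz0
    have e : (a : ℤ) * x ^ 2 + b * y ^ 2 = 0 := by rw [hz0] at hk; linarith
    have ex : (a : ℤ) * x ^ 2 = 0 := by linarith
    have ey : (b : ℤ) * y ^ 2 = 0 := by linarith
    have ex' : x = 0 := by
      rcases mul_eq_zero.mp ex with h | h
      · exact absurd h ha0.ne'
      · exact pow_eq_zero_iff (two_ne_zero) |>.mp h
    have ey' : y = 0 := by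
      rcases mul_eq_zero.mp ey with h | h
      · exact absurd h hb0.ne'
      · exact pow_eq_zero_iff (two_ne_zero) |>.mp h
    apply hne
    have g1 : x1 = x2 := by omega
    have g2 : y1 = y2 := by omega
    have g3 : z1 = z2 := by omega
    rw [g1, g2, g3]
  · refine ⟨x * z + b * y, y * z - a * x, z ^ 2 + a * b, ?_, ?_⟩
    · have e : (a : ℤ) * x ^ 2 + b * y ^ 2 = n * (z ^ 2 + a * b) := by linarith
      have : (a : ℤ) * (x * z + b * y) ^ 2 + b * (y * z - a * x) ^ 2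
          = (z ^ 2 + a * b) * (a * x ^ 2 + b * y ^ 2) := by ring
      rw [this, e]; ring
    · have h5 : (0 : ℤ) < a * b := mul_pos ha0 hb0
      have h6 : (0 : ℤ) ≤ z ^ 2 := sq_nonneg z
      linarith

/-- a solution of `t z² = a x² + b y²` makes `t a` a norm -/
theorem norm_of_sol {t a b : ℕ} (h : ∃ x y z : ℤ, (t : ℤ) * z ^ 2 = a * x ^ 2 + b * y ^ 2 ∧ z ≠ 0) :
    ∃ x y : ℚ, x ^ 2 + ((a * b : ℕ) : ℚ) * y ^ 2 = ((t * a : ℕ) : ℚ) := by
  obtain ⟨x, y, z, h1, hz⟩ := h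
  have hz' : (z : ℚ) ≠ 0 := by exact_mod_cast hz
  have h2 : (t : ℚ) * z ^ 2 = a * x ^ 2 + b * y ^ 2 := by exact_mod_cast h1
  refine ⟨a * x / z, y / z, ?_⟩
  push_cast
  field_simp
  linear_combination (-(a : ℚ)) * h2

lemma sqMod_nat' {u b : ℕ} (h : SqMod (u : ℤ) b) :
    ∀ q : ℕ, q.Prime → q ∣ b → IsSquare ((u : ℕ) : ZMod q) := by
  intro q hq hqb
  have := h q hq (by exact_mod_cast hqb)
  simpa using this

/-- The norm form of the criterion, `3` inert and `5` split. -/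
theorem normB {d : ℕ} (hsf : Squarefree d) (hd1 : 1 < d) (h3 : d % 3 = 1)
    (h5 : d % 5 = 1 ∨ d % 5 = 4)
    (HN : ∀ m : ℕ, m ∣ 10 * d → (m ∣ 5 * d ∨ d % 4 = 1) → m % 3 = 1 →
      (∃ x y : ℚ, x ^ 2 + d * y ^ 2 = m) → m = 1 ∨ m = d)
    (t a b : ℕ) (ht : t = 1 ∨ t = 5 ∨ (d % 4 = 1 ∧ (t = 2 ∨ t = 10))) (hab : a * b = d)
    (hta : (t * a) % 3 = 1) (s1 : SqMod ((t : ℤ) * a) b) (s2 : SqMod ((t : ℤ) * b) a) :
    t = 1 ∧ (a = 1 ∨ b = 1) := by
  have hsab : Squarefree (a * b) := by rw [hab]; exact hsf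
  have h1ab : 1 < a * b := by rw [hab]; exact hd1
  have g1 : ∀ q : ℕ, q.Prime → q ∣ b → IsSquare ((t * a : ℕ) : ZMod q) :=
    sqMod_nat' (by push_cast; exact s1)
  have g2 : ∀ q : ℕ, q.Prime → q ∣ a → IsSquare ((t * b : ℕ) : ZMod q) :=
    sqMod_nat' (by push_cast; exact s2)
  have hd5 : ¬ 5 ∣ d := by omega
  -- divisibility of `t a`
  have hdiv : t * a ∣ 10 * d ∧ (t * a ∣ 5 * d ∨ d % 4 = 1) := by
    have had : a ∣ d := ⟨b, hab.symm⟩
    rcases ht with rfl | rfl | ⟨h4, rfl | rfl⟩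
    · rw [one_mul]
      exact ⟨had.mul_left 10, Or.inl (had.mul_left 5)⟩
    · exact ⟨(mul_dvd_mul_left 5 had).trans ⟨2, by ring⟩, Or.inl (mul_dvd_mul_left 5 had)⟩
    · exact ⟨(mul_dvd_mul_left 2 had).trans ⟨5, by ring⟩, Or.inr h4⟩
    · exact ⟨mul_dvd_mul_left 10 had, Or.inr h4⟩
  by_cases ht1 : t = 1
  · subst ht1
    refine ⟨rfl, ?_⟩
    by_contra hne
    push Not at hne
    have ha0 : a ≠ 0 := by rintro rfl; rw [zero_mul] at h1ab; omega
    have hb0 : b ≠ 0 := by rintro rfl; rw [mul_zero] at h1ab; omega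
    obtain ⟨x, y, z, h6, h7⟩ := legendre hsab (by omega) (by omega)
      (by simpa using g1) (by simpa using g2)
    have h8 := norm_of_sol (t := 1) (a := a) (b := b) ⟨x, y, z, by rw [Nat.cast_one, one_mul]; exact h6, h7⟩
    rw [hab] at h8
    rcases HN (1 * a) hdiv.1 hdiv.2 hta h8 with h9 | h9
    · exact hne.1 (by omega)
    · apply hne.2
      rw [one_mul] at h9
      rw [h9] at hab
      exact Nat.eq_of_mul_eq_mul_left (by omega : 0 < d) (by rw [hab, mul_one])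
  · exfalso
    have ht' : t = 5 ∨ (d % 4 = 1 ∧ (t = 2 ∨ t = 10)) := by tauto
    have htsf : Squarefree t := by
      rcases ht' with rfl | ⟨_, rfl | rfl⟩
      · exact Nat.prime_five.squarefree
      · exact Nat.prime_two.squarefree
      · exact (Nat.squarefree_mul (m := 2) (n := 5) (by norm_num)).mpr
          ⟨Nat.prime_two.squarefree, Nat.prime_five.squarefree⟩
    have h1t : 1 < t := by
      rcases ht' with rfl | ⟨_, rfl | rfl⟩ <;> norm_num
    have hc5 : Nat.Coprime d 5 := ((Nat.Prime.coprime_iff_not_dvd Nat.prime_five).mpr hd5).symm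
    have hc2 : d % 4 = 1 → Nat.Coprime d 2 := by
      intro h4
      exact ((Nat.Prime.coprime_iff_not_dvd Nat.prime_two).mpr (by omega)).symm
    have hcop : Nat.Coprime (a * b) t := by
      rw [hab]
      rcases ht' with rfl | ⟨h4, rfl | rfl⟩
      · exact hc5
      · exact hc2 h4
      · exact Nat.Coprime.mul_right (hc2 h4) hc5
    have hq : ∀ q : ℕ, q.Prime → q ∣ t → ∃ u : ℤ, (q : ℤ) ∣ u ^ 2 - (-((a : ℤ) * b)) := by
      intro q hq hqt
      have hq25 : q = 2 ∨ q = 5 := by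
        have : q ∣ 2 * 5 := by
          rcases ht' with rfl | ⟨_, rfl | rfl⟩
          · exact hqt.mul_left 2
          · exact hqt.mul_right 5
          · exact hqt
        rcases (Nat.Prime.dvd_mul hq).mp this with h | h
        · exact Or.inl ((Nat.prime_dvd_prime_iff_eq hq Nat.prime_two).mp h)
        · exact Or.inr ((Nat.prime_dvd_prime_iff_eq hq Nat.prime_five).mp h)
      have habZ : (a : ℤ) * b = d := by exact_mod_cast hab
      rw [habZ]
      rcases hq25 with rfl | rfl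
      · rcases Nat.mod_two_eq_zero_or_one d with h | h
        · exact ⟨0, by omega⟩
        · exact ⟨1, by omega⟩
      · rcases h5 with h | h
        · exact ⟨2, by omega⟩
        · exact ⟨1, by omega⟩
    have h8 := norm_of_sol (legendreN hsab htsf h1t hcop h1ab g1 g2 hq)
    rw [hab] at h8
    have ha0 : a ≠ 0 := by rintro rfl; rw [zero_mul] at h1ab; omega
    rcases HN (t * a) hdiv.1 hdiv.2 hta h8 with h9 | h9
    · have := Nat.eq_one_of_mul_eq_one_right h9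
      omega
    · have hbt : t = b := by
        have : a * t = a * b := by rw [hab, mul_comm]; exact h9
        exact Nat.eq_of_mul_eq_mul_left (Nat.pos_of_ne_zero ha0) this
      rw [← hbt] at hcop
      have h10 : t ∣ Nat.gcd (a * t) t := Nat.dvd_gcd (Dvd.intro_left _ rfl) dvd_rfl
      rw [hcop] at h10
      have := Nat.dvd_one.mp h10
      omega

end Vale.Agent.P017.H390
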