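import Vale.Agent.P017.H540.T3
import Vale.Agent.P017.H689.T5
import Vale.Agent.P017.H524.Defs

set_option autoImplicit false

/-! The transposition (T5) for even `d`. -/

namespace Vale.Agent.P017.H390

open Finset Vale.P017.H689 Vale.Agent.P017.H540
open Vale.Agent.P017.H524 (SqMod)

theorem splitAM {d : ℕ} (hsf : Squarefree d) (hev : d % 2 = 0)
    {P : Finset ℕ} (hP : P = d.primeFactors.erase 2) (x : P → ZMod 2) :
    ∃ a b : ℕ, a * (2 * b) = d ∧
      (∀ i : P, (i : ℕ) ∣ b → (AM P).mulVec x i = ee i a) ∧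
      (∀ i : P, (i : ℕ) ∣ a → (AM P).mulVec x i = ee i (2 * b)) ∧
      (∀ e : ℕ → ZMod 2, ∑ j : P, e j * x j = ∑ q ∈ a.primeFactors, e q) ∧
      (a = 1 → x = 0) := by
  classical
  have hd0 : d ≠ 0 := hsf.ne_zero
  have hPp : ∀ p ∈ P, p.Prime := fun p hp => by
    rw [hP] at hp
    exact Nat.prime_of_mem_primeFactors (Finset.mem_of_mem_erase hp)
  have h2P : 2 ∉ P := by rw [hP]; exact Finset.notMem_erase _ _
  have hins : insert 2 P = d.primeFactors := by
    rw [hP]
    exact Finset.insert_erase (Nat.mem_primeFactors.2 ⟨Nat.prime_two, Nat.dvd_of_mod_eq_zero hev, hd0⟩)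
  have hprod : 2 * ∏ p ∈ P, p = d := by
    have h := Finset.prod_insert (f := fun p : ℕ => p) h2P
    rw [hins, Nat.prod_primeFactors_of_squarefree hsf] at h
    exact h.symm
  have hndvd : ∀ p ∈ P, ∀ q ∈ P, p ≠ q → ¬ p ∣ q := by
    intro p hp q hq hpq h
    exact hpq ((Nat.prime_dvd_prime_iff_eq (hPp p hp) (hPp q hq)).mp h)
  have hnd2 : ∀ p ∈ P, ¬ p ∣ 2 := by
    intro p hp h
    rw [(Nat.prime_dvd_prime_iff_eq (hPp p hp) Nat.prime_two).mp h] at hp
    exact h2P hp
  let y : ℕ → ZMod 2 := fun q => if h : q ∈ P then x ⟨q, h⟩ else 0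
  have hxy : x = fun j : P => y j := by
    funext j
    simp only [y, dif_pos j.2]
  set S := P.filter (fun q => y q = 1) with hS
  set S' := P.filter (fun q => ¬ y q = 1) with hS'
  have hSP : S ⊆ P := Finset.filter_subset _ _
  have hSP' : S' ⊆ P := Finset.filter_subset _ _
  have hmul : (∏ q ∈ S, q) * ∏ q ∈ S', q = ∏ q ∈ P, q := Finset.prod_filter_mul_prod_filter_not _ _ _
  have hrow : ∀ i : P, (AM P).mulVec x i = ∑ j ∈ P.erase (i : ℕ), ee i j * y j +
      (ee i 2 + ∑ k ∈ P.erase (i : ℕ), ee i k) * y i := by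
    intro i
    have := AM_mulVec P y i
    rw [← hxy] at this
    exact this
  refine ⟨∏ q ∈ S, q, ∏ q ∈ S', q, by rw [← hprod, ← hmul]; ring, ?_, ?_, ?_, ?_⟩
  · intro i hi
    have hip := hPp i i.2
    have hpS := mem_of_dvd_prod (fun q hq => hPp q (hSP' hq)) hip hi
    have hy : y i = 0 := by
      rcases z2 (y i) with h0 | h0
      · exact h0
      · exact absurd h0 (Finset.mem_filter.1 hpS).2
    rw [hrow i, hy, mul_zero, add_zero, sum_ind P i (fun j => ee i j) y S, ee_prod hip]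
    · intro q hq
      refine hndvd i i.2 q (hSP hq) ?_
      intro hiq
      rw [hiq, (Finset.mem_filter.1 hq).2] at hy
      exact one_ne_zero hy
    · intro j
      rw [hS, Finset.mem_filter]
      constructor
      · rintro ⟨h4, h5⟩
        refine ⟨h4, ?_, h5⟩
        rintro rfl
        rw [h5] at hy
        exact one_ne_zero hy
      · rintro ⟨h4, _, h5⟩
        exact ⟨h4, h5⟩
  · intro i hi
    have hip := hPp i i.2
    have hpS := mem_of_dvd_prod (fun q hq => hPp q (hSP hq)) hip hi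
    have hy : y i = 1 := (Finset.mem_filter.1 hpS).2
    have h4 : ∑ j ∈ P.erase (i : ℕ), ee i j * y j + ∑ k ∈ P.erase (i : ℕ), ee i k
        = ∑ j ∈ S', ee i j := by
      rw [← Finset.sum_add_distrib, ← sum_ind P i (fun j => ee i j) (fun j => y j + 1) S']
      · refine Finset.sum_congr rfl fun j _ => ?_
        ring
      · intro j
        rw [hS', Finset.mem_filter]
        have hz : y j + 1 = 1 ↔ ¬ y j = 1 := by
          rcases z2 (y j) with h0 | h0 <;> rw [h0] <;> decide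
        rw [hz]
        constructor
        · rintro ⟨h5, h6⟩
          refine ⟨h5, ?_, h6⟩
          rintro rfl
          exact h6 hy
        · rintro ⟨h5, _, h6⟩
          exact ⟨h5, h6⟩
    have h5 : ¬ (i : ℕ) ∣ ∏ q ∈ S', q := by
      intro h
      have := mem_of_dvd_prod (fun q hq => hPp q (hSP' hq)) hip h
      exact (Finset.mem_filter.1 this).2 hy
    rw [hrow i, hy, mul_one, ee_mul hip (hnd2 i i.2) h5, ee_prod hip]
    · rw [← h4]; ring
    · intro q hq
      refine hndvd i i.2 q (hSP' hq) ?_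
      intro hiq
      rw [hiq] at hy
      exact (Finset.mem_filter.1 hq).2 hy
  · intro e
    have e1 : (∏ q ∈ S, q).primeFactors = S := Nat.primeFactors_prod (fun p hp => hPp p (hSP hp))
    rw [e1, hxy, Finset.sum_coe_sort P (fun q : ℕ => e q * y q), hS, Finset.sum_filter]
    refine Finset.sum_congr rfl fun q _ => ?_
    rcases z2 (y q) with h0 | h0
    · rw [h0]; simp
    · rw [h0]; simp
  · intro h1
    rw [hxy]
    funext j
    rcases z2 (y j) with h0 | h0
    · exact h0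
    · exfalso
      have hjS : (j : ℕ) ∈ S := Finset.mem_filter.2 ⟨j.2, h0⟩
      have := Finset.dvd_prod_of_mem (fun q : ℕ => q) hjS
      rw [h1] at this
      exact (hPp j j.2).one_lt.ne' (Nat.dvd_one.mp this)

theorem kerE {d : ℕ} (hsf : Squarefree d) (hev : d % 2 = 0) (h3 : d % 3 = 1)
    (h5 : d % 5 = 1 ∨ d % 5 = 4)
    (H : ∀ t a b : ℕ, (t = 1 ∨ t = 5) → a * b = d → (t * a) % 3 = 1 →
      (∀ q : ℕ, q.Prime → q ∣ b → IsSquare ((t * a : ℕ) : ZMod q)) →
      (∀ q : ℕ, q.Prime → q ∣ a → IsSquare ((t * b : ℕ) : ZMod q)) → t = 1 ∧ (a = 1 ∨ b = 1))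
    {P : Finset ℕ} (hP : P = d.primeFactors.erase 2) (x : P → ZMod 2) (τ : ZMod 2)
    (hrow : ∀ i : P, (AM P).mulVec x i + ee i 5 * τ = 0)
    (h3row : τ + ∑ j : P, ee 3 j * x j = 0) : τ = 0 ∧ x = 0 := by
  have hd0 : d ≠ 0 := hsf.ne_zero
  obtain ⟨a, b, hab, g1, g2, g3, g4⟩ := splitAM hsf hev hP x
  have hPmem : ∀ q, q ∈ P ↔ q ≠ 2 ∧ q.Prime ∧ q ∣ d := by
    intro q
    rw [hP, Finset.mem_erase, Nat.mem_primeFactors]
    tauto
  have had : a ∣ d := ⟨2 * b, hab.symm⟩
  have hbd : 2 * b ∣ d := ⟨a, by rw [mul_comm]; exact hab.symm⟩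
  have hasf : Squarefree a := hsf.squarefree_of_dvd had
  have hcopr : Nat.Coprime a (2 * b) := by
    rw [← hab] at hsf
    exact Nat.coprime_of_squarefree_mul hsf
  have hnot : ∀ q : ℕ, q.Prime → q ∣ a → ¬ q ∣ 2 * b := fun q hq h h' =>
    hq.one_lt.ne' (Nat.dvd_one.mp (hcopr ▸ Nat.dvd_gcd h h'))
  have h3a : ¬ 3 ∣ a := fun h => by
    have := h.trans had
    omega
  have hp5 : ∀ p : ℕ, p.Prime → p ∣ d → ¬ p ∣ 5 := by
    intro p hp hpd h
    have h6 := (Nat.prime_dvd_prime_iff_eq hp (by norm_num : Nat.Prime 5)).mp h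
    rw [h6] at hpd; omega
  have e35 : ee 3 5 = 1 := by
    rcases z2 (ee 3 5) with h | h
    · rw [ee_three (by norm_num)] at h; omega
    · exact h
  obtain ⟨t, ht, ht3, hte3, htp, hte, hts⟩ : ∃ t : ℕ,
      (t = 1 ∨ t = 5) ∧ ¬ 3 ∣ t ∧ ee 3 t = τ ∧
      (∀ p : ℕ, p.Prime → p ∣ d → ¬ p ∣ t) ∧ (∀ p : ℕ, ee p t = ee p 5 * τ) ∧
      (t = 1 → τ = 0) := by
    rcases z2 τ with ht | ht
    · exact ⟨1, Or.inl rfl, by norm_num, by rw [ee_one, ht],
        fun p hp _ h => hp.one_lt.ne' (Nat.dvd_one.mp h),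
        fun p => by rw [ee_one, ht]; simp, fun _ => ht⟩
    · exact ⟨5, Or.inr rfl, by norm_num, by rw [e35, ht], hp5,
        fun p => by rw [ht]; simp, fun h => by omega⟩
  have hta : (t * a) % 3 = 1 := by
    rw [← ee_three (fun h => by
      rcases Nat.prime_three.dvd_mul.mp h with h6 | h6
      · exact ht3 h6
      · exact h3a h6), ee_mul Nat.prime_three ht3 h3a, hte3, ← sum_ee_pf Nat.prime_three hasf h3a,
      ← g3 (ee 3)]
    exact h3row
  obtain ⟨ht1, hor⟩ := H t a (2 * b) ht hab hta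
    (by
      intro p hp hpb
      by_cases hp2 : p = 2
      · subst hp2; exact sq2 _
      have hpd := hpb.trans hbd
      have hpb' : p ∣ b := by
        rcases hp.dvd_mul.mp hpb with h | h
        · exact absurd ((Nat.prime_dvd_prime_iff_eq hp Nat.prime_two).mp h) hp2
        · exact h
      have hpP : p ∈ P := (hPmem p).2 ⟨hp2, hp, hpd⟩
      have hpa : ¬ p ∣ a := fun h => hnot p hp h hpb
      apply sq_t hp (htp p hp hpd) hpa
      have h6 := hrow ⟨p, hpP⟩
      rw [g1 ⟨p, hpP⟩ hpb'] at h6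
      rw [hte p]
      exact h6)
    (by
      intro p hp hpa
      have hpd := hpa.trans had
      have hp2 : p ≠ 2 := by
        rintro rfl
        exact hnot 2 Nat.prime_two hpa (Dvd.intro _ rfl)
      have hpP : p ∈ P := (hPmem p).2 ⟨hp2, hp, hpd⟩
      apply sq_t hp (htp p hp hpd) (hnot p hp hpa)
      have h6 := hrow ⟨p, hpP⟩
      rw [g2 ⟨p, hpP⟩ hpa] at h6
      rw [hte p]
      exact h6)
  refine ⟨hts ht1, ?_⟩
  rcases hor with h | h
  · exact g4 h
  · omega

/-- the rows of the transposed matrix -/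
theorem rowE {d : ℕ} (hsf : Squarefree d) (hev : d % 2 = 0) (hd3 : ¬ 3 ∣ d)
    {P : Finset ℕ} (hP : P = d.primeFactors.erase 2) {s : ℕ} (hs : s = 1 ∨ s = 3)
    {b c : ℤ} (hbc : b * c = -d) (hb8 : (s * b) % 8 = 1)
    (s1 : ∀ q : ℕ, q.Prime → (q : ℤ) ∣ c → IsSquare ((s * b : ℤ) : ZMod q))
    (s2 : ∀ q : ℕ, q.Prime → (q : ℤ) ∣ b → IsSquare ((s * c : ℤ) : ZMod q)) (i : P) :
    (AM P).transpose.mulVec (fun j : P => if (j : ℕ) ∣ b.natAbs then (1 : ZMod 2) else 0) i
      + ee 3 i * (if s = 3 then 1 else 0) = 0 := by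
  classical
  have hd0 : d ≠ 0 := hsf.ne_zero
  obtain ⟨m, hm⟩ : ∃ m, b.natAbs = m := ⟨_, rfl⟩
  obtain ⟨M, hM⟩ : ∃ M, c.natAbs = M := ⟨_, rfl⟩
  rw [hm]
  have hmM : m * M = d := by
    rw [← hm, ← hM, ← Int.natAbs_mul, hbc]; simp
  have hmd : m ∣ d := ⟨M, hmM.symm⟩
  have hMd : M ∣ d := ⟨m, by rw [mul_comm]; exact hmM.symm⟩
  have hmsf : Squarefree m := hsf.squarefree_of_dvd hmd
  have hMsf : Squarefree M := hsf.squarefree_of_dvd hMd
  have hm0 : m ≠ 0 := hmsf.ne_zero
  have hM0 : M ≠ 0 := hMsf.ne_zero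
  have hcopr : Nat.Coprime m M := by
    rw [← hmM] at hsf
    exact Nat.coprime_of_squarefree_mul hsf
  have hb4 : b % 4 = 1 ∨ b % 4 = 3 := by
    rcases hs with hs | hs <;> rw [hs] at hb8 <;> push_cast at hb8 <;> omega
  have hm2 : ¬ 2 ∣ m := by omega
  have hM2 : 2 ∣ M := by
    have : 2 ∣ m * M := by rw [hmM]; exact Nat.dvd_of_mod_eq_zero hev
    exact ((Nat.Prime.dvd_mul Nat.prime_two).mp this).resolve_left hm2
  obtain ⟨ε, hb, hε⟩ := sign_gen hm hmsf hb4
  have hεs : ((ε : ℕ) : ZMod 2) = if s = 3 then 1 else 0 := by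
    rcases hs with hs | hs <;> rw [hs] at hb8 <;> push_cast at hb8 <;>
      rcases hε with ⟨h6, h7⟩ | ⟨h6, h7⟩ <;>
      first
        | (exfalso; omega)
        | (rw [h7, hs]; decide)
  set k := (m.primeFactors.filter (fun q => q % 4 = 3)).card with hk
  have hc : c = (-1) ^ (k + ε + 1) * M := by
    have h3 : ((-1 : ℤ) ^ (k + ε) * m) * c = ((-1 : ℤ) ^ (k + ε) * m) * ((-1) ^ (k + ε + 1) * M) := by
      rw [← hb, hbc, hb, ← hmM]
      push_cast
      have : ((-1 : ℤ) ^ (k + ε)) * (-1) ^ (k + ε) = 1 := by rw [← mul_pow]; simp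
      rw [pow_succ]
      linear_combination (-(m : ℤ) * M) * (-1) * this * (-1) * (-1)
    have h4 : ((-1 : ℤ) ^ (k + ε) * m) ≠ 0 := by
      rw [← hb]
      omega
    exact mul_left_cancel₀ h4 h3
  have hPmem : ∀ q, q ∈ P ↔ q ≠ 2 ∧ q.Prime ∧ q ∣ d := by
    intro q
    rw [hP, Finset.mem_erase, Nat.mem_primeFactors]
    tauto
  have hPp : ∀ p ∈ P, p.Prime := fun p hp => ((hPmem p).1 hp).2.1
  have hodd : ∀ p ∈ P, p % 2 = 1 := fun p hp => by
    rcases (hPp p hp).eq_two_or_odd with h | h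
    · exact absurd h ((hPmem p).1 hp).1
    · exact h
  have hnot : ∀ q : ℕ, q.Prime → q ∣ m → ¬ q ∣ M := fun q hq h h' =>
    hq.one_lt.ne' (Nat.dvd_one.mp (hcopr ▸ Nat.dvd_gcd h h'))
  have hor : ∀ q ∈ P, ¬ q ∣ m → q ∣ M := by
    intro q hq h
    have := ((hPmem q).1 hq).2.2
    rw [← hmM] at this
    exact ((Nat.Prime.dvd_mul (hPp q hq)).mp this).resolve_left h
  have hmP : ∀ q, q ∈ m.primeFactors ↔ q ∈ P ∧ q ∣ m := by
    intro q
    rw [Nat.mem_primeFactors, hPmem]
    constructor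
    · rintro ⟨h3, h4, _⟩
      refine ⟨⟨?_, h3, h4.trans hmd⟩, h4⟩
      rintro rfl
      exact hm2 h4
    · rintro ⟨⟨_, h3, _⟩, h4⟩
      exact ⟨h3, h4, hm0⟩
  have hip := hPp i i.2
  have hi3 : (i : ℕ) ≠ 3 := fun h => hd3 (h ▸ ((hPmem i).1 i.2).2.2)
  have his : ¬ (i : ℕ) ∣ s := by
    intro h
    rcases hs with h8 | h8
    · rw [h8] at h; exact hip.one_lt.ne' (Nat.dvd_one.mp h)
    · rw [h8] at h
      exact hi3 ((Nat.prime_dvd_prime_iff_eq hip Nat.prime_three).mp h)
  -- the symbol of `s`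
  have hes : ee 3 i * (if s = 3 then (1 : ZMod 2) else 0) =
      ee i s + (if (i : ℕ) % 4 = 3 then ((ε : ℕ) : ZMod 2) else 0) := by
    rcases hs with h8 | h8
    · rw [hεs, h8, ee_one]; simp
    · rw [hεs, h8]
      have h6 := ee_rec' hip Nat.prime_three (hodd i i.2) (by norm_num) hi3
      have h20 := add2 (ee (i : ℕ) 3)
      simp only [if_true, mul_one]
      by_cases h43 : (i : ℕ) % 4 = 3
      · rw [if_pos ⟨h43, by norm_num⟩] at h6
        rw [if_pos h43]
        linear_combination h6 - h20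
      · rw [if_neg (fun h => h43 h.1)] at h6
        rw [if_neg h43]
        linear_combination h6 - h20
  let y : ℕ → ZMod 2 := fun q => if q ∣ m then 1 else 0
  show (AM P).transpose.mulVec (fun j : P => y j) i + _ = 0
  rw [AMT_mulVec hPp hodd y i, hes]
  by_cases hi : (i : ℕ) ∣ m
  · have hiM := hnot i hip hi
    have hyi : y i = 1 := if_pos hi
    rw [hyi, mul_one]
    have hsM : ¬ (i : ℕ) ∣ s * M := fun h => (hip.dvd_mul.mp h).elim his hiM
    have hsq := sq_neg_pow' hip hsM (k + ε + 1) (by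
      have h7 : ((-1 : ℤ) ^ (k + ε + 1) * ((s * M : ℕ) : ℤ) : ℤ) = s * c := by
        rw [hc]; push_cast; ring
      rw [h7]
      apply s2 i hip
      rw [← Int.natAbs_dvd_natAbs, hm]; simpa using hi)
    rw [ee_mul hip his hiM] at hsq
    -- `ee i M`
    have hMi : ee i M = ee i 2 + ∑ j ∈ P.filter (fun q => ¬ q ∣ m), ee i j := by
      have hins : M.primeFactors = insert 2 (P.filter (fun q => ¬ q ∣ m)) := by
        ext q
        rw [Nat.mem_primeFactors, Finset.mem_insert, Finset.mem_filter, hPmem]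
        constructor
        · rintro ⟨h3, h4, _⟩
          by_cases h5 : q = 2
          · exact Or.inl h5
          · exact Or.inr ⟨⟨h5, h3, h4.trans hMd⟩, fun h6 => hnot q h3 h6 h4⟩
        · rintro (rfl | ⟨h3, h4⟩)
          · exact ⟨Nat.prime_two, hM2, hM0⟩
          · exact ⟨h3.2.1, hor q ((hPmem q).2 h3) h4, hM0⟩
      have h2n : 2 ∉ P.filter (fun q => ¬ q ∣ m) := by
        intro h
        exact ((hPmem 2).1 (Finset.mem_filter.1 h).1).1 rfl
      conv_lhs => rw [← Nat.prod_primeFactors_of_squarefree hMsf]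
      rw [ee_prod hip, hins, Finset.sum_insert h2n]
      intro q hq hiq
      have hqp := Nat.prime_of_mem_primeFactors hq
      rw [(Nat.prime_dvd_prime_iff_eq hip hqp).mp hiq] at hiM
      exact hiM (Nat.dvd_of_mem_primeFactors hq)
    have e1 : ∑ j ∈ P.erase (i : ℕ), (ee i j + rc i j) * y j + (ee i 2 +
        ∑ k ∈ P.erase (i : ℕ), ee i k) = ee i 2 + ∑ j ∈ P.erase (i : ℕ), ee i j * (y j + 1)
        + ∑ j ∈ P.erase (i : ℕ), rc i j * y j := by
      have : ∑ j ∈ P.erase (i : ℕ), (ee i j + rc i j) * y j = ∑ j ∈ P.erase (i : ℕ), ee i j * y j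
          + ∑ j ∈ P.erase (i : ℕ), rc i j * y j := by
        rw [← Finset.sum_add_distrib]
        exact Finset.sum_congr rfl fun j _ => by ring
      have h' : ∑ j ∈ P.erase (i : ℕ), ee i j * (y j + 1) = ∑ j ∈ P.erase (i : ℕ), ee i j * y j
          + ∑ j ∈ P.erase (i : ℕ), ee i j := by
        rw [← Finset.sum_add_distrib]
        exact Finset.sum_congr rfl fun j _ => by ring
      rw [this, h']
      ring
    rw [e1, sum_ind P i (fun j => ee i j) (fun j => y j + 1) (P.filter (fun q => ¬ q ∣ m)),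
      sum_ind P i (fun j => rc i j) y (m.primeFactors.erase i), ← hMi]
    · have h5 : ∑ j ∈ m.primeFactors.erase (i : ℕ), rc i j = (∑ j ∈ m.primeFactors, rc i j) + rc i i := by
        rw [← Finset.add_sum_erase m.primeFactors (fun j => rc i j) ((hmP i).2 ⟨i.2, hi⟩)]
        have := add2 (rc i i)
        linear_combination (-1 : ZMod 2) * this
      rw [h5, sum_rc, ← hk]
      by_cases h6 : (i : ℕ) % 4 = 3
      · rw [if_pos h6] at hsq
        rw [if_pos h6, if_pos h6]
        unfold rc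
        rw [if_pos ⟨h6, h6⟩]
        push_cast at hsq
        linear_combination hsq
      · rw [if_neg h6] at hsq
        rw [if_neg h6, if_neg h6]
        unfold rc
        rw [if_neg (fun h => h6 h.1)]
        linear_combination hsq
    · intro j
      rw [Finset.mem_erase, hmP]
      simp only [y]
      constructor
      · rintro ⟨h6, h7, h8⟩
        exact ⟨h7, h6, if_pos h8⟩
      · rintro ⟨h6, h7, h8⟩
        refine ⟨h7, h6, ?_⟩
        by_contra h9
        rw [if_neg h9] at h8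
        exact zero_ne_one h8
    · intro j
      rw [Finset.mem_filter]
      simp only [y]
      constructor
      · rintro ⟨h6, h7⟩
        refine ⟨h6, ?_, ?_⟩
        · rintro rfl
          exact h7 hi
        · rw [if_neg h7, zero_add]
      · rintro ⟨h6, _, h8⟩
        refine ⟨h6, fun h9 => ?_⟩
        rw [if_pos h9] at h8
        exact absurd h8 (by decide)
  · have hyi : y i = 0 := if_neg hi
    rw [hyi, mul_zero, add_zero]
    have hiM := hor i i.2 hi
    have hsm : ¬ (i : ℕ) ∣ s * m := fun h => (hip.dvd_mul.mp h).elim his hi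
    have hsq := sq_neg_pow' hip hsm (k + ε) (by
      have h7 : ((-1 : ℤ) ^ (k + ε) * ((s * m : ℕ) : ℤ) : ℤ) = s * b := by
        conv_rhs => rw [hb]
        push_cast; ring
      rw [h7]
      apply s1 i hip
      rw [← Int.natAbs_dvd_natAbs, hM]; simpa using hiM)
    rw [ee_mul hip his hi] at hsq
    rw [sum_ind P i (fun j => ee i j + rc i j) y m.primeFactors, Finset.sum_add_distrib,
      sum_rc, ← hk, sum_ee_pf hip hmsf hi]
    · by_cases h6 : (i : ℕ) % 4 = 3
      · rw [if_pos h6] at hsq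
        rw [if_pos h6, if_pos h6]
        push_cast at hsq
        linear_combination hsq
      · rw [if_neg h6] at hsq
        rw [if_neg h6, if_neg h6]
        linear_combination hsq
    · intro j
      rw [hmP]
      simp only [y]
      constructor
      · rintro ⟨h6, h7⟩
        refine ⟨h6, ?_, if_pos h7⟩
        rintro rfl
        exact hi h7
      · rintro ⟨h6, _, h8⟩
        refine ⟨h6, ?_⟩
        by_contra h9
        rw [if_neg h9] at h8
        exact zero_ne_one h8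

/-- the column of `5` -/
theorem colE {d : ℕ} (hsf : Squarefree d) (h5 : d % 5 = 1 ∨ d % 5 = 4)
    {P : Finset ℕ} (hP : P = d.primeFactors.erase 2) {s : ℕ} (hs : s = 1 ∨ s = 3) {b : ℤ}
    (hbd : b.natAbs ∣ d) (hb2 : b % 2 = 1) (c5 : (s * b) % 5 = 1 ∨ (s * b) % 5 = 4) :
    ∑ i : P, ee i 5 * (if (i : ℕ) ∣ b.natAbs then (1 : ZMod 2) else 0)
      + (if s = 3 then 1 else 0) = 0 := by
  obtain ⟨m, hm⟩ : ∃ m, b.natAbs = m := ⟨_, rfl⟩
  rw [hm] at hbd ⊢
  have hm2 : ¬ 2 ∣ m := by omega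
  have hd0 : d ≠ 0 := hsf.ne_zero
  have hmsf : Squarefree m := hsf.squarefree_of_dvd hbd
  have hm0 : m ≠ 0 := hmsf.ne_zero
  have two : ∀ t : ZMod 2, t + t = 0 := by decide
  have h5m : ¬ 5 ∣ m := fun h => by
    have := h.trans hbd
    omega
  have e1 : ∑ i : P, ee i 5 * (if (i : ℕ) ∣ m then (1 : ZMod 2) else 0)
      = ∑ q ∈ P, (if q ∣ m then ee q 5 else 0) := by
    rw [← Finset.sum_coe_sort P (fun q => if q ∣ m then ee q 5 else 0)]
    refine Finset.sum_congr rfl fun j _ => ?_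
    split_ifs <;> simp
  have e2 : P.filter (fun q => q ∣ m) = m.primeFactors := by
    ext q
    rw [Finset.mem_filter, hP, Finset.mem_erase]
    constructor
    · rintro ⟨⟨_, h5⟩, h6⟩
      exact Nat.mem_primeFactors.mpr ⟨Nat.prime_of_mem_primeFactors h5, h6, hm0⟩
    · intro h5
      have hqm := Nat.dvd_of_mem_primeFactors h5
      refine ⟨⟨?_, Nat.primeFactors_mono hbd hd0 h5⟩, hqm⟩
      rintro rfl
      exact hm2 hqm
  have e3 : ∑ q ∈ m.primeFactors, ee q 5 = ∑ q ∈ m.primeFactors, ee 5 q := by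
    refine Finset.sum_congr rfl fun q hq => ?_
    have hqp := Nat.prime_of_mem_primeFactors hq
    have hqm := Nat.dvd_of_mem_primeFactors hq
    have hq2 : q % 2 = 1 := by
      rcases hqp.eq_two_or_odd with h | h
      · rw [h] at hqm; exact absurd hqm hm2
      · exact h
    have hq5 : q ≠ 5 := fun h => h5m (h ▸ Nat.dvd_of_mem_primeFactors hq)
    have h6 := ee_rec' hqp (by norm_num : Nat.Prime 5) hq2 (by norm_num) hq5
    rw [if_neg (by norm_num)] at h6
    have h20 := two (ee 5 q)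
    linear_combination h6 - h20
  rw [e1, ← Finset.sum_filter, e2, e3, sum_ee_pf (by norm_num) hmsf h5m]
  have h5sm : ¬ 5 ∣ s * m := by
    intro h
    rcases (by norm_num : Nat.Prime 5).dvd_mul.mp h with h7 | h7
    · rcases hs with h8 | h8 <;> rw [h8] at h7 <;> omega
    · exact h5m h7
  have h5s : ¬ 5 ∣ s := fun h => h5sm (h.mul_right m)
  have hsm : (s * m) % 5 = 1 ∨ (s * m) % 5 = 4 := by
    rcases hs with h8 | h8 <;> rw [h8] at c5 ⊢ <;> push_cast at c5 <;> omega
  have h9 := (ee_five h5sm).mpr hsm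
  rw [ee_mul (by norm_num) h5s h5m] at h9
  have h10 : ee 5 s = if s = 3 then 1 else 0 := by
    rcases hs with h8 | h8
    · rw [h8, ee_one]; rfl
    · rw [h8, if_pos rfl]
      rcases z2 (ee 5 3) with h | h
      · rw [ee_five (by norm_num)] at h; omega
      · exact h
  rw [← h10, add_comm]
  exact h9

/-- the square matrix, `d` even -/
noncomputable def ME (P : Finset ℕ) : Matrix (Option P) (Option P) (ZMod 2)
  | some i, some j => AM P i j
  | some i, none => ee i 5
  | none, some j => ee 3 j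
  | none, none => 1

theorem T5E_aux {d : ℕ} (hsf : Squarefree d) (hev : d % 2 = 0)
    (h3 : d % 3 = 1) (h5 : d % 5 = 1 ∨ d % 5 = 4)
    (H : ∀ t a b : ℕ, (t = 1 ∨ t = 5) → a * b = d → (t * a) % 3 = 1 →
      (∀ q : ℕ, q.Prime → q ∣ b → IsSquare ((t * a : ℕ) : ZMod q)) →
      (∀ q : ℕ, q.Prime → q ∣ a → IsSquare ((t * b : ℕ) : ZMod q)) → t = 1 ∧ (a = 1 ∨ b = 1))
    {s : ℕ} (hs : s = 1 ∨ s = 3) {b c : ℤ} (hbc : b * c = -d)
    (hb8 : (s * b) % 8 = 1) (c5 : (s * b) % 5 = 1 ∨ (s * b) % 5 = 4)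
    (s1 : ∀ q : ℕ, q.Prime → (q : ℤ) ∣ c → IsSquare ((s * b : ℤ) : ZMod q))
    (s2 : ∀ q : ℕ, q.Prime → (q : ℤ) ∣ b → IsSquare ((s * c : ℤ) : ZMod q)) :
    s = 1 ∧ b = 1 := by
  classical
  have hd3 : ¬ 3 ∣ d := by omega
  have hd0 : d ≠ 0 := hsf.ne_zero
  obtain ⟨P, hP⟩ : ∃ P : Finset ℕ, P = d.primeFactors.erase 2 := ⟨_, rfl⟩
  obtain ⟨m, hm⟩ : ∃ m, b.natAbs = m := ⟨_, rfl⟩
  have hbd : b.natAbs ∣ d := by
    refine ⟨c.natAbs, ?_⟩
    rw [← Int.natAbs_mul, hbc]; simp
  have hb2 : b % 2 = 1 := by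
    rcases hs with hs | hs <;> rw [hs] at hb8 <;> push_cast at hb8 <;> omega
  have h := ker_transpose0 (ME P) (fun x hx => by
      obtain ⟨k1, k2⟩ := kerE hsf hev h3 h5 H hP (fun j => x (some j)) (x none)
        (by
          intro i
          have := congrFun hx (some i)
          simp only [Matrix.mulVec, dotProduct, Fintype.sum_option, ME, Pi.zero_apply] at this
          simp only [Matrix.mulVec, dotProduct]
          rw [add_comm]; exact this)
        (by
          have := congrFun hx none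
          simp only [Matrix.mulVec, dotProduct, Fintype.sum_option, ME, Pi.zero_apply, one_mul]
            at this
          exact this)
      ext o
      rcases o with _ | j
      · exact k1
      · exact congrFun k2 j)
    (fun o : Option P => o.elim (if s = 3 then (1 : ZMod 2) else 0)
      (fun j : P => if (j : ℕ) ∣ b.natAbs then (1 : ZMod 2) else 0))
    (by
      funext o
      rcases o with _ | j
      · have h9 := colE hsf h5 hP hs hbd hb2 c5
        simp only [Matrix.mulVec, dotProduct, Fintype.sum_option, Matrix.transpose_apply, ME,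
          Option.elim, one_mul, Pi.zero_apply]
        rw [add_comm]; exact h9
      · have h9 := rowE hsf hev hd3 hP hs hbc hb8 s1 s2 j
        simp only [Matrix.mulVec, dotProduct, Matrix.transpose_apply] at h9
        simp only [Matrix.mulVec, dotProduct, Fintype.sum_option, Matrix.transpose_apply, ME,
          Option.elim, Pi.zero_apply]
        rw [add_comm]; exact h9)
  have hs3 : s = 1 := by
    have := congrFun h none
    simp only [Option.elim, Pi.zero_apply] at this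
    rcases hs with h8 | h8
    · exact h8
    · rw [h8] at this; exact absurd this (by decide)
  refine ⟨hs3, ?_⟩
  have hm1 : m = 1 := by
    by_contra hm1
    obtain ⟨p, hp, hpm⟩ := Nat.exists_prime_and_dvd hm1
    have hp2 : p ≠ 2 := by
      rintro rfl
      omega
    have hpP : p ∈ P := by
      rw [hP, Finset.mem_erase]
      exact ⟨hp2, Nat.mem_primeFactors.mpr ⟨hp, (hpm.trans (hm ▸ hbd)), hd0⟩⟩
    have := congrFun h (some ⟨p, hpP⟩)
    simp [hm, hpm] at this
  rw [hm1] at hm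
  rw [hs3] at hb8
  push_cast at hb8
  omega

/-- **(T5)** for even `d`. -/
theorem t5_even {d : ℕ} (hsf : Squarefree d) (hev : d % 2 = 0) (h3 : d % 3 = 1)
    (h5 : d % 5 = 1 ∨ d % 5 = 4)
    (H : ∀ t a b : ℕ, (t = 1 ∨ t = 5 ∨ (d % 4 = 1 ∧ (t = 2 ∨ t = 10))) → a * b = d →
      (t * a) % 3 = 1 → SqMod ((t : ℤ) * a) b → SqMod ((t : ℤ) * b) a →
      t = 1 ∧ (a = 1 ∨ b = 1))
    (s b c : ℤ) (hs : s = 1 ∨ s = 3) (hbc : b * c = -d)
    (c2 : d % 4 ≠ 3 → (s * b) % 8 = 1 ∨ (s * c) % 8 = 1)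
    (c5 : (s * b) % 5 = 1 ∨ (s * b) % 5 = 4)
    (s1 : SqMod (s * b) c) (s2 : SqMod (s * c) b) : s = 1 ∧ (b = 1 ∨ c = 1) := by
  have H' : ∀ t a b : ℕ, (t = 1 ∨ t = 5) → a * b = d → (t * a) % 3 = 1 →
      (∀ q : ℕ, q.Prime → q ∣ b → IsSquare ((t * a : ℕ) : ZMod q)) →
      (∀ q : ℕ, q.Prime → q ∣ a → IsSquare ((t * b : ℕ) : ZMod q)) →
      t = 1 ∧ (a = 1 ∨ b = 1) := by
    intro t a b ht hab hta g1 g2
    refine H t a b (by tauto) hab hta ?_ ?_
    · intro q hq hqb
      have := g1 q hq (Int.natCast_dvd_natCast.mp hqb)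
      push_cast at this ⊢
      exact this
    · intro q hq hqb
      have := g2 q hq (Int.natCast_dvd_natCast.mp hqb)
      push_cast at this ⊢
      exact this
  obtain ⟨s', hs', hs1⟩ : ∃ s' : ℕ, (s' = 1 ∨ s' = 3) ∧ s = s' := by
    rcases hs with h | h
    · exact ⟨1, Or.inl rfl, by rw [h]; rfl⟩
    · exact ⟨3, Or.inr rfl, by rw [h]; rfl⟩
  subst hs1
  rcases c2 (by omega) with h8 | h8
  · obtain ⟨h6, h7⟩ := T5E_aux hsf hev h3 h5 H' hs' hbc h8 c5 s1 s2
    exact ⟨by rw [h6]; rfl, Or.inl h7⟩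
  · have c5' : ((s' : ℤ) * c) % 5 = 1 ∨ ((s' : ℤ) * c) % 5 = 4 := by
      have e : ((s' : ℤ) * b) * (s' * c) = -((s' : ℤ) ^ 2 * d) := by
        linear_combination (s' : ℤ) ^ 2 * hbc
      have e5 : (((s' : ℤ) * b) * (s' * c)) % 5 = (-((s' : ℤ) ^ 2 * d)) % 5 := by rw [e]
      have hx : ∀ x : ℤ, x % 5 = 0 ∨ x % 5 = 1 ∨ x % 5 = 2 ∨ x % 5 = 3 ∨ x % 5 = 4 := by
        intro x; omega
      generalize (s' : ℤ) * c = u at *
      generalize (s' : ℤ) * b = v at *
      rw [Int.mul_emod] at e5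
      rcases hs' with h9 | h9 <;> rw [h9] at e5 <;> push_cast at e5 <;>
        rcases c5 with h1 | h1 <;> rw [h1] at e5 <;>
        rcases hx u with h2 | h2 | h2 | h2 | h2 <;> rw [h2] at e5 <;>
        first
          | (left; exact h2)
          | (right; exact h2)
          | (exfalso; omega)
    obtain ⟨h6, h7⟩ := T5E_aux hsf hev h3 h5 H' hs' (by rw [mul_comm]; exact hbc) h8 c5' s2 s1
    exact ⟨by rw [h6]; rfl, Or.inr h7⟩

end Vale.Agent.P017.H390
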