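import Vale.Agent.P017.H390.NormB
import Vale.Agent.P017.H390.T5E
import Vale.Agent.P017.H689.T5C
import Vale.Agent.P017.H524.ClassEB

set_option autoImplicit false

/-! `3` inert and `5` split: the norm form of the criterion gives exactly 8 points. -/

namespace Vale.Agent.P017.H390

open NumberField
open Vale.Agent.P017.H524 (SqMod CritB X015)

theorem critB_of_norm {d : ℕ} (hsf : Squarefree d) (hd1 : 1 < d)
    (h15 : d % 15 = 1 ∨ d % 15 = 4)
    (HN : ∀ m : ℕ, m ∣ 10 * d → (m ∣ 5 * d ∨ d % 4 = 1) → m % 3 = 1 →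
      (∃ x y : ℚ, x ^ 2 + d * y ^ 2 = m) → m = 1 ∨ m = d) : CritB (d : ℤ) := by
  have h3 : d % 3 = 1 := by omega
  have h5 : d % 5 = 1 ∨ d % 5 = 4 := by omega
  have H := normB hsf hd1 h3 h5 HN
  constructor
  · intro s b c hs hbc c1 c2 c5 s1 s2
    have c1' : d % 4 = 3 → (s * b) % 4 = 1 := fun h => c1 (by omega)
    have c2' : d % 4 ≠ 3 → (s * b) % 8 = 1 ∨ (s * c) % 8 = 1 := fun h => c2 (by omega)
    rcases Nat.mod_two_eq_zero_or_one d with h | h
    · exact t5_even hsf h h3 h5 H s b c hs hbc c2' c5 s1 s2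
    · exact Vale.Agent.P017.H689.T5_odd hsf h h3 h5 H s b c hs hbc c1' c2' c5 s1 s2
  · intro t a b ht ha hab hta s1 s2
    have hb : 0 < b := by
      have : 0 < a * b := by rw [hab]; exact_mod_cast (by omega : 0 < d)
      exact (pos_iff_pos_of_mul_pos this).mp ha
    lift a to ℕ using ha.le
    lift b to ℕ using hb.le
    have hab' : a * b = d := by exact_mod_cast hab
    obtain ⟨t', ht', htt⟩ : ∃ t' : ℕ, (t' = 1 ∨ t' = 5 ∨ (d % 4 = 1 ∧ (t' = 2 ∨ t' = 10))) ∧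
        t = t' := by
      rcases ht with h | h | ⟨h4, h | h⟩
      · exact ⟨1, Or.inl rfl, by rw [h]; rfl⟩
      · exact ⟨5, Or.inr (Or.inl rfl), by rw [h]; rfl⟩
      · exact ⟨2, Or.inr (Or.inr ⟨by omega, Or.inl rfl⟩), by rw [h]; rfl⟩
      · exact ⟨10, Or.inr (Or.inr ⟨by omega, Or.inr rfl⟩), by rw [h]; rfl⟩
    subst htt
    have hta' : (t' * a) % 3 = 1 := by exact_mod_cast hta
    obtain ⟨h6, h7⟩ := H t' a b ht' hab' hta' s1 s2
    refine ⟨by rw [h6]; rfl, ?_⟩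
    rcases h7 with h | h
    · left; rw [h]; rfl
    · right; rw [h]; rfl

universe u

theorem eight_norm {d : ℕ} (hsf : Squarefree d) (hd1 : 1 < d)
    (h15 : d % 15 = 1 ∨ d % 15 = 4)
    (HN : ∀ m : ℕ, m ∣ 10 * d → (m ∣ 5 * d ∨ d % 4 = 1) → m % 3 = 1 →
      (∃ x y : ℚ, x ^ 2 + d * y ^ 2 = m) → m = 1 ∨ m = d)
    (K : Type u) [Field K] [NumberField K] (hK : Module.finrank ℚ K = 2)
    (hα : ∃ α : K, α ^ 2 = -(d : K)) : Nat.card (X015.baseChange K).toAffine.Point = 8 :=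
  Vale.Agent.P017.H524.eight_B hsf hd1 h15 (critB_of_norm hsf hd1 h15 HN) hK hα

end Vale.Agent.P017.H390
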